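import Vale.Agent.P073.H235.ConSpec

/-!
# P073: tools for the smoothing and the squeeze of conical outputs on boxes
-/

namespace Vale.Agent.P073.H761

open MeasureTheory Set Filter Topology Metric Vale.Agent.P073.LOC Vale.Agent.P073.H235
open Vale.Agent.P073.St (V Mat)
open Vale.Agent.P073.SQ (ev cube Cells)
open scoped ContDiff ENNReal

/-! ### Boxes -/

theorem Bx_eq_pi (a : V) : Bx a = Set.pi univ fun i => Ioo 0 (a i) := by
  ext x; simp [Bx, Set.mem_pi]

theorem isOpen_box (a : V) : IsOpen (Bx a) := by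
  rw [Bx_eq_pi]
  exact isOpen_set_pi finite_univ fun _ _ => isOpen_Ioo

theorem convex_Bx (a : V) : Convex ℝ (Bx a) := by
  rw [Bx_eq_pi]
  exact convex_pi fun _ _ => convex_Ioo _ _

theorem isBoundedDomain_Bx {a : V} (ha : ∀ i, 0 < a i) : St.IsBoundedDomain (Bx a) := by
  refine ⟨isOpen_box a, ⟨⟨fun i => a i / 2, fun i => ?_⟩, (convex_Bx a).isPreconnected⟩, ?_⟩
  · have := ha i
    constructor <;> linarith
  · refine ⟨2 * ‖a‖, fun x hx => (AB.euc_le_norm x).trans ?_⟩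
    have : ‖x‖ ≤ ‖a‖ := by
      rw [pi_norm_le_iff_of_nonneg (norm_nonneg _)]
      intro i
      have h1 := hx i
      have h2 := norm_le_pi_norm a i
      rw [Real.norm_eq_abs, abs_of_pos h1.1]
      rw [Real.norm_eq_abs, abs_of_pos (ha i)] at h2
      linarith
    linarith

theorem closure_Bx_sub (a : V) : closure (Bx a) ⊆ {x | ∀ i, 0 ≤ x i ∧ x i ≤ a i} := by
  refine closure_minimal (fun x hx i => ⟨(hx i).1.le, (hx i).2.le⟩) ?_
  have : {x : V | ∀ i, 0 ≤ x i ∧ x i ≤ a i} = ⋂ i, {x | 0 ≤ x i ∧ x i ≤ a i} := by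
    ext x; simp
  rw [this]
  exact isClosed_iInter fun i => (isClosed_le continuous_const (continuous_apply i)).inter
    (isClosed_le (continuous_apply i) continuous_const)

/-! ### Closeness at the boundary -/

/-- a nearby map is close at the boundary, too -/
theorem bdClose_of_close {Ω : Set V} (hΩ : IsOpen Ω) (hb : Bornology.IsBounded Ω)
    (hne : (Ωᶜ : Set V).Nonempty) {f h G : V → V} (hf : BdClose Ω f h)
    (hG : ∀ x ∈ Ω, ‖G x - h x‖ ≤ infDist x Ωᶜ) : BdClose Ω f G := by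
  intro δ hδ
  obtain ⟨K, hK, hKc, hKf⟩ := hf (δ / 2) (by positivity)
  set K' : Set V := {x | δ / 2 ≤ infDist x Ωᶜ} ∩ closure Ω with hK'
  have hK'c : IsCompact K' := hb.isCompact_closure.inter_left
    (isClosed_le continuous_const (continuous_infDist_pt _))
  have hK'Ω : K' ⊆ Ω := by
    rintro x ⟨hx, -⟩
    by_contra hcon
    have : infDist x Ωᶜ = 0 := infDist_zero_of_mem hcon
    have hx' : δ / 2 ≤ infDist x Ωᶜ := hx
    linarith
  refine ⟨K ∪ K', union_subset hK hK'Ω, hKc.union hK'c, fun x hx => ?_⟩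
  have h1 := hKf x ⟨hx.1, fun h => hx.2 (Or.inl h)⟩
  have h2 := hG x hx.1
  have h3 : infDist x Ωᶜ < δ / 2 := by
    by_contra hcon
    push Not at hcon
    exact hx.2 (Or.inr ⟨hcon, subset_closure hx.1⟩)
  calc ‖G x - f x‖ ≤ ‖G x - h x‖ + ‖h x - f x‖ := norm_sub_le_norm_sub_add_norm_sub _ _ _
    _ ≤ δ := by linarith

theorem mem_cube_dist {c x y : V} {ρ : ℝ} (hx : x ∈ cube c ρ) (hy : y ∈ cube c ρ) :
    ‖x - y‖ ≤ 2 * ρ := by
  have hρ : 0 ≤ ρ := (abs_nonneg _).trans (hx 0)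
  rw [pi_norm_le_iff_of_nonneg (by positivity)]
  intro i
  rw [Pi.sub_apply, Real.norm_eq_abs]
  have h1 := hx i
  have h2 := hy i
  rw [abs_le] at h1 h2 ⊢
  constructor <;> linarith

theorem cells_fin {Ω : Set V} (W : Cells Ω ∅) {A : Set V} (hA : A ⊆ Ω) (hAc : IsCompact A) :
    {i | (cube (W.c i) (W.ρ i) ∩ A).Nonempty}.Finite := by
  have hex : ∀ x ∈ A, ∃ N ∈ 𝓝 x, {i | (cube (W.c i) (W.ρ i) ∩ N).Nonempty}.Finite :=
    fun x hx => W.fin x (hA hx)
  choose! N hN hNf using hex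
  obtain ⟨T, hTA, hTc⟩ := hAc.elim_nhds_subcover N hN
  refine (T.finite_toSet.biUnion fun x hx => hNf x (hTA x hx)).subset ?_
  rintro i ⟨y, hy, hyA⟩
  obtain ⟨x, hx, hyx⟩ := mem_iUnion₂.1 (hTc hyA)
  exact mem_iUnion₂.2 ⟨x, hx, ⟨y, hy, hyx⟩⟩

/-- the squeeze preserves closeness at the boundary -/
theorem bdClose_squeeze {Ω : Set V} (W : Cells Ω ∅) (hsm : ∀ δ > 0, {i | δ ≤ W.ρ i}.Finite)
    {f G s : V → V} (hfu : UniformContinuousOn f Ω) (hf : BdClose Ω f G)
    (hs : ∀ i, ∀ x ∈ cube (W.c i) (W.ρ i), s x ∈ cube (W.c i) (W.ρ i)) :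
    BdClose Ω f (G ∘ s) := by
  intro δ hδ
  obtain ⟨η, hη, hfη⟩ := Metric.uniformContinuousOn_iff_le.1 hfu (δ / 2) (by positivity)
  obtain ⟨K, hK, hKc, hKf⟩ := hf (δ / 2) (by positivity)
  set I : Set W.ι := {i | η / 2 ≤ W.ρ i} ∪ {i | (cube (W.c i) (W.ρ i) ∩ K).Nonempty} with hI
  have hIf : I.Finite := (hsm _ (by positivity)).union (cells_fin W hK hKc)
  refine ⟨⋃ i ∈ I, cube (W.c i) (W.ρ i), iUnion₂_subset fun i _ => W.sub i,
    hIf.isCompact_biUnion fun i _ => AB.isCompact_cube _ _, fun x hx => ?_⟩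
  obtain ⟨i, hi⟩ : ∃ i, x ∈ cube (W.c i) (W.ρ i) := by
    rcases W.cover hx.1 with h | h
    · exact absurd h (notMem_empty x)
    · exact mem_iUnion.1 h
  have hiI : i ∉ I := fun h => hx.2 (mem_iUnion₂.2 ⟨i, h, hi⟩)
  have h1 : W.ρ i < η / 2 := by
    by_contra hcon
    push Not at hcon
    exact hiI (Or.inl hcon)
  have hsx := hs i x hi
  have hsK : s x ∉ K := fun h => hiI (Or.inr ⟨s x, hsx, h⟩)
  have h2 := hKf (s x) ⟨W.sub i hsx, hsK⟩
  have h3 : dist (f (s x)) (f x) ≤ δ / 2 := by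
    refine hfη (s x) (W.sub i hsx) x hx.1 ?_
    rw [dist_eq_norm]
    exact (mem_cube_dist hsx hi).trans (by linarith)
  rw [dist_eq_norm] at h3
  calc ‖(G ∘ s) x - f x‖ ≤ ‖G (s x) - f (s x)‖ + ‖f (s x) - f x‖ :=
        norm_sub_le_norm_sub_add_norm_sub _ _ _
    _ ≤ δ := by linarith

/-! ### Derivatives in a plane of fixed points -/

/-- if `s` fixes the points of the plane `x k = c`, then `G ∘ s` has the same tangential
derivatives as `G` -/
theorem fderiv_comp_plane {Ω : Set V} (hΩ : IsOpen Ω) {G s : V → V} {k : Fin 3} {c : ℝ}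
    (hs : ContDiffOn ℝ ∞ s Ω) (hG : ContDiffOn ℝ ∞ G Ω) (hfix : ∀ x ∈ Ω, x k = c → s x = x)
    {x v : V} (hx : x ∈ Ω) (hxk : x k = c) (hv : v k = 0) :
    fderiv ℝ (G ∘ s) x v = fderiv ℝ G x v := by
  have ds : DifferentiableAt ℝ s x :=
    ((hs x hx).contDiffAt (hΩ.mem_nhds hx)).differentiableAt (by simp)
  have dG : DifferentiableAt ℝ G x :=
    ((hG x hx).contDiffAt (hΩ.mem_nhds hx)).differentiableAt (by simp)
  have hsx : s x = x := hfix x hx hxk
  have e1 : fderiv ℝ s x v = v := by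
    rw [← ds.lineDeriv_eq_fderiv]
    have h1 : (fun t : ℝ => s (x + t • v)) =ᶠ[𝓝 0] fun t : ℝ => x + t • v := by
      have hc : Continuous fun t : ℝ => x + t • v := by fun_prop
      have h2 : ∀ᶠ t : ℝ in 𝓝 0, x + t • v ∈ Ω :=
        hc.continuousAt.eventually_mem (by simpa using hΩ.mem_nhds hx)
      filter_upwards [h2] with t ht
      refine hfix _ ht ?_
      simp [hv, hxk]
    unfold lineDeriv
    rw [h1.deriv_eq]
    have h3 : HasDerivAt (fun t : ℝ => x + t • v) v 0 := by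
      have := ((hasDerivAt_id (0:ℝ)).smul_const v).const_add x
      simpa using this
    exact h3.deriv
  rw [← hsx] at dG
  rw [fderiv_comp x dG ds, ContinuousLinearMap.comp_apply, e1, hsx]

end Vale.Agent.P073.H761
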