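import Vale.Agent.P073.H761.GenSup
import Vale.Agent.P073.ConHomeo
import Vale.Agent.P073.H989.Bz

/-!
# P073, block H761, [GEN-CONV] for a countable family of domains

For countably many sets `R i` with their own sequences `φ i j → f` in `W^{1,q}(R i)`: after passing
to subsequences, for almost every origin `v` the derivatives converge on all dyadic edges and
squares (on the part in `R i`).
-/

open Set Metric Topology Filter MeasureTheory
open scoped ENNReal

namespace Vale.Agent.P073.H761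


open Vale.Agent.P073.AB (Idx pt edge eInt cl)
open Vale.Agent.P073.St (V Mat)
open _root_.P073 (ConHomeo)
open _root_.P073.Net (dyc dyo)
open Vale.Agent.P073.H194
open Vale.Agent.P073.SQ (ev)

section field

variable {E : Type*} [NormedAddCommGroup E]

/-- the difference field is small on the edges and squares of `v`; `tri`: the triangle inequality
on the squares (it needs measurability, which is lost for a fixed origin) -/
structure NetConv (q : ℝ) (v : V) (R : Set V) (Gk : ℕ → V → E) (G : V → E) : Prop where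
  edgeq : ∀ e, Tendsto (fun k => eInt v e fun x => ‖R.indicator (fun x => Gk k x - G x) x‖ₑ ^ q)
    atTop (𝓝 0)
  edge1 : ∀ e, Tendsto (fun k => eInt v e fun x => ‖R.indicator (fun x => Gk k x - G x) x‖ₑ)
    atTop (𝓝 0)
  squ : ∀ s, Tendsto (fun k => sInt v s fun x => ‖R.indicator (fun x => Gk k x - G x) x‖ₑ ^ q)
    atTop (𝓝 0)
  tri : ∀ k s, (sInt v s fun x => ‖R.indicator (Gk k) x‖ₑ ^ q) ≤
    2 ^ (q - 1) * ((sInt v s fun x => ‖R.indicator G x‖ₑ ^ q) +
      sInt v s fun x => ‖R.indicator (fun x => Gk k x - G x) x‖ₑ ^ q)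

/-- edges in `R` -/
theorem NetConv.edge_in {q : ℝ} {v : V} {R : Set V} {Gk : ℕ → V → E} {G : V → E}
    (h : NetConv q v R Gk G) {e : Idx × Fin 3} (he : edge v e ⊆ R) :
    Tendsto (fun k => eInt v e fun x => ‖Gk k x - G x‖ₑ) atTop (𝓝 0) := by
  have h1 := h.edge1 e
  have h2 : ∀ k, (eInt v e fun x => ‖R.indicator (fun x => Gk k x - G x) x‖ₑ) =
      eInt v e fun x => ‖Gk k x - G x‖ₑ := fun k => by
    refine H194.eInt_congr fun t ht => ?_
    simp only [indicator_of_mem (he (edge_pt_mem v e ht))]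
  simp_rw [h2] at h1
  exact h1

theorem sInt_indicator {q : ℝ} {v : V} {R : Set V} (G : V → E) {s : Idx × Fin 3}
    (hs : AB.squ v s ⊆ R) :
    (sInt v s fun x => ‖R.indicator G x‖ₑ ^ q) = sInt v s fun x => ‖G x‖ₑ ^ q := by
  refine H194.sInt_congr fun x hx => ?_
  simp only [indicator_of_mem (hs hx)]

/-- squares in `R` -/
theorem NetConv.squ_in {q : ℝ} {v : V} {R : Set V} {Gk : ℕ → V → E} {G : V → E}
    (h : NetConv q v R Gk G) {s : Idx × Fin 3} (hs : AB.squ v s ⊆ R) :
    Tendsto (fun k => sInt v s fun x => ‖Gk k x - G x‖ₑ ^ q) atTop (𝓝 0) := by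
  have h1 := h.squ s
  simp_rw [sInt_indicator (fun x => Gk _ x - G x) hs] at h1
  exact h1

/-- squares in `R`, triangle inequality -/
theorem NetConv.tri_in {q : ℝ} {v : V} {R : Set V} {Gk : ℕ → V → E} {G : V → E}
    (h : NetConv q v R Gk G) {s : Idx × Fin 3} (hs : AB.squ v s ⊆ R) (k : ℕ) :
    (sInt v s fun x => ‖Gk k x‖ₑ ^ q) ≤ 2 ^ (q - 1) * ((sInt v s fun x => ‖G x‖ₑ ^ q) +
      sInt v s fun x => ‖Gk k x - G x‖ₑ ^ q) := by
  have h1 := h.tri k s
  rwa [sInt_indicator (Gk k) hs, sInt_indicator G hs,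
    sInt_indicator (fun x => Gk k x - G x) hs] at h1

theorem sInt_add_le {v : V} {s : Idx × Fin 3} {f g : V → ℝ≥0∞} (hf : Measurable f) :
    sInt v s (fun x => f x + g x) = sInt v s f + sInt v s g := by
  have h1 : Measurable fun x : V => f (Function.update x s.2 (pt v s.1.1 s.1.2 s.2)) :=
    hf.comp (by fun_prop)
  unfold sInt
  rw [← mul_add, lintegral_add_left h1]

/-- the triangle inequality on all squares, for almost every origin -/
theorem ae_tri {q : ℝ} (hq : 1 ≤ q) {R : Set V} (hR : MeasurableSet R) {G B : V → E}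
    (hG : AEStronglyMeasurable G (volume.restrict R))
    (hB : AEStronglyMeasurable B (volume.restrict R)) :
    ∀ᵐ v : V, ∀ s, (sInt v s fun x => ‖R.indicator B x‖ₑ ^ q) ≤
      2 ^ (q - 1) * ((sInt v s fun x => ‖R.indicator G x‖ₑ ^ q) +
        sInt v s fun x => ‖R.indicator (fun x => B x - G x) x‖ₑ ^ q) := by
  have hq0 : 0 ≤ q := by linarith
  have hG1 : AEStronglyMeasurable (R.indicator G) volume :=
    (aestronglyMeasurable_indicator_iff hR).2 hG
  have hB1 : AEStronglyMeasurable (R.indicator B) volume :=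
    (aestronglyMeasurable_indicator_iff hR).2 hB
  set G' := hG1.mk (R.indicator G) with hG'
  set B' := hB1.mk (R.indicator B) with hB'
  have hGm : StronglyMeasurable G' := hG1.stronglyMeasurable_mk
  have hBm : StronglyMeasurable B' := hB1.stronglyMeasurable_mk
  have h0 : ∀ᵐ x, R.indicator G x = G' x ∧ R.indicator B x = B' x :=
    hG1.ae_eq_mk.and hB1.ae_eq_mk
  filter_upwards [H83.ae_rep (ae_iff.1 h0)] with v hv s
  have e1 : (sInt v s fun x => ‖R.indicator B x‖ₑ ^ q) = sInt v s fun x => ‖B' x‖ₑ ^ q :=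
    (hv _ _ fun x hx => by rw [(not_not.1 hx).2]).2 s
  have e2 : (sInt v s fun x => ‖R.indicator G x‖ₑ ^ q) = sInt v s fun x => ‖G' x‖ₑ ^ q :=
    (hv _ _ fun x hx => by rw [(not_not.1 hx).1]).2 s
  have e3 : (sInt v s fun x => ‖R.indicator (fun x => B x - G x) x‖ₑ ^ q) =
      sInt v s fun x => ‖B' x - G' x‖ₑ ^ q :=
    (hv _ _ fun x hx => by
      rw [← (not_not.1 hx).1, ← (not_not.1 hx).2]
      congr 2
      by_cases hxR : x ∈ R
      · simp [indicator_of_mem hxR]
      · simp [indicator_of_notMem hxR]).2 s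
  rw [e1, e2, e3, ← sInt_add_le (hGm.enorm.pow_const q)]
  have h2 : sInt v s (fun x => ‖B' x‖ₑ ^ q) ≤
      sInt v s (fun x => 2 ^ (q - 1) * (‖G' x‖ₑ ^ q + ‖B' x - G' x‖ₑ ^ q)) := by
    unfold sInt
    refine mul_le_mul_right (lintegral_mono fun x => ?_) _
    simp only
    generalize Function.update x s.2 (pt v s.1.1 s.1.2 s.2) = x
    refine le_trans ?_ (ENNReal.rpow_add_le_mul_rpow_add_rpow _ _ hq)
    gcongr
    have : B' x = G' x + (B' x - G' x) := by abel
    conv_lhs => rw [this]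
    exact enorm_add_le _ _
  refine h2.trans (le_of_eq ?_)
  unfold sInt
  rw [lintegral_const_mul' _ _ (by finiteness)]
  ring

/-- **[GEN-CONV]** on `R`, all edges and squares -/
theorem exists_netConv {q : ℝ} (hq : 1 ≤ q) {R : Set V} (hR : MeasurableSet R)
    {G : V → E} {Gk : ℕ → V → E} (hG : AEStronglyMeasurable G (volume.restrict R))
    (hGk : ∀ k, AEStronglyMeasurable (Gk k) (volume.restrict R))
    (h0 : Tendsto (fun k => ∫⁻ x in R, ‖Gk k x - G x‖ₑ ^ q) atTop (𝓝 0)) :
    ∃ θ : ℕ → ℕ, StrictMono θ ∧ ∀ᵐ v : V, NetConv q v R (fun k => Gk (θ k)) G := by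
  have hq0 : 0 < q := by linarith
  have hm : ∀ k, AEStronglyMeasurable (fun x => Gk k x - G x) (volume.restrict R) :=
    fun k => (hGk k).sub hG
  set A : ℕ → V → E := fun k => R.indicator fun x => Gk k x - G x with hA
  have hAm : ∀ k, AEStronglyMeasurable (fun x => A k x - (0:V → E) x)
      (volume.restrict (univ : Set V)) := fun k => by
    rw [Measure.restrict_univ]
    simp only [Pi.zero_apply, sub_zero]
    exact (aestronglyMeasurable_indicator_iff hR).2 (hm k)
  have hA0 : Tendsto (fun k => ∫⁻ x in (univ : Set V), ‖A k x - (0:V → E) x‖ₑ ^ q) atTop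
      (𝓝 0) := by
    have e : ∀ k, ∫⁻ x in (univ : Set V), ‖A k x - (0:V → E) x‖ₑ ^ q =
        ∫⁻ x in R, ‖Gk k x - G x‖ₑ ^ q := fun k => by
      rw [Measure.restrict_univ, ← lintegral_indicator hR]
      refine lintegral_congr fun x => ?_
      by_cases hx : x ∈ R
      · simp [hA, indicator_of_mem hx]
      · simp [hA, indicator_of_notMem hx, ENNReal.zero_rpow_of_pos hq0]
    simp_rw [e]
    exact h0
  obtain ⟨θ, hθ, h1⟩ := exists_genConv_field hq MeasurableSet.univ hAm hA0
  have h2 : ∀ᵐ v : V, ∀ k s, (sInt v s fun x => ‖R.indicator (Gk k) x‖ₑ ^ q) ≤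
      2 ^ (q - 1) * ((sInt v s fun x => ‖R.indicator G x‖ₑ ^ q) +
        sInt v s fun x => ‖R.indicator (fun x => Gk k x - G x) x‖ₑ ^ q) :=
    ae_all_iff.2 fun k => ae_tri hq hR hG (hGk k)
  refine ⟨θ, hθ, ?_⟩
  filter_upwards [h1, h2] with v hv hv2
  simp only [Pi.zero_apply, sub_zero] at hv
  exact ⟨fun e => (hv.1 e (subset_univ _)).1, fun e => (hv.1 e (subset_univ _)).2,
    fun s => hv.2 s (subset_univ _), fun k s => hv2 (θ k) s⟩

/-- **[GEN-CONV]** for a countable family -/
theorem exists_genFam {ι : Type*} [Countable ι] {q : ℝ} (hq : 1 ≤ q) {R : ι → Set V}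
    (hR : ∀ i, MeasurableSet (R i)) {G : V → E} {Gk : ι → ℕ → V → E}
    (hG : ∀ i, AEStronglyMeasurable G (volume.restrict (R i)))
    (hGk : ∀ i k, AEStronglyMeasurable (Gk i k) (volume.restrict (R i)))
    (h0 : ∀ i, Tendsto (fun k => ∫⁻ x in R i, ‖Gk i k x - G x‖ₑ ^ q) atTop (𝓝 0)) :
    ∃ θ : ι → ℕ → ℕ, (∀ i, StrictMono (θ i)) ∧
      ∀ᵐ v : V, ∀ i, NetConv q v (R i) (fun k => Gk i (θ i k)) G := by
  choose θ hθ h1 using fun i => exists_netConv hq (hR i) (hG i) (hGk i) (h0 i)
  exact ⟨θ, hθ, ae_all_iff.2 h1⟩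

end field

/-! ### Conical approximations -/

/-- conical approximations of `f` on `R`: closeness which tends to zero at the boundary,
convergence of the derivatives in `L^q` -/
def ConApp (q : ℝ) (R : Set V) (f : V → V) (F : V → Mat) : Prop :=
  ∃ φ : ℕ → ConHomeo R (f '' R),
    (∀ j : ℕ, H989.Bz R f (φ j).toFun (1 / (j + 1))) ∧
    Tendsto (fun j => ∫⁻ x in R, ‖fderiv ℝ (φ j).toFun x - cl (F x)‖ₑ ^ q) atTop (𝓝 0)

/-- the same on the net of the origin `v` -/
def NetApp (q : ℝ) (v : V) (R : Set V) (f : V → V) (F : V → Mat) : Prop :=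
  ∃ φ : ℕ → ConHomeo R (f '' R),
    (∀ j : ℕ, H989.Bz R f (φ j).toFun (1 / (j + 1))) ∧
    NetConv q v R (fun j => fderiv ℝ (φ j).toFun) fun x => cl (F x)

/-- **[GEN-CONV]** for countably many domains with conical approximations -/
theorem ae_netApp {ι : Type*} [Countable ι] {q : ℝ} (hq : 1 ≤ q) {R : ι → Set V} {f : V → V}
    {F : V → Mat} (hR : ∀ i, MeasurableSet (R i))
    (hF : ∀ i, AEStronglyMeasurable (fun x => cl (F x)) (volume.restrict (R i)))
    (h : ∀ i, ConApp q (R i) f F) : ∀ᵐ v : V, ∀ i, NetApp q v (R i) f F := by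
  choose φ hφ hc using h
  obtain ⟨θ, hθ, h1⟩ := exists_genFam (G := fun x => cl (F x))
    (Gk := fun i j => fderiv ℝ (φ i j).toFun) hq hR hF
    (fun i k => (measurable_fderiv ℝ _).aestronglyMeasurable) hc
  filter_upwards [h1] with v hv i
  refine ⟨fun j => φ i (θ i j), fun j => (hφ i (θ i j)).mono ?_, hv i⟩
  have h2 : (j : ℝ) ≤ θ i j := by exact_mod_cast (hθ i).id_le j
  gcongr

end Vale.Agent.P073.H761
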