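import Vale.Agent.P073.H761.AuxQ1
import Vale.Agent.P073.H253.AuxMap
import Vale.Agent.P073.H429.Prot3E

/-!
# P073, block H761, [AUX-Q], part 2: `PreQ` for the auxiliary map `fq = Sm ∘ h4`

The fields `off`, `near`, `prot` from the layers; the edges are an input.
-/

open Set Metric Topology Filter MeasureTheory
open scoped ENNReal

set_option linter.unusedSectionVars false

namespace Vale.Agent.P073.H267.K3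

open _root_.P073 _root_.P073.Net _root_.P073.PA691 _root_.P073.H236
open _root_.P073.H936 _root_.P073.H936.K3
open _root_.P073.H142
open _root_.P073.H345 (PK tg PLev)
open _root_.P073.H880.RP
open _root_.P073.H429
open Vale.Agent.P073.St (V)
open Vale.Agent.P073.H471 Vale.Agent.P073.H267
open Vale.Agent.P073.H73 (Mesh)
open Vale.Agent.P073.H193 (Edges edges)
open Vale.Agent.P073.H304 (Nb)
open Vale.Agent.P073.H926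
open Vale.Agent.P073.H238.K3
open Vale.Agent.P073.H233 (LAt Xp PSet Ev EdgeEst)

variable {c₀ n δ : ℝ} {j : ℕ} {Ω Λ : Set V} {v w : V} {ρ : V → ℝ} {M : Mesh Ω} {h : ConHomeo Ω Λ}
  {J₀ J : Set (ℕ × (Fin 3 → ℤ))} {P Z : Set M.ι} {K : BoxCx Λ w}
  {D : KIn3 c₀ n j δ v w ρ M h J₀ J P Z} {C : Cells ρ w K} {C₀ μT : ℝ}
  {X : S1 D C C₀ μT} {Y₂ : S2 X} {Ys : Set M.κ} {sc : Sharp} {Y₃ : S3 Y₂ Ys sc} {Y₄ : S4 Y₃}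
  {om : (edges M).ε → ℝ}

/-- **`PreQ.prot`** for `fq` -/
theorem S5.protq (Y₅ : S5 Y₄) (hC : 1 ≤ C₀)
    (hθ : ∀ (s : (D.dat C).S₀) (β : Bool),
      (6 * (Y₃.F β).D s + Y₂.L.c s.1 β) * (4 / (D.B C).τ s.1) ≤ 1)
    (μ0 : ∀ b, 0 ≤ Y₅.μ b) (μ1 : ∀ b, Y₅.μ b ≤ 1)
    (μu : ∀ b : pG C J₀, Y₅.μ b * (ebe (D.W C) b.1 - eal (D.W C) b.1) ≤ (D.G C).uT b.1 / 4)
    {D₁ : ℝ} (hD₁ : 84 * C₀ ≤ D₁) :
    ∀ i ∈ P, ∀ q > 0, (∀ x ∈ M.Q i, ∀ y ∈ M.Q i, ‖h.toFun x - h.toFun y‖ = q * ‖x - y‖) →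
      ∀ x ∈ M.Q i, LAt (D.B C) (Xp C J₀) (D₁ * q) (M.Q i) Y₅.fq.toFun x :=
  Y₃.prot_aux hC hθ (Y₅.layq ∅) (Y₅.tln μ0 μ1 μu) (fun _ _ => disjoint_empty _) hD₁

/-- **`PreQ`** for `fq`, from the edges -/
theorem S5.preQ (Y₅ : S5 Y₄) (hC : 1 ≤ C₀)
    (hθ : ∀ (s : (D.dat C).S₀) (β : Bool),
      (6 * (Y₃.F β).D s + Y₂.L.c s.1 β) * (4 / (D.B C).τ s.1) ≤ 1)
    (μ0 : ∀ b, 0 ≤ Y₅.μ b) (μ1 : ∀ b, Y₅.μ b ≤ 1)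
    (μu : ∀ b : pG C J₀, Y₅.μ b * (ebe (D.W C) b.1 - eal (D.W C) b.1) ≤ (D.G C).uT b.1 / 4)
    {D₀ D₁ : ℝ} (hD₁ : 84 * C₀ ≤ D₁) (hD₁' : 8192 ≤ D₁)
    (hedge : ∀ k e, (edges M).seg e ⊆ M.F k → (∃ i ∈ P, (edges M).seg e ⊆ M.Q i) ∨
      Ev (D.B C) (Xp C J₀) (20 / (1 / μN n)) M Y₅.fq.toFun (.inl k)
        (EdgeEst h.toFun Y₅.fq.toFun D₀ (om e) e)) :
    H761.PreQ (D.B C) (Xp C J₀) (20 / (1 / μN n)) c₀ ρ h.toFun J₀ P om D₀ D₁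
      Y₅.fq.toFun where
  off := Y₅.offq
  near := fun x hx => (Y₅.nearq x hx).mono hD₁' (D.hρ.pos _ (h.mapsTo hx)).le
    (D.hρ.pos _ (Y₅.fq.mapsTo hx)).le
  prot := Y₅.protq hC hθ μ0 μ1 μu hD₁
  edge := hedge

end Vale.Agent.P073.H267.K3
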