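import Vale.Agent.P073.H761.SEnd3
import Vale.Agent.P073.H31.FDefs

/-!
# P073, H761, [SHARP-END], part 4: the sharp face estimate, constants

`BandEst`: the local estimate of the final map `g` by the bands of `h3` (soft collapse).
`exists_face`: `ShFace` of `h3`, `BandEst` and nearly monotone sides of `g` give
`faceI ≤ (μ + ε) σ ^ 3`.
-/

open Set Metric Topology Filter MeasureTheory
open scoped ENNReal

namespace P073.H761.SE

open P073 P073.H579 P073.FW31
open Vale.Agent.P073.St (V)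
open Vale.Agent.P073.SQ (ev cube)
open Vale.Agent.P073.H73 (sqr)
open Vale.Agent.P073.H239 (tv faceI)

/-- the final map `g` is controlled by the bands of `h3` near every point of the square -/
def BandEst (a : V) (l : Fin 3) (σ : ℝ) (L : Fin 3 → Finset ℝ) (lo hi om : Fin 3 → ℝ → ℝ)
    (μs τ : ℝ) (h3 g : V → V) : Prop :=
  ∀ x ∈ sqr a l σ, ∀ᶠ y in 𝓝[sqr a l σ] x,
    (∀ j, j ≠ l → |g y j - g x j| ≤ bandJ L lo hi om j (h3 y) (h3 x) +
      μs * ∑ i ∈ Finset.univ.erase l, bandJ L lo hi om i (h3 y) (h3 x) + τ * ‖y - x‖) ∧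
    |g y l - g x l| ≤
      μs * ∑ i ∈ Finset.univ.erase l, bandJ L lo hi om i (h3 y) (h3 x) + τ * ‖y - x‖

/-- the hypotheses on the sides -/
def Sides (a : V) (l : Fin 3) (σ r : ℝ) (g : V → V) : Prop :=
  ∀ i, i ≠ l → ∀ x : V, x ∈ sqr a l σ → x + (2 * σ) • ev i ∈ sqr a l σ →
    (∀ j, j ≠ i → j ≠ l → |x j - a j| = σ) →
    (1 - r) * (2 * σ) ≤ g (x + (2 * σ) • ev i) i - g x i ∧
    tv g (x, x + (2 * σ) • ev i) Finset.univ ≤ ENNReal.ofReal ((1 + r) * (2 * σ))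

theorem card_erase (l : Fin 3) : (Finset.univ.erase l).card = 2 := by
  rw [Finset.card_erase_of_mem (Finset.mem_univ l), Finset.card_univ, Fintype.card_fin]

theorem sum_erase_le {l : Fin 3} {u : Fin 3 → ℝ} {c : ℝ} (h : ∀ i, i ≠ l → u i ≤ c) :
    ∑ i ∈ Finset.univ.erase l, u i ≤ 2 * c := by
  calc ∑ i ∈ Finset.univ.erase l, u i ≤ ∑ _i ∈ Finset.univ.erase l, c :=
        Finset.sum_le_sum fun i hi => h i (Finset.ne_of_mem_erase hi)
    _ = 2 * c := by rw [Finset.sum_const, card_erase, nsmul_eq_mul]; norm_num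

theorem abs_apply_le (z : V) (i : Fin 3) : |z i| ≤ ‖z‖ := by
  have := norm_le_pi_norm z i
  rwa [Real.norm_eq_abs] at this

/-- **the face** with explicit constants -/
theorem face_le {p : ℝ} (hp : 1 ≤ p) {a : V} {l : Fin 3} {σ : ℝ} (hσ : 0 < σ)
    {L : Fin 3 → Finset ℝ} {lo hi om : Fin 3 → ℝ → ℝ} {K e β r μs τ : ℝ} (hK : 0 < K) (he : 0 < e)
    (he1 : e ≤ 1 / 2) (hβ : 0 ≤ β) (hr : 0 ≤ r) (hr1 : r ≤ 1) (hμ : 0 ≤ μs)
    (hμ1 : μs ≤ e / 12) (hμK : μs * (4 * K) ≤ e) (hτ : 0 ≤ τ) (hτ1 : τ ≤ e / 2) {h3 g : V → V}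
    (H : ShFace a l σ L lo hi om K e β h3) (HB : BandEst a l σ L lo hi om μs τ h3 g)
    (hs : Sides a l σ r g) :
    faceI p g a l σ ≤ ENNReal.ofReal ((16 * (4 ^ (p - 1) * (4 * (2 * e) + 5 * r) + 2 * (2 * e)) +
      2 * (4 ^ (p - 1) * (2 * K + 1) + (2 * K + 1 + 1) ^ p + 2 * (2 * K + 1) ^ p) * β) *
        σ ^ 3) := by
  obtain ⟨B, hB, hvol, hsh⟩ := H.sharp
  have hμ2 : μs ≤ 1 / 24 := by linarith
  have hτ2 : τ ≤ 1 / 4 := by linarith
  refine P073.H31.faceI_le_fine hp hσ hB (C := 2 * K + 1) (e := 2 * e) (by positivity)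
    (by positivity) (by linarith) hr hr1 hβ (fun x hx => ?_) (fun x hx hxB => ?_)
    (fun x hx => ?_) hs hvol
  · filter_upwards [HB x hx, self_mem_nhdsWithin] with y hy hyS j hj
    have h1 := hy.1 j hj
    have h2 := H.lip x hx y hyS j hj
    have q3 := sum_erase_le (l := l) (u := fun i => bandJ L lo hi om i (h3 y) (h3 x))
      fun i hi => H.lip x hx y hyS i hi
    have hn := norm_nonneg (y - x)
    have h4 : μs * ∑ i ∈ Finset.univ.erase l, bandJ L lo hi om i (h3 y) (h3 x) ≤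
        μs * (2 * (K * ‖y - x‖)) := mul_le_mul_of_nonneg_left q3 hμ
    have h5 : μs * (2 * (K * ‖y - x‖)) ≤ e / 2 * ‖y - x‖ := by
      have : μs * (2 * (K * ‖y - x‖)) = μs * (4 * K) / 2 * ‖y - x‖ := by ring
      rw [this]
      exact mul_le_mul_of_nonneg_right (by linarith) hn
    have h6 : τ * ‖y - x‖ ≤ e / 2 * ‖y - x‖ := mul_le_mul_of_nonneg_right hτ1 hn
    calc |g y j - g x j| ≤ K * ‖y - x‖ + e / 2 * ‖y - x‖ + e / 2 * ‖y - x‖ := by linarith
      _ = (K + e) * ‖y - x‖ := by ring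
      _ ≤ (2 * K + 1) * ‖y - x‖ := mul_le_mul_of_nonneg_right (by linarith) hn
  · filter_upwards [HB x hx, hsh x hx hxB] with y hy hy2 j hj
    have h1 := hy.1 j hj
    have h2 := hy2 j hj
    have hn := norm_nonneg (y - x)
    have q3 := sum_erase_le (l := l) (u := fun i => bandJ L lo hi om i (h3 y) (h3 x))
      (c := (1 + 2 * e) * ‖y - x‖) fun i hi => by
        have h4 := hy2 i hi
        have h5 := abs_apply_le (y - x) i
        rw [Pi.sub_apply] at h5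
        have h6 : (1 + e) * |y i - x i| ≤ (1 + e) * ‖y - x‖ :=
          mul_le_mul_of_nonneg_left h5 (by linarith)
        linarith
    have h4 : μs * ∑ i ∈ Finset.univ.erase l, bandJ L lo hi om i (h3 y) (h3 x) ≤
        e / 12 * (2 * (2 * ‖y - x‖)) := by
      refine (mul_le_mul_of_nonneg_left q3 hμ).trans ?_
      refine mul_le_mul hμ1 ?_ (by positivity) (by positivity)
      have : (1 + 2 * e) * ‖y - x‖ ≤ 2 * ‖y - x‖ := mul_le_mul_of_nonneg_right (by linarith) hn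
      linarith
    have h6 : τ * ‖y - x‖ ≤ e / 2 * ‖y - x‖ := mul_le_mul_of_nonneg_right hτ1 hn
    have h7 : (1 + e) * |y j - x j| ≤ (1 + 2 * e) * |y j - x j| :=
      mul_le_mul_of_nonneg_right (by linarith) (abs_nonneg _)
    have h8 : 0 ≤ e * ‖y - x‖ := by positivity
    calc |g y j - g x j| ≤ (1 + e) * |y j - x j| + e * ‖y - x‖ +
          e / 12 * (2 * (2 * ‖y - x‖)) + e / 2 * ‖y - x‖ := by linarith
      _ ≤ (1 + 2 * e) * |y j - x j| + 2 * e * ‖y - x‖ := by linarith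
  · filter_upwards [HB x hx, self_mem_nhdsWithin] with y hy hyS
    have h1 := hy.2
    have q3 := sum_erase_le (l := l) (u := fun i => bandJ L lo hi om i (h3 y) (h3 x))
      fun i hi => H.lip x hx y hyS i hi
    have hn := norm_nonneg (y - x)
    have h4 : μs * ∑ i ∈ Finset.univ.erase l, bandJ L lo hi om i (h3 y) (h3 x) ≤
        μs * (2 * (K * ‖y - x‖)) := mul_le_mul_of_nonneg_left q3 hμ
    have h5 : μs * (2 * (K * ‖y - x‖)) ≤ e / 2 * ‖y - x‖ := by
      have : μs * (2 * (K * ‖y - x‖)) = μs * (4 * K) / 2 * ‖y - x‖ := by ring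
      rw [this]
      exact mul_le_mul_of_nonneg_right (by linarith) hn
    have h6 : τ * ‖y - x‖ ≤ e / 2 * ‖y - x‖ := mul_le_mul_of_nonneg_right hτ1 hn
    have h8 : 0 ≤ e * ‖y - x‖ := by positivity
    linarith

/-- **the constants of a sharp face** -/
theorem exists_face {p : ℝ} (hp : 1 ≤ p) {μ : ℝ} (hμ : 0 < μ) : ∃ e : ℝ, 0 < e ∧ e ≤ 1 / 2 ∧
    ∃ r₀ : ℝ, 0 < r₀ ∧ r₀ ≤ 1 ∧ ∀ K : ℝ, 0 < K → ∃ β : ℝ, 0 < β ∧ ∃ μ₀ : ℝ, 0 < μ₀ ∧
      ∀ (a : V) (l : Fin 3) (σ : ℝ), 0 < σ → ∀ (L : Fin 3 → Finset ℝ) (lo hi om : Fin 3 → ℝ → ℝ)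
        (r μs τ ε : ℝ), 0 ≤ r → r ≤ r₀ → 0 ≤ μs → μs ≤ μ₀ → 0 ≤ τ → τ ≤ μ₀ → 0 ≤ ε →
        ∀ h3 g : V → V, ShFace a l σ L lo hi om K e β h3 →
        BandEst a l σ L lo hi om μs τ h3 g → Sides a l σ r g →
          faceI p g a l σ ≤ ENNReal.ofReal ((μ + ε) * σ ^ 3) := by
  set A : ℝ := 4 ^ (p - 1) with hA
  have hA0 : 0 < A := by positivity
  refine ⟨min (1 / 2) (μ / (4 * (128 * A + 64))), lt_min (by norm_num) (by positivity),
    min_le_left _ _, min 1 (μ / (4 * (80 * A))), lt_min one_pos (by positivity),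
    min_le_left _ _, fun K hK => ?_⟩
  set e : ℝ := min (1 / 2) (μ / (4 * (128 * A + 64))) with he
  have he0 : 0 < e := lt_min (by norm_num) (by positivity)
  set T : ℝ := A * (2 * K + 1) + (2 * K + 1 + 1) ^ p + 2 * (2 * K + 1) ^ p with hT
  have hT0 : 0 < T := by positivity
  refine ⟨μ / (4 * T), by positivity, min (e / 12) (e / (4 * K)),
    lt_min (by positivity) (by positivity), ?_⟩
  intro a l σ hσ L lo hi om r μs τ ε hr hr1 hμs hμs1 hτ hτ1 hε h3 g H HB hs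
  have k1 : μs ≤ e / 12 := hμs1.trans (min_le_left _ _)
  have k2 : μs * (4 * K) ≤ e := by
    have := hμs1.trans (min_le_right _ _)
    rwa [le_div_iff₀ (by positivity)] at this
  have k3 : τ ≤ e / 2 := by
    have := hτ1.trans (min_le_left _ _)
    linarith
  refine (face_le hp hσ hK he0 (min_le_left _ _) (by positivity) hr (hr1.trans (min_le_left _ _))
    hμs k1 k2 hτ k3 H HB hs).trans (ENNReal.ofReal_le_ofReal ?_)
  refine mul_le_mul_of_nonneg_right ?_ (by positivity)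
  rw [← hA, ← hT]
  have e1 : e * (4 * (128 * A + 64)) ≤ μ := by
    have := min_le_right (1 / 2 : ℝ) (μ / (4 * (128 * A + 64)))
    rw [← he, le_div_iff₀ (by positivity)] at this
    exact this
  have e2 : r * (4 * (80 * A)) ≤ μ := by
    have := hr1.trans (min_le_right 1 (μ / (4 * (80 * A))))
    rwa [le_div_iff₀ (by positivity)] at this
  have e3 : 2 * T * (μ / (4 * T)) = μ / 2 := by field_simp; ring
  rw [e3]
  nlinarith

end P073.H761.SE
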