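import Vale.Agent.P073.H582.Rows3
import Vale.Agent.P073.H761.SEnd4

/-!
# P073, H761, **[FACE-L1]**: the sharp face estimate from the sum of the coordinates

As `P073.H31.faceI_le_fine`, but off the bad set only the sum `∑ j, |g y j - g x j|` is controlled,
by `(1 + e)` times the sum of the tangential increments of `x`.
-/

namespace P073.H761.SE

open MeasureTheory Set Filter Topology Metric
open P073 P073.H579 P073.FW31
open Vale.Agent.P073
open Vale.Agent.P073.St (V)
open Vale.Agent.P073.SQ (ev cube)
open Vale.Agent.P073.H73 (sqr onSeg)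
open Vale.Agent.P073.H239 (tv faceI)
open Vale.Agent.P073.H582
open scoped ENNReal NNReal

theorem add_rpow_le {p x y : ℝ} (hp : 1 ≤ p) (hx : 0 ≤ x) (hy : 0 ≤ y) (hy1 : y ≤ 1) :
    (x + y) ^ p ≤ 2 ^ p * x ^ p + 2 ^ p * y := by
  have hp0 : 0 < p := by linarith
  have h1 : x + y ≤ 2 * max x y := by
    rcases le_total x y with h | h
    · rw [max_eq_right h]; linarith
    · rw [max_eq_left h]; linarith
  have h2 : (x + y) ^ p ≤ (2 * max x y) ^ p := Real.rpow_le_rpow (by positivity) h1 hp0.le
  have h3 : (2 * max x y) ^ p = 2 ^ p * (max x y) ^ p :=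
    Real.mul_rpow (by norm_num) (le_trans hx (le_max_left _ _))
  have h4 : (max x y) ^ p ≤ x ^ p + y := by
    have h5 : y ^ p ≤ y := by
      calc y ^ p ≤ y ^ (1:ℝ) := Real.rpow_le_rpow_of_exponent_ge' hy hy1 zero_le_one hp
        _ = y := Real.rpow_one y
    have h6 : 0 ≤ x ^ p := Real.rpow_nonneg hx p
    rcases le_total x y with h | h
    · rw [max_eq_right h]; linarith
    · rw [max_eq_left h]; linarith
  rw [h3] at h2
  have h5 : (0:ℝ) ≤ 2 ^ p := by positivity
  have h6 := mul_le_mul_of_nonneg_left h4 h5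
  rw [mul_add] at h6
  exact h2.trans h6

/-- a row in which the derivative is controlled by the other one off `b` -/
theorem row1_small {p : ℝ} (hp : 1 ≤ p) {φ ψ : ℝ → ℝ} {α β C e : ℝ}
    (he : 0 ≤ e) (he1 : e ≤ 1 / 2) {b : Set ℝ} (hb : MeasurableSet b)
    (hdC : ∀ s ∈ Ioo α β, |deriv ψ s| ≤ C)
    (hd : ∀ᵐ s, s ∈ Ioo α β → s ∉ b → |deriv ψ s| ≤ |deriv φ s - 1| + 2 * e) :
    ∫⁻ s in Ioo α β, ENNReal.ofReal (|deriv ψ s| ^ p) ≤
      ENNReal.ofReal (2 ^ p) * (∫⁻ s in Ioo α β, ENNReal.ofReal (|deriv φ s - 1| ^ p)) +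
        ENNReal.ofReal (2 ^ p * (2 * e) * (β - α)) +
        ENNReal.ofReal (C ^ p) * volume (Ioo α β ∩ b) := by
  have hp0 : 0 < p := by linarith
  have h2p : (0:ℝ) ≤ 2 ^ p := by positivity
  have hm : Measurable fun s => ENNReal.ofReal (|deriv φ s - 1| ^ p) :=
    ((((measurable_deriv φ).sub measurable_const).norm).pow_const p).ennreal_ofReal
  have hone : Measurable (1 : ℝ → ℝ≥0∞) := measurable_one
  calc ∫⁻ s in Ioo α β, ENNReal.ofReal (|deriv ψ s| ^ p)
      ≤ ∫⁻ s in Ioo α β, (ENNReal.ofReal (2 ^ p) * ENNReal.ofReal (|deriv φ s - 1| ^ p) +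
          (ENNReal.ofReal (2 ^ p * (2 * e)) +
            ENNReal.ofReal (C ^ p) * b.indicator (1 : ℝ → ℝ≥0∞) s)) := by
        refine lintegral_mono_ae ((ae_restrict_iff' measurableSet_Ioo).2 ?_)
        filter_upwards [hd] with s hs hsI
        by_cases hsb : s ∈ b
        · rw [indicator_of_mem hsb, Pi.one_apply, mul_one]
          refine le_trans ?_ (le_trans le_add_self le_add_self)
          exact ENNReal.ofReal_le_ofReal (Real.rpow_le_rpow (abs_nonneg _) (hdC s hsI) hp0.le)
        · rw [indicator_of_notMem hsb, mul_zero, add_zero, ← ENNReal.ofReal_mul h2p,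
            ← ENNReal.ofReal_add (by positivity) (by positivity)]
          refine ENNReal.ofReal_le_ofReal ?_
          refine (Real.rpow_le_rpow (abs_nonneg _) (hs hsI hsb) hp0.le).trans ?_
          exact add_rpow_le hp (abs_nonneg _) (by positivity) (by linarith)
    _ = _ := by
        rw [lintegral_add_left (hm.const_mul _), lintegral_add_left measurable_const,
          lintegral_const_mul _ hm, setLIntegral_const, Real.volume_Ioo,
          lintegral_const_mul _ (hone.indicator hb), lintegral_indicator_one hb,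
          Measure.restrict_apply hb, inter_comm b,
          ← ENNReal.ofReal_mul (by positivity), add_assoc]

variable {g : V → V} {a : V} {l : Fin 3} {σ : ℝ}

/-- **[ROWS2]** for the sum of the coordinates (the proof follows `P073.H31.faceI_le_fine`) -/
theorem faceI_le_l1 {p : ℝ} (hp : 1 ≤ p) (hσ : 0 < σ) {B : Set V} (hB : MeasurableSet B)
    {C e r β : ℝ} (hC : 0 ≤ C) (he : 0 ≤ e) (he1 : e ≤ 1 / 2) (hr : 0 ≤ r) (hr1 : r ≤ 1)
    (hβ : 0 ≤ β)
    (h1 : ∀ x ∈ sqr a l σ, ∀ᶠ y in 𝓝[sqr a l σ] x, ∀ j, |g y j - g x j| ≤ C * ‖y - x‖)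
    (h2 : ∀ x ∈ sqr a l σ, x ∉ B → ∀ᶠ y in 𝓝[sqr a l σ] x, ∑ j, |g y j - g x j| ≤
      (1 + e) * ∑ i ∈ Finset.univ.erase l, |y i - x i| + e * ‖y - x‖)
    (hside : ∀ i, i ≠ l → ∀ x : V, x ∈ sqr a l σ → x + (2 * σ) • ev i ∈ sqr a l σ →
      (∀ j, j ≠ i → j ≠ l → |x j - a j| = σ) →
      (1 - r) * (2 * σ) ≤ g (x + (2 * σ) • ev i) i - g x i ∧
      tv g (x, x + (2 * σ) • ev i) Finset.univ ≤ ENNReal.ofReal ((1 + r) * (2 * σ)))
    (hvol : volume {x : V | x ∈ cube a σ ∧ Function.update x l (a l) ∈ B} ≤
      ENNReal.ofReal (β * σ ^ 3)) :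
    faceI p g a l σ ≤ ENNReal.ofReal
      ((16 * ((1 + 2 * 2 ^ p) * (4 ^ (p - 1) * (4 * e + 5 * r)) + 2 * (2 ^ p * (2 * e))) +
      2 * ((1 + 2 * 2 ^ p) * (4 ^ (p - 1) * C + (C + 1) ^ p) + 2 * C ^ p) * β) * σ ^ 3) := by
  have hp0 : 0 < p := by linarith
  -- continuity
  have hgc : ContinuousOn g (sqr a l σ) := by
    intro x hx
    rw [ContinuousWithinAt, tendsto_iff_norm_sub_tendsto_zero]
    have hlim : Tendsto (fun y => C * ‖y - x‖) (𝓝[sqr a l σ] x) (𝓝 0) := by
      have h4 : Tendsto (fun y : V => C * ‖y - x‖) (𝓝 x) (𝓝 (C * ‖x - x‖)) := by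
        apply Continuous.tendsto
        fun_prop
      rw [sub_self, norm_zero, mul_zero] at h4
      exact h4.mono_left nhdsWithin_le_nhds
    refine squeeze_zero' (Eventually.of_forall fun _ => norm_nonneg _) ?_ hlim
    filter_upwards [h1 x hx] with y hy1
    refine (pi_norm_le_iff_of_nonneg (by positivity)).2 fun k => ?_
    rw [Real.norm_eq_abs]
    exact hy1 k
  set gc : V → V := fun x => g (toSq a l σ x) with hgc'
  have hgcc : Continuous gc := hgc.comp_continuous (continuous_toSq a l σ) fun x => toSq_mem hσ.le x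
  -- one direction
  have key : ∀ i, i ≠ l → ∫⁻ x in cube a σ,
      ENNReal.ofReal (‖lineDeriv ℝ g (Function.update x l (a l)) (ev i) - ev i‖ ^ p) ≤
        ENNReal.ofReal (((1 + 2 * 2 ^ p) * (4 ^ (p - 1) * (4 * e + 5 * r)) +
            2 * (2 ^ p * (2 * e))) * (2 * σ) ^ 3) +
          ENNReal.ofReal ((1 + 2 * 2 ^ p) * (4 ^ (p - 1) * C + (C + 1) ^ p) + 2 * C ^ p) *
            ENNReal.ofReal (β * σ ^ 3) := by
    intro i hi
    obtain ⟨j, hji, hjl, hk3⟩ := Vale.Agent.P073.H582.exists_third hi
    set c₁ : ℝ := (1 + 2 * 2 ^ p) * (4 ^ (p - 1) * (4 * e + 5 * r)) + 2 * (2 ^ p * (2 * e))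
      with hc₁
    have hc₁0 : 0 ≤ c₁ := by positivity
    set K : ℝ := (1 + 2 * 2 ^ p) * (4 ^ (p - 1) * C + (C + 1) ^ p) + 2 * C ^ p with hK
    have hK0 : 0 ≤ K := by positivity
    set B' : Set V := {x : V | Function.update x l (a l) ∈ B} with hB'
    have hup : Measurable fun x : V => Function.update x l (a l) :=
      (continuous_id.update l continuous_const).measurable
    have hB'm : MeasurableSet B' := hup hB
    have hOm : MeasurableSet (ocube a σ) := measurableSet_ocube a σ
    set G : V → ℝ≥0∞ := (ocube a σ).indicator fun x =>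
      ENNReal.ofReal (‖lineDeriv ℝ gc (Function.update x l (a l)) (ev i) - ev i‖ ^ p) with hG
    set R : V → ℝ≥0∞ := (ocube a σ).indicator fun x =>
      ENNReal.ofReal c₁ + ENNReal.ofReal K * B'.indicator (1 : V → ℝ≥0∞) x with hR
    have hGm : Measurable G := by
      refine Measurable.indicator ?_ hOm
      have h4 : Measurable fun x : V => lineDeriv ℝ gc (Function.update x l (a l)) (ev i) :=
        (measurable_lineDeriv (𝕜 := ℝ) (v := (ev i : V)) hgcc).comp hup
      exact (((h4.sub measurable_const).norm).pow_const p).ennreal_ofReal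
    have hone : Measurable (1 : V → ℝ≥0∞) := measurable_one
    have hone1 : Measurable (1 : ℝ → ℝ≥0∞) := measurable_one
    have hRm : Measurable R := by
      refine Measurable.indicator ?_ hOm
      exact measurable_const.add (measurable_const.mul (hone.indicator hB'm))
    have hrows : ∀ x : V, ∫⁻ s : ℝ, G (Function.update x i s) ≤
        ∫⁻ s : ℝ, R (Function.update x i s) := by
      intro x
      by_cases hx : ∀ k, k ≠ i → |x k - a k| < σ
      swap
      · have h0 : ∀ s, G (Function.update x i s) = 0 := by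
          intro s
          rw [hG, indicator_of_notMem]
          intro hmem
          apply hx
          intro k hk
          have := hmem k
          rwa [Function.update_of_ne hk] at this
        simp only [h0, lintegral_zero]
        exact zero_le
      have hx' : ∀ k, k ≠ i → k ≠ l → |x k - a k| ≤ σ := fun k hk _ => (hx k hk).le
      set α : ℝ := a i - σ with hα
      set α' : ℝ := a i + σ with hα'
      have hαα : α < α' := by linarith
      have hlen : α' - α = 2 * σ := by rw [hα, hα']; ring
      have hmem : ∀ s, Function.update x i s ∈ ocube a σ ↔ s ∈ Ioo α α' := by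
        intro s
        constructor
        · intro h4
          have h5 := abs_lt.1 (h4 i)
          rw [Function.update_self] at h5
          exact ⟨by linarith, by linarith⟩
        · intro h4 k
          by_cases hk : k = i
          · subst hk
            rw [Function.update_self, abs_lt]
            constructor <;> linarith [h4.1, h4.2]
          · rw [Function.update_of_ne hk]
            exact hx k hk
      set φ : Fin 3 → ℝ → ℝ := fun k s => g (rp a l i x s) k with hφ
      set b : Set ℝ := (rp a l i x) ⁻¹' B with hb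
      have hbm : MeasurableSet b := (continuous_rp a l i x).measurable hB
      -- local bounds
      have hloc1 : ∀ k, ∀ s ∈ Icc α α', ∀ᶠ t in 𝓝[Icc α α'] s,
          |φ k t - φ k s| ≤ C * |t - s| := by
        intro k s hs
        have h4 := local_row hi hσ.le hx' hs (h1 _ (rp_mem hi hσ.le hx' hs))
        filter_upwards [h4] with t ht
        have := ht k
        rwa [norm_rp_sub] at this
      have hloc2 : ∀ s ∈ Icc α α', s ∉ b → ∀ᶠ t in 𝓝[Icc α α'] s,
          ∑ k, |φ k t - φ k s| ≤ (1 + 2 * e) * |t - s| := by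
        intro s hs hsb
        have h4 := local_row hi hσ.le hx' hs (h2 _ (rp_mem hi hσ.le hx' hs) hsb)
        filter_upwards [h4] with t ht
        rw [norm_rp_sub] at ht
        have e1 : ∑ k ∈ Finset.univ.erase l, |rp a l i x t k - rp a l i x s k| = |t - s| := by
          have e2 : (Finset.univ.erase l : Finset (Fin 3)) = {i, j} := by
            ext k
            simp only [Finset.mem_erase, Finset.mem_univ, and_true, Finset.mem_insert,
              Finset.mem_singleton]
            constructor
            · intro hk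
              rcases hk3 k with h | h | h
              · exact Or.inl h
              · exact Or.inr h
              · exact absurd h hk
            · rintro (rfl | rfl)
              · exact hi
              · exact hjl
          rw [e2, Finset.sum_pair hji.symm]
          have e3 : rp a l i x t i - rp a l i x s i = t - s := by simp [rp]
          have e4 : rp a l i x t j - rp a l i x s j = 0 := by simp [rp, hji]
          rw [e3, e4, abs_zero, add_zero]
        rw [e1] at ht
        exact ht.trans (le_of_eq (by ring))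
      set Cn : ℝ≥0 := ⟨C, hC⟩ with hCn
      have hLip : ∀ k, LipschitzOnWith Cn (φ k) (Icc α α') := fun k =>
        lipschitzOn_of_local (hloc1 k)
      have hdC : ∀ k, ∀ s ∈ Ioo α α', |deriv (φ k) s| ≤ C := fun k s hs =>
        abs_deriv_le_of_local hC hs (hloc1 k s (Ioo_subset_Icc_self hs))
      have hdi : ∀ s ∈ Ioo α α', s ∉ b → |deriv (φ i) s| ≤ 1 + 2 * e := fun s hs hsb =>
        abs_deriv_le_of_local (by positivity) hs
          ((hloc2 s (Ioo_subset_Icc_self hs) hsb).mono fun t ht =>
            (Finset.single_le_sum (f := fun k => |φ k t - φ k s|)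
              (fun _ _ => abs_nonneg _) (Finset.mem_univ i)).trans ht)
      have hpair : ∀ k, k ≠ i → ∀ (c : ℝ), (c = 1 ∨ c = -1) → ∀ s ∈ Ioo α α', s ∉ b →
          |deriv (fun t => φ i t + c * φ k t) s| ≤ 1 + 2 * e := fun k hk c hc s hs hsb =>
        abs_deriv_le_of_local (by positivity) hs
          ((hloc2 s (Ioo_subset_Icc_self hs) hsb).mono fun t ht => by
            have e5 : (φ i t + c * φ k t) - (φ i s + c * φ k s) =
                (φ i t - φ i s) + c * (φ k t - φ k s) := by ring
            have e6 : |c * (φ k t - φ k s)| = |φ k t - φ k s| := by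
              rw [abs_mul]
              rcases hc with rfl | rfl <;> simp
            rw [e5]
            refine (abs_add_le _ _).trans ?_
            rw [e6, ← Finset.sum_pair (f := fun k => |φ k t - φ k s|) hk.symm]
            exact (Finset.sum_le_sum_of_subset_of_nonneg (Finset.subset_univ _)
              fun _ _ _ => abs_nonneg _).trans ht)
      -- net displacement
      have hnet : (1 - 5 * r) * (α' - α) ≤ φ i α' - φ i α := by
        have h4 := row_net hr hr1 hσ hside hi (x := rp a l i x (a i))
          (rp_mem hi hσ.le hx' ⟨by linarith, by linarith⟩)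
        rw [hlen]
        have e1 : ∀ s, Function.update (rp a l i x (a i)) i s = rp a l i x s := fun s => by
          simp [rp]
        rw [e1, e1] at h4
        exact h4
      -- almost everywhere differentiable
      have hae : ∀ᵐ s : ℝ, ∀ k, s ∈ Ioo α α' → DifferentiableAt ℝ (φ k) s := by
        rw [ae_all_iff]
        intro k
        have hD := hLip k
        have h5 : AbsolutelyContinuousOnInterval (φ k) α α' :=
          LipschitzOnWith.absolutelyContinuousOnInterval (K := Cn) (by rwa [uIcc_of_le hαα.le])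
        filter_upwards [h5.ae_differentiableAt] with s hs hsI
        exact hs (by rw [uIcc_of_le hαα.le]; exact Ioo_subset_Icc_self hsI)
      -- the left hand side
      have hGrow : ∀ᵐ s : ℝ, G (Function.update x i s) ≤ (Ioo α α').indicator (fun s =>
          ENNReal.ofReal (|deriv (φ i) s - 1| ^ p) + (ENNReal.ofReal (|deriv (φ j) s| ^ p) +
            ENNReal.ofReal (|deriv (φ l) s| ^ p))) s := by
        filter_upwards [hae] with s hs
        by_cases hsI : s ∈ Ioo α α'
        swap
        · rw [hG, indicator_of_notMem (fun h => hsI ((hmem s).1 h))]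
          exact zero_le
        rw [hG, indicator_of_mem ((hmem s).2 hsI), indicator_of_mem hsI, rp_eq hi]
        -- replace `gc` by `g`
        have e1 : lineDeriv ℝ gc (rp a l i x s) (ev i) = lineDeriv ℝ g (rp a l i x s) (ev i) := by
          unfold lineDeriv
          refine Filter.EventuallyEq.deriv_eq ?_
          have h4 : ∀ᶠ t : ℝ in 𝓝 0, s + t ∈ Ioo α α' := by
            have h5 : Tendsto (fun t : ℝ => s + t) (𝓝 0) (𝓝 (s + 0)) :=
              (continuous_const.add continuous_id).tendsto 0
            rw [add_zero] at h5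
            exact h5.eventually (Ioo_mem_nhds hsI.1 hsI.2)
          filter_upwards [h4] with t ht
          show g (toSq a l σ (rp a l i x s + t • ev i)) = g (rp a l i x s + t • ev i)
          rw [← rp_add, toSq_of_mem (rp_mem hi hσ.le hx' (Ioo_subset_Icc_self ht))]
        rw [e1]
        have e2 : ∀ k, (fun t : ℝ => g (rp a l i x s + t • ev i) k) = fun t => φ k (s + t) := by
          intro k
          funext t
          show _ = g (rp a l i x (s + t)) k
          rw [rp_add]
        have hd0 : ∀ k, DifferentiableAt ℝ (fun t : ℝ => g (rp a l i x s + t • ev i) k) 0 := by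
          intro k
          rw [e2]
          have h4 : DifferentiableAt ℝ (φ k) (s + 0) := by rw [add_zero]; exact hs k hsI
          exact h4.comp (0 : ℝ) ((differentiableAt_const s).add differentiableAt_id)
        have e3 : ∀ k, deriv (fun t : ℝ => g (rp a l i x s + t • ev i) k) 0 = deriv (φ k) s := by
          intro k
          rw [e2, deriv_comp_const_add, add_zero]
        refine (norm_lineDeriv_sub_le hp0.le hd0).trans (le_of_eq ?_)
        simp only [e3]
        have e4 : (Finset.univ : Finset (Fin 3)) = {i, j, l} := by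
          ext k
          simp only [Finset.mem_univ, Finset.mem_insert, Finset.mem_singleton, true_iff]
          exact hk3 k
        rw [e4, Finset.sum_insert (by simp [hji.symm, hi]), Finset.sum_pair hjl]
        simp [ev, hji, hi.symm]
      have hLHS : ∫⁻ s : ℝ, G (Function.update x i s) ≤
          (∫⁻ s in Ioo α α', ENNReal.ofReal (|deriv (φ i) s - 1| ^ p)) +
            ((∫⁻ s in Ioo α α', ENNReal.ofReal (|deriv (φ j) s| ^ p)) +
              ∫⁻ s in Ioo α α', ENNReal.ofReal (|deriv (φ l) s| ^ p)) := by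
        refine (lintegral_mono_ae hGrow).trans (le_of_eq ?_)
        have hm : ∀ k, Measurable (deriv (φ k)) := fun k => measurable_deriv _
        have m1 : Measurable fun s => ENNReal.ofReal (|deriv (φ i) s - 1| ^ p) :=
          ((((hm i).sub measurable_const).norm).pow_const p).ennreal_ofReal
        have m2 : ∀ k, Measurable fun s => ENNReal.ofReal (|deriv (φ k) s| ^ p) := fun k =>
          (((hm k).norm).pow_const p).ennreal_ofReal
        rw [lintegral_indicator measurableSet_Ioo, lintegral_add_left m1, lintegral_add_left (m2 j)]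
      have hdk : ∀ k, k ≠ i → ∀ᵐ s : ℝ, s ∈ Ioo α α' → s ∉ b →
          |deriv (φ k) s| ≤ |deriv (φ i) s - 1| + 2 * e := by
        intro k hk
        filter_upwards [hae] with s hs hsI hsb
        have q1 := hpair k hk 1 (Or.inl rfl) s hsI hsb
        have q2 := hpair k hk (-1) (Or.inr rfl) s hsI hsb
        have q3 : ∀ c : ℝ, deriv (fun t => φ i t + c * φ k t) s =
            deriv (φ i) s + c * deriv (φ k) s := fun c =>
          ((hs i hsI).hasDerivAt.add ((hs k hsI).hasDerivAt.const_mul c)).deriv
        rw [q3] at q1 q2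
        have q4 := neg_abs_le (deriv (φ i) s - 1)
        have q5 := (abs_le.1 q1).2
        have q6 := (abs_le.1 q2).2
        rw [abs_le]
        constructor <;> linarith
      have r1 := row_le hp hαα (C := Cn) he (by linarith) (δ := 5 * r) (by positivity) (hLip i)
        hbm hdi hnet
      have r2 := row1_small hp he he1 hbm (hdC j) (hdk j hji)
      have r3 := row1_small hp he he1 hbm (hdC l) (hdk l hi.symm)
      -- the right hand side
      have hRHS : ∫⁻ s : ℝ, R (Function.update x i s) =
          ENNReal.ofReal c₁ * ENNReal.ofReal (α' - α) +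
            ENNReal.ofReal K * volume (Ioo α α' ∩ b) := by
        have e1 : (fun s => R (Function.update x i s)) = (Ioo α α').indicator fun s =>
            ENNReal.ofReal c₁ + ENNReal.ofReal K * b.indicator (1 : ℝ → ℝ≥0∞) s := by
          funext s
          by_cases hsI : s ∈ Ioo α α'
          · rw [hR, indicator_of_mem ((hmem s).2 hsI), indicator_of_mem hsI]
            have e2 : (Function.update x i s ∈ B') ↔ s ∈ b := by
              show Function.update (Function.update x i s) l (a l) ∈ B ↔ rp a l i x s ∈ B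
              rw [rp_eq hi]
            congr 2
            by_cases hsb : s ∈ b
            · rw [indicator_of_mem hsb, indicator_of_mem (e2.2 hsb)]; rfl
            · rw [indicator_of_notMem hsb, indicator_of_notMem (fun h => hsb (e2.1 h))]
          · rw [hR, indicator_of_notMem (fun h => hsI ((hmem s).1 h)), indicator_of_notMem hsI]
        rw [e1, lintegral_indicator measurableSet_Ioo, lintegral_add_left measurable_const,
          setLIntegral_const, Real.volume_Ioo,
          lintegral_const_mul _ (hone1.indicator hbm)]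
        congr 2
        rw [lintegral_indicator_one hbm, Measure.restrict_apply hbm, inter_comm]
      rw [hRHS]
      refine hLHS.trans ((add_le_add le_rfl (add_le_add r2 r3)).trans ?_)
      have hd0 : 0 ≤ α' - α := by linarith
      have hCn' : (Cn : ℝ) = C := rfl
      rw [hCn'] at r1
      set X := ∫⁻ s in Ioo α α', ENNReal.ofReal (|deriv (φ i) s - 1| ^ p) with hX
      set Vb := volume (Ioo α α' ∩ b) with hVb
      have h2p : (0:ℝ) ≤ 2 ^ p := by positivity
      have hCp : (0:ℝ) ≤ C ^ p := by positivity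
      have h4p : (0:ℝ) ≤ 4 ^ (p - 1) * C + (C + 1) ^ p := by positivity
      have h4q : (0:ℝ) ≤ 4 ^ (p - 1) * (4 * e + 5 * r) := by positivity
      calc X + (ENNReal.ofReal (2 ^ p) * X + ENNReal.ofReal (2 ^ p * (2 * e) * (α' - α)) +
            ENNReal.ofReal (C ^ p) * Vb + (ENNReal.ofReal (2 ^ p) * X +
              ENNReal.ofReal (2 ^ p * (2 * e) * (α' - α)) + ENNReal.ofReal (C ^ p) * Vb))
          = (1 + 2 * ENNReal.ofReal (2 ^ p)) * X +
            2 * ENNReal.ofReal (2 ^ p * (2 * e) * (α' - α)) +
            2 * ENNReal.ofReal (C ^ p) * Vb := by ring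
        _ ≤ (1 + 2 * ENNReal.ofReal (2 ^ p)) *
            (ENNReal.ofReal (4 ^ (p - 1) * (4 * e + 5 * r) * (α' - α)) +
              ENNReal.ofReal (4 ^ (p - 1) * C + (C + 1) ^ p) * Vb) +
            2 * ENNReal.ofReal (2 ^ p * (2 * e) * (α' - α)) +
            2 * ENNReal.ofReal (C ^ p) * Vb := by gcongr
        _ = ENNReal.ofReal c₁ * ENNReal.ofReal (α' - α) + ENNReal.ofReal K * Vb := by
            have f1 : ENNReal.ofReal c₁ = (1 + 2 * ENNReal.ofReal (2 ^ p)) *
                ENNReal.ofReal (4 ^ (p - 1) * (4 * e + 5 * r)) +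
                2 * ENNReal.ofReal (2 ^ p * (2 * e)) := by
              rw [hc₁, ENNReal.ofReal_add (by positivity) (by positivity),
                ENNReal.ofReal_mul (by positivity), ENNReal.ofReal_add zero_le_one
                (by positivity), ENNReal.ofReal_mul (p := 2) (by norm_num), ENNReal.ofReal_one,
                ENNReal.ofReal_ofNat, ENNReal.ofReal_mul (p := 2) (by norm_num),
                ENNReal.ofReal_ofNat]
            have f2 : ENNReal.ofReal K = (1 + 2 * ENNReal.ofReal (2 ^ p)) *
                ENNReal.ofReal (4 ^ (p - 1) * C + (C + 1) ^ p) + 2 * ENNReal.ofReal (C ^ p) := by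
              rw [hK, ENNReal.ofReal_add (by positivity) (by positivity),
                ENNReal.ofReal_mul (by positivity), ENNReal.ofReal_add zero_le_one
                (by positivity), ENNReal.ofReal_mul (p := 2) (by norm_num), ENNReal.ofReal_one,
                ENNReal.ofReal_ofNat, ENNReal.ofReal_mul (p := 2) (by norm_num),
                ENNReal.ofReal_ofNat]
            rw [f1, f2, ENNReal.ofReal_mul (q := α' - α) h4q,
              ENNReal.ofReal_mul (q := α' - α) (by positivity)]
            ring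
    have hfin := lintegral_le_of_rows hGm hRm i hrows
    -- the left hand side
    have eL : ∫⁻ x in cube a σ,
        ENNReal.ofReal (‖lineDeriv ℝ g (Function.update x l (a l)) (ev i) - ev i‖ ^ p) =
          ∫⁻ x, G x := by
      rw [hG, lintegral_indicator hOm, ← setLIntegral_congr (ocube_ae a σ)]
      refine setLIntegral_congr_fun hOm fun x hx => ?_
      have e1 : lineDeriv ℝ gc (Function.update x l (a l)) (ev i) =
          lineDeriv ℝ g (Function.update x l (a l)) (ev i) := by
        unfold lineDeriv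
        refine Filter.EventuallyEq.deriv_eq ?_
        have h4 : ∀ᶠ t : ℝ in 𝓝 0, |x i + t - a i| < σ := by
          have h5 : Tendsto (fun t : ℝ => |x i + t - a i|) (𝓝 0) (𝓝 (|x i + 0 - a i|)) := by
            apply Continuous.tendsto
            fun_prop
          rw [add_zero] at h5
          exact h5.eventually (gt_mem_nhds (hx i))
        filter_upwards [h4] with t ht
        show g (toSq a l σ _) = g _
        rw [toSq_of_mem]
        refine ⟨by simp [ev, hi.symm], fun k => ?_⟩
        by_cases hk : k = i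
        · subst hk
          simpa [ev, hi] using ht.le
        · by_cases hkl : k = l
          · subst hkl; simp [ev, hk, hσ.le]
          · have : (Function.update x l (a l) + t • (ev i : V)) k = x k := by
              simp [ev, hk, hkl]
            rw [this]
            exact (hx k).le
      show ENNReal.ofReal (‖lineDeriv ℝ g (Function.update x l (a l)) (ev i) - ev i‖ ^ p) = _
      rw [e1]
    have eR : ∫⁻ x, R x ≤ ENNReal.ofReal c₁ * ENNReal.ofReal ((2 * σ) ^ 3) +
        ENNReal.ofReal K * ENNReal.ofReal (β * σ ^ 3) := by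
      rw [hR, lintegral_indicator hOm, lintegral_add_left measurable_const, setLIntegral_const,
        volume_ocube hσ.le, lintegral_const_mul _ (hone.indicator hB'm),
        lintegral_indicator_one hB'm, Measure.restrict_apply hB'm]
      gcongr
      refine le_trans (measure_mono fun x hx => ?_) hvol
      exact ⟨fun k => (hx.2 k).le, hx.1⟩
    rw [eL]
    refine hfin.trans (eR.trans (le_of_eq ?_))
    rw [← ENNReal.ofReal_mul hc₁0]
  -- both directions
  unfold faceI
  refine (Finset.sum_le_sum fun i hi => key i (Finset.ne_of_mem_erase hi)).trans ?_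
  rw [Finset.sum_const, Finset.card_erase_of_mem (Finset.mem_univ l), Finset.card_univ,
    Fintype.card_fin, ← ENNReal.ofReal_mul (by positivity),
    ← ENNReal.ofReal_add (by positivity) (by positivity), nsmul_eq_mul]
  have e2 : ((3 - 1 : ℕ) : ℝ≥0∞) = ENNReal.ofReal 2 := by norm_num
  rw [e2, ← ENNReal.ofReal_mul (by norm_num)]
  refine ENNReal.ofReal_le_ofReal ?_
  exact le_of_eq (by ring)


/-- `g` is controlled, in the sum of the coordinates, by the bands of `h3` near every point -/
def BandEst1 (a : V) (l : Fin 3) (σ : ℝ) (L : Fin 3 → Finset ℝ) (lo hi om : Fin 3 → ℝ → ℝ)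
    (μs τ : ℝ) (h3 g : V → V) : Prop :=
  ∀ x ∈ sqr a l σ, ∀ᶠ y in 𝓝[sqr a l σ] x, ∑ j, |g y j - g x j| ≤
    (1 + μs) * ∑ i ∈ Finset.univ.erase l, bandJ L lo hi om i (h3 y) (h3 x) + τ * ‖y - x‖

/-- **the face** with explicit constants -/
theorem face_le1 {p : ℝ} (hp : 1 ≤ p) {a : V} {l : Fin 3} {σ : ℝ} (hσ : 0 < σ)
    {L : Fin 3 → Finset ℝ} {lo hi om : Fin 3 → ℝ → ℝ} {K e β r μs τ : ℝ} (hK : 0 < K) (he : 0 < e)
    (he1 : e ≤ 1 / 16) (hβ : 0 ≤ β) (hr : 0 ≤ r) (hr1 : r ≤ 1) (hμ : 0 ≤ μs)
    (hμ1 : μs ≤ e) (hτ : 0 ≤ τ) (hτ1 : τ ≤ e) {h3 g : V → V}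
    (H : ShFace a l σ L lo hi om K e β h3) (HB : BandEst1 a l σ L lo hi om μs τ h3 g)
    (hs : Sides a l σ r g) :
    faceI p g a l σ ≤ ENNReal.ofReal
      ((16 * ((1 + 2 * 2 ^ p) * (4 ^ (p - 1) * (4 * (8 * e) + 5 * r)) +
        2 * (2 ^ p * (2 * (8 * e)))) +
      2 * ((1 + 2 * 2 ^ p) * (4 ^ (p - 1) * (4 * K + 1) + (4 * K + 1 + 1) ^ p) +
        2 * (4 * K + 1) ^ p) * β) * σ ^ 3) := by
  obtain ⟨B, hB, hvol, hsh⟩ := H.sharp
  refine faceI_le_l1 hp hσ hB (C := 4 * K + 1) (e := 8 * e) (by positivity)
    (by positivity) (by linarith) hr hr1 hβ (fun x hx => ?_) (fun x hx hxB => ?_) hs hvol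
  · filter_upwards [HB x hx, self_mem_nhdsWithin] with y hy hyS j
    have q3 := sum_erase_le (l := l) (u := fun i => bandJ L lo hi om i (h3 y) (h3 x))
      fun i hi => H.lip x hx y hyS i hi
    have hn := norm_nonneg (y - x)
    have h1 : |g y j - g x j| ≤ ∑ j, |g y j - g x j| :=
      Finset.single_le_sum (f := fun j => |g y j - g x j|) (fun _ _ => abs_nonneg _)
        (Finset.mem_univ j)
    have h4 : (1 + μs) * ∑ i ∈ Finset.univ.erase l, bandJ L lo hi om i (h3 y) (h3 x) ≤
        2 * (2 * (K * ‖y - x‖)) := (mul_le_mul_of_nonneg_left q3 (by linarith)).trans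
          (mul_le_mul_of_nonneg_right (by linarith) (by positivity))
    have h6 : τ * ‖y - x‖ ≤ 1 * ‖y - x‖ := mul_le_mul_of_nonneg_right (by linarith) hn
    calc |g y j - g x j| ≤ 2 * (2 * (K * ‖y - x‖)) + 1 * ‖y - x‖ := by linarith
      _ = (4 * K + 1) * ‖y - x‖ := by ring
  · filter_upwards [HB x hx, hsh x hx hxB] with y hy hy2
    have hn := norm_nonneg (y - x)
    have q3 : ∑ i ∈ Finset.univ.erase l, bandJ L lo hi om i (h3 y) (h3 x) ≤
        (1 + e) * (∑ i ∈ Finset.univ.erase l, |y i - x i|) + 2 * (e * ‖y - x‖) := by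
      refine (Finset.sum_le_sum fun i hi => hy2 i (Finset.ne_of_mem_erase hi)).trans
        (le_of_eq ?_)
      rw [Finset.sum_add_distrib, ← Finset.mul_sum, Finset.sum_const, card_erase, nsmul_eq_mul]
      norm_num
    have q4 := sum_erase_le (l := l) (u := fun i => |y i - x i|) (c := ‖y - x‖) fun i _ => by
      have h5 := abs_apply_le (y - x) i
      rwa [Pi.sub_apply] at h5
    set D := ∑ i ∈ Finset.univ.erase l, |y i - x i| with hD
    have hD0 : 0 ≤ D := Finset.sum_nonneg fun i _ => abs_nonneg _
    have h4 : (1 + μs) * ∑ i ∈ Finset.univ.erase l, bandJ L lo hi om i (h3 y) (h3 x) ≤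
        (1 + e) * ((1 + e) * D + 2 * (e * ‖y - x‖)) :=
      (mul_le_mul_of_nonneg_left q3 (by linarith)).trans
        (mul_le_mul_of_nonneg_right (by linarith) (by positivity))
    have h6 : τ * ‖y - x‖ ≤ e * ‖y - x‖ := mul_le_mul_of_nonneg_right hτ1 hn
    have h7 : e * e * D ≤ e * D := by
      have : e * e ≤ e := by nlinarith
      exact mul_le_mul_of_nonneg_right this hD0
    have h8 : e * (e * ‖y - x‖) ≤ 1 / 16 * (e * ‖y - x‖) :=
      mul_le_mul_of_nonneg_right he1 (by positivity)
    have h9 : 0 ≤ e * D := by positivity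
    have h10 : 0 ≤ e * ‖y - x‖ := by positivity
    nlinarith

/-- the constants of the sharp faces, for the sum of the coordinates -/
def FaceC1 (p μ r₀ K e β μ₀ : ℝ) : Prop :=
  ∀ (a : V) (l : Fin 3) (σ : ℝ), 0 < σ → ∀ (L : Fin 3 → Finset ℝ) (lo hi om : Fin 3 → ℝ → ℝ)
    (r μs τ ε : ℝ), 0 ≤ r → r ≤ r₀ → 0 ≤ μs → μs ≤ μ₀ → 0 ≤ τ → τ ≤ μ₀ → 0 ≤ ε →
    ∀ h3 g : V → V, ShFace a l σ L lo hi om K e β h3 →
    BandEst1 a l σ L lo hi om μs τ h3 g → Sides a l σ r g →
      faceI p g a l σ ≤ ENNReal.ofReal ((μ + ε) * σ ^ 3)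

/-- **the constants of a sharp face**, for the sum of the coordinates -/
theorem exists_face1 {p : ℝ} (hp : 1 ≤ p) {μ : ℝ} (hμ : 0 < μ) : ∃ e : ℝ, 0 < e ∧ e ≤ 1 / 16 ∧
    ∃ r₀ : ℝ, 0 < r₀ ∧ r₀ ≤ 1 ∧ ∀ K : ℝ, 0 < K → ∃ β : ℝ, 0 < β ∧ ∃ μ₀ : ℝ, 0 < μ₀ ∧
      FaceC1 p μ r₀ K e β μ₀ := by
  set A : ℝ := (1 + 2 * 2 ^ p) * 4 ^ (p - 1) with hA
  have hA0 : 0 < A := by positivity
  have h2p : (0:ℝ) < 2 ^ p := by positivity
  refine ⟨min (1 / 16) (μ / (4 * (512 * A + 512 * 2 ^ p))), lt_min (by norm_num) (by positivity),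
    min_le_left _ _, min 1 (μ / (4 * (80 * A))), lt_min one_pos (by positivity),
    min_le_left _ _, fun K hK => ?_⟩
  set e : ℝ := min (1 / 16) (μ / (4 * (512 * A + 512 * 2 ^ p))) with he
  have he0 : 0 < e := lt_min (by norm_num) (by positivity)
  set T : ℝ := (1 + 2 * 2 ^ p) * (4 ^ (p - 1) * (4 * K + 1) + (4 * K + 1 + 1) ^ p) +
    2 * (4 * K + 1) ^ p with hT
  have hT0 : 0 < T := by positivity
  refine ⟨μ / (4 * T), by positivity, e, he0, ?_⟩
  intro a l σ hσ L lo hi om r μs τ ε hr hr1 hμs hμs1 hτ hτ1 hε h3 g H HB hs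
  refine (face_le1 hp hσ hK he0 (min_le_left _ _) (by positivity) hr (hr1.trans (min_le_left _ _))
    hμs hμs1 hτ hτ1 H HB hs).trans (ENNReal.ofReal_le_ofReal ?_)
  refine mul_le_mul_of_nonneg_right ?_ (by positivity)
  rw [← hT]
  have e1 : e * (4 * (512 * A + 512 * 2 ^ p)) ≤ μ := by
    have := min_le_right (1 / 16 : ℝ) (μ / (4 * (512 * A + 512 * 2 ^ p)))
    rw [← he, le_div_iff₀ (by positivity)] at this
    exact this
  have e2 : r * (4 * (80 * A)) ≤ μ := by
    have := hr1.trans (min_le_right 1 (μ / (4 * (80 * A))))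
    rwa [le_div_iff₀ (by positivity)] at this
  have e3 : 2 * T * (μ / (4 * T)) = μ / 2 := by field_simp; ring
  rw [e3]
  have e4 : 16 * ((1 + 2 * 2 ^ p) * (4 ^ (p - 1) * (4 * (8 * e) + 5 * r)) +
      2 * (2 ^ p * (2 * (8 * e)))) = e * (512 * A + 512 * 2 ^ p) + r * (80 * A) := by
    rw [hA]; ring
  rw [e4]
  nlinarith

end P073.H761.SE
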