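import Vale.Agent.P073.H761.SEnd5
import Vale.Agent.P073.H345.PBox

/-!
# P073, H761, [SHARP-END], part 7: the staircases of round P on a plate

`prd_PB`: on `PB (7 / 8) s` the two staircases are a product map; `pls_of`: the data of a plate.
-/

open Set Metric Topology Filter

namespace P073.H761.SE

open P073 P073.Net P073.PA691 P073.H236 P073.H579 P073.H345
open Vale.Agent.P073.St (V)
open Vale.Agent.P073.H471 Vale.Agent.P073.H267

variable {Ω Λ : Set V} {v : V} {K : BoxCx Λ v} {S : Rad K} {W : Wid K S} {B : Boxes W}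
  {G : Geo B} {L : PLev G} {F : Bool → BFam 3 K.S Λ} {St : Bool → ConHomeo Λ Λ} {s : K.S} {y : V}

/-- one family of staircases at a point of the plate -/
theorem isS_PB (hF : ∀ β, (F β).B = L.bx β) (hS : ∀ β, (F β).IsS (St β))
    (hy : y ∈ G.PB (7 / 8) s) (β : Bool) :
    (St β).toFun y = Function.update y (tg s β) ((F β).σ s (y (tg s β))) := by
  have hB : (F β).B s = L.bx β s := congrFun (hF β) s
  by_cases hw : (L.bx β s).al ≤ y (tg s β) ∧ y (tg s β) ≤ (L.bx β s).be
  · have h1 : (F β).FullK s y := by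
      show (((F β).B s).al ≤ y ((F β).B s).j ∧ y ((F β).B s).j ≤ ((F β).B s).be) ∧
        ((F β).B s).Full y
      rw [hB]
      exact ⟨hw, PLev.PB_full hy⟩
    have h2 := (hS β).full h1
    rw [hB] at h2
    exact h2
  · have h1 : ∀ s', y ∉ ((F β).B s').K := by
      intro s' hs'
      rw [congrFun (hF β) s'] at hs'
      have h2 := PLev.mem_bxK.1 hs'
      have h3 : s' = s := PK_unique h2.1 (PB_sub_PK (by norm_num) s hy)
      subst h3
      exact hw h2.2
    rw [(hS β).off y h1]
    have h2 : y (tg s β) ≤ ((F β).B s).al ∨ ((F β).B s).be ≤ y (tg s β) := by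
      rw [hB]
      by_contra hcon
      push Not at hcon
      exact hw ⟨hcon.1.le, hcon.2.le⟩
    rw [(F β).σ_out h2, Function.update_eq_self]

/-- the staircases preserve the plate -/
theorem isS_mem_PB (hF : ∀ β, (F β).B = L.bx β) (hS : ∀ β, (F β).IsS (St β)) {c : ℝ}
    (hc : c ≤ 1) (hc' : 7 / 8 ≤ c) (hy : y ∈ G.PB c s) (β : Bool) :
    (St β).toFun y ∈ G.PB c s := by
  have hp := Geo.p_pos (G := G) s
  have hpa := Geo.p_a (G := G) s
  have hcp : c * G.p s ≤ 1 * G.p s := mul_le_mul_of_nonneg_right hc hp.le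
  have hcp' : 7 / 8 * G.p s ≤ c * G.p s := mul_le_mul_of_nonneg_right hc' hp.le
  obtain ⟨h1, h2⟩ := Geo.mem_PB.1 hy
  have hy' : y ∈ G.PB (7 / 8) s := Geo.mem_PB.2 ⟨fun k hk => by
    have := h1 k hk
    constructor <;> linarith, h2⟩
  have hB : (F β).B s = L.bx β s := congrFun (hF β) s
  rw [isS_PB hF hS hy' β, Geo.mem_PB]
  refine ⟨fun k hk => ?_, ?_⟩
  · by_cases hkb : k = tg s β
    · subst hkb
      rw [Function.update_self]
      have h3 := h1 _ hk
      have hm := ((F β).σ_strictMono s).monotone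
      have e1 : (F β).σ s (K.slo s (tg s β) + c * G.p s) = K.slo s (tg s β) + c * G.p s := by
        refine (F β).σ_out (Or.inl ?_)
        rw [hB]
        show _ ≤ K.slo s (tg s β) + G.a s
        linarith
      have e2 : (F β).σ s (K.shi s (tg s β) - c * G.p s) = K.shi s (tg s β) - c * G.p s := by
        refine (F β).σ_out (Or.inr ?_)
        rw [hB]
        show K.shi s (tg s β) - G.a s ≤ _
        linarith
      have h4 := hm h3.1
      have h5 := hm h3.2
      rw [e1] at h4
      rw [e2] at h5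
      exact ⟨h4, h5⟩
    · rw [Function.update_of_ne hkb]
      exact h1 k hk
  · rw [Function.update_of_ne (tg_ne s β).symm]
    exact h2

/-- **on the plate the two staircases are a product map** -/
theorem prd_PB (hF : ∀ β, (F β).B = L.bx β) (hS : ∀ β, (F β).IsS (St β))
    (hy : y ∈ G.PB (7 / 8) s) : Prd F St s (K.nrm s) y := by
  have h1 : (S2 St).toFun y = (St true).toFun ((St false).toFun y) := rfl
  have hy' : (St false).toFun y ∈ G.PB (7 / 8) s :=
    isS_mem_PB hF hS (by norm_num) le_rfl hy false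
  have hj : ∀ β, ((F β).B s).j = tg s β := fun β => by rw [congrFun (hF β) s]; rfl
  rw [isS_PB hF hS hy' true, isS_PB hF hS hy false] at h1
  have hne : tg s true ≠ tg s false := tg_ne_not s true
  rw [Function.update_of_ne hne] at h1
  refine ⟨?_, fun β => ?_⟩
  · rw [h1, Function.update_of_ne (tg_ne s true).symm, Function.update_of_ne (tg_ne s false).symm]
  · rw [hj β, h1]
    cases β
    · rw [Function.update_of_ne hne.symm, Function.update_self]
    · rw [Function.update_self]

theorem S2_mem_PB (hF : ∀ β, (F β).B = L.bx β) (hS : ∀ β, (F β).IsS (St β)) {c : ℝ}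
    (hc : c ≤ 1) (hc' : 7 / 8 ≤ c) (hy : y ∈ G.PB c s) : (S2 St).toFun y ∈ G.PB c s :=
  isS_mem_PB hF hS hc hc' (isS_mem_PB hF hS hc hc' hy false) true

/-- **the data of a plate** -/
theorem pls_of (hF : ∀ β, (F β).B = L.bx β) (hS : ∀ β, (F β).IsS (St β)) {om0 e0 θ : ℝ}
    (hom : ∀ β, stp (L.N s β) (K.slo s (tg s β) + G.a s) (K.shi s (tg s β) - G.a s) = om0)
    (he0 : ∀ β, (F β).e s ≤ e0) (hθ : ∀ β, (F β).e s ≤ θ * L.c s β) :
    PlS F St s (K.nrm s) (L.kP s) (L.lv s) (L.loP s) (L.hiP s) (L.omP s) om0 e0 θ := by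
  have hB : ∀ β, (F β).B s = L.bx β s := fun β => congrFun (hF β) s
  have hj : ∀ β, ((F β).B s).j = tg s β := fun β => by rw [hB β]; rfl
  refine ⟨hS, ?_, fun β => ?_, L.ins1P s, L.lv_nrm s, fun β => ?_, fun β t => ?_, fun β t => ?_,
    fun β t => ?_, fun β => ?_, he0, fun β => ?_⟩
  · rw [hj, hj]; exact (tg_ne_not s true).symm
  · rw [hj]; exact tg_ne s β
  · rw [hB β]; exact L.lv_tg s β
  · rw [hB β]
    show loQ (L.bx (bt s (tg s β)) s) (tg s β) t = _
    rw [bt_tg]; rfl
  · rw [hB β]
    show hiQ (L.bx (bt s (tg s β)) s) (tg s β) t = _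
    rw [bt_tg]; rfl
  · rw [hj, L.omP_tg]; exact hom β
  · show stp ((F β).B s).N ((F β).B s).al ((F β).B s).be = om0
    rw [hB β]; exact hom β
  · rw [hB β]; exact hθ β

/-- ends of the window -/
noncomputable def wlo (G : Geo B) (s : K.S) : V := fun j => K.slo s j + G.a s

/-- ends of the window -/
noncomputable def whi (G : Geo B) (s : K.S) : V := fun j => K.shi s j - G.a s

theorem al_eq (hF : ∀ β, (F β).B = L.bx β) (β : Bool) :
    ((F β).B s).al = wlo G s ((F β).B s).j := by
  rw [congrFun (hF β) s]; rfl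

theorem be_eq (hF : ∀ β, (F β).B = L.bx β) (β : Bool) :
    ((F β).B s).be = whi G s ((F β).B s).j := by
  rw [congrFun (hF β) s]; rfl

end P073.H761.SE
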