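import Vale.Agent.P073.H233.Tail3I
import Vale.Agent.P073.H212.Sharp3

/-!
# P073, block H761, [AUX-Q], part 1: `AuxOut` for the collapse of the map before the hooks

`PreQ`: the facts about the map `f` (the map before the hooks) which give `off`, `close`, `edge`
of `H212.AuxOut` for `Φ ∘ f`, for every sufficiently strong soft collapse `Φ`.
-/

open Set Metric Topology Filter MeasureTheory
open scoped ENNReal

namespace Vale.Agent.P073.H761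

open _root_.P073 _root_.P073.Net _root_.P073.PA691 _root_.P073.TM
open Vale.Agent.P073.St (V)
open Vale.Agent.P073.SQ (cube ev)
open Vale.Agent.P073.H471 Vale.Agent.P073.H267 Vale.Agent.P073.H926 Vale.Agent.P073.H233
open Vale.Agent.P073.H212 (IsSoft TvOut AuxOut)
open Vale.Agent.P073.H73 (Mesh sqr onSeg)
open Vale.Agent.P073.H193 (Edges edges)
open Vale.Agent.P073.H304 (Nb IsEdge)

section

variable {Ω Λ : Set V} {M : Mesh Ω} {w : V} {K : BoxCx Λ w} {S : Rad K} {W : Wid K S}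
  {B : Boxes W} {X : PSet K} {R : Fac K} {Φ : ConHomeo Λ Λ} {μ : ℝ}
  {c₀ δ D D₀ D₁ : ℝ} {ρ : V → ℝ} {J₀ : Set (ℕ × (Fin 3 → ℤ))} {P : Set M.ι} {ε : M.κ → ℝ}
  {om εL : (edges M).ε → ℝ} {lam osc : M.ι → ℝ}

/-- **the facts about the map `f` before the collapse** (the fields `off`, `near`, `prot`, `edge`
of `Last3`) -/
structure PreQ (B : Boxes W) (X : PSet K) (μ c₀ : ℝ) (ρ : V → ℝ) (h : V → V)
    (J₀ : Set (ℕ × (Fin 3 → ℤ))) (P : Set M.ι) (om : (edges M).ε → ℝ) (D₀ D₁ : ℝ)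
    (f : V → V) : Prop where
  off : ∀ x ∈ Ω, h x ∉ Nb w J₀ c₀ → f x = h x
  near : ∀ x ∈ Ω, H581.Near D₁ ρ (h x) (f x)
  prot : ∀ i ∈ P, ∀ q > 0, (∀ x ∈ M.Q i, ∀ y ∈ M.Q i, ‖h x - h y‖ = q * ‖x - y‖) →
    ∀ x ∈ M.Q i, LAt B X (D₁ * q) (M.Q i) f x
  edge : ∀ k e, (edges M).seg e ⊆ M.F k → (∃ i ∈ P, (edges M).seg e ⊆ M.Q i) ∨
    Ev B X μ M f (.inl k) (EdgeEst h f D₀ (om e) e)

variable {h f : V → V}

/-- the estimate of the length of the edge `e` for the collapsed map, all edges -/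
def LenQ (h f : V → V) (D₀ D₁ : ℝ) (om : (edges M).ε → ℝ) (e : (edges M).ε)
    (Φ : ConHomeo Λ Λ) : Prop :=
  len (onSeg (fun x => Φ.toFun (f x)) ((edges M).a e, (edges M).b e)) (Icc 0 1) ≤
    ENNReal.ofReal (8 * (1 + D₀) + 16 * D₁) *
      len (onSeg h ((edges M).a e, (edges M).b e)) (Icc 0 1) + ENNReal.ofReal (10 * om e)

/-- **the edges**, for all sufficiently strong collapses -/
theorem PreQ.ev_len (L : PreQ B X μ c₀ ρ h J₀ P om D₀ D₁ f) (hf : ContinuousOn f Ω)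
    (hD₁ : 0 < D₁) (hμ : 0 ≤ μ) (hμ1 : μ ≤ 1)
    (hdiag : ∀ i ∈ P, ∃ q > 0, ∀ x ∈ M.Q i, ∀ y ∈ M.Q i, ‖h x - h y‖ = q * ‖x - y‖)
    (a : M.κ ⊕ M.ι) : Ev B X μ M f a fun Φ =>
      (∀ k, a = .inl k → ∀ e ∈ {e | (edges M).seg e ⊆ M.F k},
        (∃ i ∈ P, (edges M).seg e ⊆ M.Q i) ∨ EdgeEst h f D₀ (om e) e Φ) ∧
      (∀ i, a = .inr i → i ∈ P → ∀ x ∈ M.Q i, ∀ y ∈ M.Q i,
        ‖Φ.toFun (f x) - Φ.toFun (f y)‖ ≤ 8 * D₁ * ‖h x - h y‖) := by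
  rcases a with k | i
  · have e1 : Ev B X μ M f (.inl k) fun Φ => ∀ e ∈ {e | (edges M).seg e ⊆ M.F k},
        (∃ i ∈ P, (edges M).seg e ⊆ M.Q i) ∨ EdgeEst h f D₀ (om e) e Φ := by
      refine Ev.finite ((edges M).fin_face k) fun e he => ?_
      rcases L.edge k e he with h0 | h1
      · exact Ev.of_true fun Φ => Or.inl h0
      · exact h1.mono fun Φ h => Or.inr h
    refine e1.mono fun Φ h1 => ⟨fun k' hk' => ?_, fun i hi => absurd hi (by simp)⟩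
    obtain rfl := Sum.inl.inj hk'
    exact h1
  · have hi : M.Q i ⊆ Ω := M.sub i
    have e0 : Ev B X μ M f (.inr i) fun Φ => i ∈ P → ∀ x ∈ M.Q i, ∀ y ∈ M.Q i,
        ‖Φ.toFun (f x) - Φ.toFun (f y)‖ ≤ 8 * D₁ * ‖h x - h y‖ := by
      refine Ev.imp fun hP => ?_
      obtain ⟨q, hq, hh⟩ := hdiag i hP
      refine ⟨D₁ * q, mul_pos hD₁ hq, fun R N t Φ h0 ht HS HΦ x hx y hy => ?_⟩
      have h2 := cell_lip (a := .inr i) (mul_nonneg hD₁.le hq.le)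
        (L.prot i hP q hq hh) (hf.mono hi) Subset.rfl HS HΦ hμ hμ1 ht x hx y hy
      rw [hh x hx y hy]
      refine h2.trans (le_of_eq ?_)
      ring
    refine e0.mono fun Φ h1 => ⟨fun k hk => absurd hk (by simp), fun i' hi' => ?_⟩
    obtain rfl := Sum.inr.inj hi'
    exact h1

/-- the length of the edges for the collapsed map -/
theorem lenQ_of (hD₀ : 0 ≤ D₀) (hD₁ : 0 < D₁)
    (H : ∀ a : M.κ ⊕ M.ι,
      (∀ k, a = .inl k → ∀ e ∈ {e | (edges M).seg e ⊆ M.F k},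
        (∃ i ∈ P, (edges M).seg e ⊆ M.Q i) ∨ EdgeEst h f D₀ (om e) e Φ) ∧
      (∀ i, a = .inr i → i ∈ P → ∀ x ∈ M.Q i, ∀ y ∈ M.Q i,
        ‖Φ.toFun (f x) - Φ.toFun (f y)‖ ≤ 8 * D₁ * ‖h x - h y‖)) (e : (edges M).ε) :
    LenQ h f D₀ D₁ om e Φ := by
  obtain ⟨k, hk⟩ := (edges M).own e
  unfold LenQ
  rcases (H (.inl k)).1 k rfl e hk with ⟨i, hi, hei⟩ | h2
  · refine (len_le_of_lip (h := h) (c := 8 * D₁) (by positivity) fun x hx y hy =>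
      (H (.inr i)).2 i rfl hi x (hei hx) y (hei hy)).trans ?_
    refine le_add_right (mul_le_mul_left (ENNReal.ofReal_le_ofReal ?_) _)
    linarith
  · exact h2.trans (add_le_add (mul_le_mul_left (ENNReal.ofReal_le_ofReal (by linarith)) _)
      le_rfl)

end

/-! ### The auxiliary function -/

variable {c₀ n δ : ℝ} {j : ℕ} {Ω Λ : Set V} {v w : V} {ρ : V → ℝ} {M : Mesh Ω}
  {h : ConHomeo Ω Λ} {J₀ J : Set (ℕ × (Fin 3 → ℤ))} {P Z₀ : Set M.ι} {K : BoxCx Λ w}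
  {Dq D₀ D₁ : ℝ} {ε : M.κ → ℝ} {om εL : (edges M).ε → ℝ} {lam osc : M.ι → ℝ}

/-- **[AUX-Q], tail.** `AuxOut` for `Φ ∘ f`, with an arbitrarily strong collapse `Φ` -/
theorem exists_auxQ (D : KIn3 c₀ n j δ v w ρ M h J₀ J P Z₀) (C : Cells ρ w K)
    (T : Tol M h.toFun ε om εL lam osc) (hD₀ : 1 ≤ D₀) (hD₁ : 1 ≤ D₁) {f : ConHomeo Ω Λ}
    (L : PreQ (D.B C) (Xp C J₀) (20 / (1 / μN n)) c₀ ρ h.toFun J₀ P om D₀ D₁ f.toFun)
    (hD : 160 * D₁ ≤ Dq) (hD' : 8 * (1 + D₀) + 16 * D₁ ≤ Dq)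
    (htv : ∃ t₀ : M.κ ⊕ M.ι → ℝ, (∀ a, 0 < t₀ a) ∧ ∀ (R : Fac K) (N t : M.κ ⊕ M.ι → ℝ)
      (Φ : ConHomeo Λ Λ), (∀ a, 0 < t a) → (∀ a, t a ≤ t₀ a) →
      Small3 (D.W C) (Xp C J₀) R f.toFun (FQ M) N t → SoftQ D C R Φ →
      TvOut c₀ δ w ρ M h.toFun J₀ ε fun x => Φ.toFun (f.toFun x))
    {tm : M.κ ⊕ M.ι → ℝ} (htm : ∀ a, 0 < tm a) :
    ∃ (R : Fac K) (N t : M.κ ⊕ M.ι → ℝ) (Φ : ConHomeo Λ Λ), (∀ a, 0 < t a) ∧
      (∀ a, t a ≤ tm a) ∧ Small3 (D.W C) (Xp C J₀) R f.toFun (FQ M) N t ∧ SoftQ D C R Φ ∧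
      AuxOut Dq c₀ δ w ρ M h.toFun J₀ ε fun x => Φ.toFun (f.toFun x) := by
  obtain ⟨hμ, hμ1⟩ := soft_mu D
  have hdiag := diag_of D
  obtain ⟨t₁, ht₁, h1⟩ := Ev.all (B := D.B C) (X := Xp C J₀) (μ := 20 / (1 / μN n)) (M := M)
    (f := f.toFun) fun a => L.ev_len f.cont (by linarith) hμ hμ1 hdiag a
  obtain ⟨t₂, ht₂, h2⟩ := htv
  obtain ⟨R, N, HS, hR⟩ := exists_small3 D.bΩ.1 f (D.W C) (Xp C J₀) (FQ M) (isCompact_FQ M)
    (FQ_sub M) (fun c hc hcc => FQ_fin M c hc hcc)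
    (t := fun a => min (tm a) (min (t₁ a) (t₂ a)))
    fun a => lt_min (htm a) (lt_min (ht₁ a) (ht₂ a))
  obtain ⟨Φ, HΦ⟩ := exists_softQ D C hR
  have ht0 : ∀ a, 0 < min (tm a) (min (t₁ a) (t₂ a)) := fun a =>
    lt_min (htm a) (lt_min (ht₁ a) (ht₂ a))
  have h3 := h1 R N _ Φ ht0 (fun a => (min_le_right _ _).trans (min_le_left _ _)) HS
    HΦ.2.1.toIsSoft
  have h4 := h2 R N _ Φ ht0 (fun a => (min_le_right _ _).trans (min_le_right _ _)) HS HΦ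
  have hlen := lenQ_of (by linarith : (0:ℝ) ≤ D₀) (by linarith : (0:ℝ) < D₁) h3
  refine ⟨R, N, _, Φ, ht0, fun a => min_le_left _ _, HS, HΦ, ?_, ?_, ?_, h4⟩
  · intro x hx hN
    show Φ.toFun (f.toFun x) = h.toFun x
    rw [L.off x hx hN]
    exact HΦ.off hN
  · intro x hx t ht hN
    have h1 := L.near x hx
    have h2 : H581.Near 16 ρ (f.toFun x) (Φ.toFun (f.toFun x)) :=
      H581.Near.of_tileIff D.hρ (_root_.P073.H155.tileIff_soft C D.hρ HΦ.2.1.toIsSoft)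
        (f.mapsTo hx)
    have h3 := (D.hρ.pos _ (h.mapsTo hx)).le
    have h4 := (D.hρ.pos _ (Φ.mapsTo (f.mapsTo hx))).le
    have h5 := (h1.trans h2 hD₁ (by norm_num) h3 h4).dist
    have h6 := rho_le_of_Nb D.hρ (D.tile t ht) (by linarith [D.le]) hN
    show ‖Φ.toFun (f.toFun x) - h.toFun x‖ ≤ Dq / 2 ^ t.1
    refine h5.trans ?_
    calc 2 * (D₁ * 16) * ρ (h.toFun x) ≤ 2 * (D₁ * 16) * (5 / 2 ^ t.1) :=
          mul_le_mul_of_nonneg_left h6 (by linarith)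
      _ = 160 * D₁ / 2 ^ t.1 := by ring
      _ ≤ _ := div_le_div_of_nonneg_right hD (by positivity)
  · intro k e he hek
    obtain ⟨e', h1, h2, h3⟩ := exists_edge he
    have h4 := hlen e'
    unfold LenQ at h4
    have h5 : (edges M).seg e' ⊆ M.F k := by rw [h1]; exact hek
    rw [h3, h3] at h4
    refine h4.trans (add_le_add (mul_le_mul_left (ENNReal.ofReal_le_ofReal hD') _)
      (ENNReal.ofReal_le_ofReal (T.om_le k e' h5)))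

end Vale.Agent.P073.H761
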