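import Vale.Agent.P073.H761.SEnd11
import Vale.Agent.P073.H31.ShCondOf
import Vale.Agent.P073.H31.FRound
import Vale.Agent.P073.H669.PLevF
import Vale.Agent.P073.H142.PCone5
import Vale.Agent.P073.H142.PCone6

/-!
# P073, H761, [SHARP-END], part 12: **the field `face` of `SharpOut`**

`face_at`: one face, all numbers explicit.  `face_of`: the field for `g = Φ ∘ f`, thresholds `e₁` of
the staircases, then thresholds `t₀` of the collapse.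
-/

open Set Metric Topology Filter MeasureTheory
open scoped ENNReal

namespace P073.H761.SE

open P073 P073.Net P073.PA691 P073.H236 P073.H579 P073.H345 P073.H142 P073.FW31
open Vale.Agent.P073.St (V)
open Vale.Agent.P073.SQ (ev cube)
open Vale.Agent.P073.H73 (Mesh sqr onSeg)
open Vale.Agent.P073.H193 (Edges edges)
open Vale.Agent.P073.H304 (IsEdge)
open Vale.Agent.P073.H471 Vale.Agent.P073.H267
open Vale.Agent.P073.H669 (PLv wl)
open Vale.Agent.P073.H239 (faceI Deep)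

/-- the sharp clause depends only on the values on the face -/
theorem ShFace.congr {a : V} {l : Fin 3} {σ : ℝ} {L : Fin 3 → Finset ℝ}
    {lo hi om : Fin 3 → ℝ → ℝ} {K e β : ℝ} {f g : V → V} (H : ShFace a l σ L lo hi om K e β f)
    (h : EqOn g f (sqr a l σ)) : ShFace a l σ L lo hi om K e β g := by
  refine ⟨fun x hx y hy j hj => ?_, ?_⟩
  · rw [h hx, h hy]
    exact H.lip x hx y hy j hj
  · obtain ⟨B, h1, h2, h3⟩ := H.sharp
    refine ⟨B, h1, h2, fun x hx hxB => ?_⟩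
    filter_upwards [h3 x hx hxB, self_mem_nhdsWithin] with y h4 hy j hj
    rw [h hx, h hy]
    exact h4 j hj

theorem norm_side (x : V) (i : Fin 3) {σ : ℝ} (hσ : 0 < σ) :
    ‖x + (2 * σ) • ev i - x‖ = 2 * σ := by
  have e : x + (2 * σ) • ev i - x = (2 * σ) • ev i := by abel
  have h1 : ‖(ev i : V)‖ = 1 := by
    unfold ev
    rw [Pi.norm_single, norm_one]
  rw [e, norm_smul, h1, Real.norm_eq_abs, abs_of_pos (by linarith), mul_one]

theorem sqr_convex' (a : V) (l : Fin 3) (σ : ℝ) : Convex ℝ (sqr a l σ) := by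
  intro u hu v hv s t hs ht hst
  refine ⟨?_, fun j => ?_⟩
  · simp only [Pi.add_apply, Pi.smul_apply, smul_eq_mul, hu.1, hv.1]
    rw [← add_mul, hst, one_mul]
  · have h1 := hu.2 j
    have h2 := hv.2 j
    have e1 : (s • u + t • v) j - a j = s * (u j - a j) + t * (v j - a j) := by
      simp only [Pi.add_apply, Pi.smul_apply, smul_eq_mul]
      have : a j = (s + t) * a j := by rw [hst, one_mul]
      nlinarith
    rw [e1]
    calc |s * (u j - a j) + t * (v j - a j)| ≤ |s * (u j - a j)| + |t * (v j - a j)| :=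
          abs_add_le _ _
      _ = s * |u j - a j| + t * |v j - a j| := by
          rw [abs_mul, abs_mul, abs_of_nonneg hs, abs_of_nonneg ht]
      _ ≤ s * σ + t * σ := by gcongr
      _ = σ := by rw [← add_mul, hst, one_mul]

/-- the constants of the sharp faces: statement of `exists_face` -/
def FaceC (p μ r₀ K e β μ₀ : ℝ) : Prop :=
  ∀ (a : V) (l : Fin 3) (σ : ℝ), 0 < σ → ∀ (L : Fin 3 → Finset ℝ) (lo hi om : Fin 3 → ℝ → ℝ)
    (r μs τ ε : ℝ), 0 ≤ r → r ≤ r₀ → 0 ≤ μs → μs ≤ μ₀ → 0 ≤ τ → τ ≤ μ₀ → 0 ≤ ε →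
    ∀ h3 g : V → V, ShFace a l σ L lo hi om K e β h3 →
    BandEst a l σ L lo hi om μs τ h3 g → Sides a l σ r g →
      faceI p g a l σ ≤ ENNReal.ofReal ((μ + ε) * σ ^ 3)

section

variable {Ω Λ : Set V} {v : V} {K : BoxCx Λ v} {S : Rad K} {W : Wid K S} {B : Boxes W}
  {G : Geo B} {M : Mesh Ω} {E : Edges M} {h : ConHomeo Ω Λ} {Pr : Set M.ι}
  {sl : TBx K → Finset (ℝ × ℝ)} {η : ℝ} {τ : Type*} {A : τ → Set V} {Cs : Set ℝ}
  {εE : E.ε → ℝ} {μ δ : K.S → ℝ}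

/-- the staircases of `PLv` -/
theorem pld_of (L : PLv G E h Pr sl η A Cs εE μ δ) {eS : K.S → ℝ} {he0 : ∀ s, 0 < eS s}
    {he8 : ∀ s, eS s ≤ δ s / 8} {Sm : Bool → ConHomeo Λ Λ}
    (hS : ∀ β, (L.bfam eS he0 he8 β).IsS (Sm β)) (s : K.S) :
    PlD L.lev (fun β => L.bfam eS he0 he8 β) Sm s (L.om s false) (eS s) (eS s / (δ s / 8)) where
  ps := L.ps he0 he8 hS
  om := fun β => L.om_eq s β false
  e0 := fun β => le_rfl
  θ := fun β => by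
    have h1 := L.δ0 s
    show eS s ≤ eS s / (δ s / 8) * (δ s / 8)
    rw [div_mul_cancel₀ _ (by positivity)]

end

variable {η₀ : ℝ} {Ω Λ : Set V} {w : V} {ρ : V → ℝ} {M : Mesh Ω} {h h1 h2 h3 : ConHomeo Ω Λ}
  {Pr : Set M.ι} {K : BoxCx Λ w} {ω : TBx K → ℝ} {O : M.κ → V} {LaT : (edges M).ε → ℝ}
  {Lf : M.κ → (edges M).ε → ℝ} {Lam1 : M.κ → ℝ} {sl sl' : TBx K → Finset (ℝ × ℝ)}
  {η : ℝ} {τ : Type*} {A : τ → Set V} {Cs : Set ℝ} {εE : (edges M).ε → ℝ} {μ' δ : K.S → ℝ}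
  {κ₀ κ₁ : V → V} {La We mu : (edges M).ε → ℝ} {O' : M.κ → V} {r0 Rr : M.κ → ℝ} {Y : Set M.κ}
  {Ks es βs ρs : ℝ}

/-- **one face** -/
theorem face_at (D : KIn η₀ w ρ M h Pr) (C : Cells ρ w K)
    (HT : T3Out (D.G C) M (edges M) h h1 ω O LaT Lf Lam1 sl)
    (L : PLv (D.G C) (edges M) h1 Pr sl' η A Cs εE μ' δ)
    (RP : RPOut (D.G C) M (edges M) Pr L.lev h1 κ₀ κ₁ h2
      (GEP (edges M) h2 (AkP (D.G C) M h1 univ) L.lev.kP L.lev.lv L.lev.loP L.lev.hiP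
        L.lev.omP La mu)
      (GFY (edges M) h2 (AkP (D.G C) M h1 univ) L.lev.lv L.lev.loP L.lev.hiP L.lev.omP La We O' r0
        Rr Y Ks es βs ρs) h3)
    {eS : K.S → ℝ} {he0 : ∀ s, 0 < eS s} {he8 : ∀ s, eS s ≤ δ s / 8}
    {Sm : Bool → ConHomeo Λ Λ} (hS : ∀ β, (L.bfam eS he0 he8 β).IsS (Sm β))
    {p μ r r₀ μ₀ μs c η₁ ν Lam ε : ℝ} (hfc : FaceC p μ r₀ Ks es βs μ₀)
    (hη : η₀ ≤ η₁) (hρ0 : 0 < ρs) (hρ1 : ρs ≤ 1 / 2) (hr0 : 0 ≤ r) (hr1 : r ≤ r₀)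
    (hr2 : r ≤ ρs / 16) (hc0 : 0 ≤ c) (hc1 : c ≤ ρs / 16) (hηc : η ≤ c / 16)
    (hμ' : ∀ s β, μ' s ≤ c / 4 * wl (D.G C) s β)
    (hεE : ∀ e, 4 * εE e ≤ c * ‖(edges M).b e - (edges M).a e‖)
    (hμs : 0 ≤ μs) (hμs1 : μs ≤ μ₀) (hμs2 : μs ≤ ρs / 50) (hν : ν ≤ ρs / 16)
    (hν' : 4 * ν ≤ μ₀) (hε : 0 ≤ ε)
    {R : Fac K} {N t : M.κ → ℝ} {Φ : ConHomeo Λ Λ}
    (HS : Small (D.W C) R (lastMap h3 Sm).toFun M.F N t) (HΦ : IsSoft1 (D.B C) μs R Φ)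
    {k : M.κ} (hkY : k ∈ Y) (ht0 : 0 ≤ t k) (ht : t k ≤ ν)
    {a : V} {l : Fin 3} {σ : ℝ} (hσ : 0 < σ) (hF : M.F k = sqr a l σ)
    (hδ : ∀ s, (h1.toFun '' M.F k ∩ PK (D.G C) s).Nonempty → δ s ≤ ρs / 16 * σ)
    (hLam : ∀ x ∈ M.F k, ∀ y ∈ M.F k, ‖h3.toFun x - h3.toFun y‖ ≤ Lam * ‖x - y‖)
    (hθ : ∀ s, AkP (D.G C) M h1 univ s k → eS s / (δ s / 8) * Lam ≤ ν)
    {J₀ : Set (ℕ × (Fin 3 → ℤ))} {m : ℕ} {z : Fin 3 → ℤ}
    (H : Deep η₁ (δN η₀) w ρ J₀ (Finset.univ.erase l) m z (h.toFun '' M.F k))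
    (hside : ∀ i, i ≠ l → ∀ x : V, x ∈ sqr a l σ → x + (2 * σ) • ev i ∈ sqr a l σ →
      (∀ j, j ≠ i → j ≠ l → |x j - a j| = σ) →
      IsEdge M (x, x + (2 * σ) • ev i) ∧
      (1 - r) * (2 * σ) ≤ ((lastMap h3 Sm).trans Φ).toFun (x + (2 * σ) • ev i) i -
        ((lastMap h3 Sm).trans Φ).toFun x i ∧
      Vale.Agent.P073.H239.tv ((lastMap h3 Sm).trans Φ).toFun (x, x + (2 * σ) • ev i)
        Finset.univ ≤ ENNReal.ofReal ((1 + r) * (2 * σ)) ∧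
      Vale.Agent.P073.H239.tv h.toFun (x, x + (2 * σ) • ev i) (Finset.univ.erase l) ≤
        ENNReal.ofReal ((1 + r) * (2 * σ))) :
    faceI p ((lastMap h3 Sm).trans Φ).toFun a l σ ≤ ENNReal.ofReal ((μ + ε) * σ ^ 3) := by
  obtain ⟨s, hs, hoff, hak, hown⟩ := deep_face D C HT hη H
  subst hs
  have P := pld_of L hS s
  have hθ1 := hθ s hak
  have hkF : k ∈ Peel (D.G C) M h1 := ⟨s, hak⟩
  have hpos : ∀ x ∈ M.F k, h3.toFun x ∈ (D.G C).PB (7 / 8) s ∧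
      |h3.toFun x (K.nrm s) - K.slo s (K.nrm s)| < (D.B C).τ s := fun x hx =>
    peeled_mem RP.rin RP.rout RP.isQ₀ RP.isQ₁ RP.out hak hx
  -- the step is small
  have hom : L.om s false ≤ ρs / 4 * (2 * σ) := by
    have h4 := L.om_le_two s false
    have h5 : δ s ≤ ρs / 16 * σ := by
      refine hδ s ?_
      obtain ⟨-, x, hx, hxP⟩ := hak
      exact ⟨_, mem_image_of_mem _ hx, PB_sub_PK (by norm_num) s hxP⟩
    have h6 : 0 < ρs * σ := mul_pos hρ0 hσ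
    nlinarith
  -- the conditions of the sharp face
  have hcond : ShCond M h2.toFun (L.lev.lv s) (L.lev.omP s) (L.om s false) ρs a (K.nrm s) σ := by
    refine shCond_of (ρ₁ := ρs / 4) (r := r) P RP (edges_isEdge M) HΦ hμs HS ht0 hak hown hσ hF
      hLam ?_ hom hr0 ?_
    · intro i x hx
      obtain ⟨h4, h5, -, h6⟩ := hside i hx.1 x hx.2.1 hx.2.2.1 hx.2.2.2
      refine ⟨h4, h5, fun Y' hY' => ?_⟩
      have h7 := cnt_card L RP.rout hak hoff hc0 (by linarith) hηc (hμ' s) hεE h4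
        (by rw [hF]; exact (sqr_convex' a (K.nrm s) σ).segment_subset hx.2.1 hx.2.2.1) hr0
        (by rw [norm_side x i hσ]; exact h6) Y' hY'
      rw [norm_side x i hσ] at h7
      refine h7.trans (mul_le_mul_of_nonneg_right ?_ (by linarith))
      nlinarith
    · have h4 : (1 + 2 * μs) * (1 + ρs / 4) ≤ 1 + 295 / 1000 * ρs := by nlinarith
      have h5 : (1 + 2 * μs) * (eS s / (δ s / 8) * Lam) ≤ 51 / 50 * (ρs / 16) := by
        have h6 : 0 ≤ 1 + 2 * μs := by linarith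
        refine (mul_le_mul_of_nonneg_left (hθ1.trans hν) h6).trans ?_
        refine mul_le_mul_of_nonneg_right ?_ (by positivity)
        linarith
      linarith
  -- the sharp face map
  obtain ⟨Ψ, hΨ, hΨ3⟩ := RP.out.face k hkF
  have hsh : ShFace a (K.nrm s) σ (L.lev.lv s) (L.lev.loP s) (L.lev.hiP s) (L.lev.omP s) Ks es βs
      h3.toFun :=
    ShFace.congr (hΨ.2.2 s hak hkY hown a (K.nrm s) σ hF _ P.om0_pos hcond)
      (by rw [← hF]; exact hΨ3)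
  have hLam0 : 0 ≤ eS s / (δ s / 8) * Lam := by
    have h4 : a ∈ M.F k := by
      rw [hF]
      exact ⟨rfl, fun j => by rw [sub_self, abs_zero]; exact hσ.le⟩
    obtain ⟨i, hi⟩ : ∃ i : Fin 3, i ≠ K.nrm s := ⟨_, d0_ne (K.nrm s)⟩
    have h5 : a + σ • ev i ∈ M.F k := by
      rw [hF]
      refine ⟨by simp [ev, hi.symm], fun j => ?_⟩
      by_cases hj : j = i
      · subst hj; simp [ev, abs_of_pos hσ]
      · simp [ev, hj, hσ.le]
    have h6 := hLam _ h5 _ h4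
    have h7 : ‖a + σ • ev i - a‖ = σ := by
      have e : a + σ • ev i - a = σ • ev i := by abel
      have e1 : ‖(ev i : V)‖ = 1 := by
        unfold ev
        rw [Pi.norm_single, norm_one]
      rw [e, norm_smul, e1, Real.norm_eq_abs, abs_of_pos hσ, mul_one]
    rw [h7] at h6
    have h8 : 0 ≤ Lam := by
      by_contra hcon
      push Not at hcon
      have h9 := norm_nonneg (h3.toFun (a + σ • ev i) - h3.toFun a)
      have h10 := mul_neg_of_neg_of_pos hcon hσ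
      linarith
    exact mul_nonneg P.θ_nonneg h8
  have hB := P.bandEst_of HΦ hμs HS (k := k) (a := a) (σ := σ) (by rw [hF])
    (by
      have h4 : ContinuousOn (lastMap h3 Sm).toFun (sqr a (K.nrm s) σ) := by
        rw [← hF]
        exact (lastMap h3 Sm).cont.mono (Vale.Agent.P073.H238.mesh_sub M k)
      exact h4)
    (fun x hx => hpos x (by rw [hF]; exact hx))
    (fun x hx y hy => hLam x (by rw [hF]; exact hx) y (by rw [hF]; exact hy)) ht0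
  refine hfc a (K.nrm s) σ hσ (L.lev.lv s) (L.lev.loP s) (L.lev.hiP s) (L.lev.omP s) r μs
    ((1 + 2 * μs) * (eS s / (δ s / 8) * Lam) + t k) ε hr0 hr1 hμs hμs1 ?_ ?_ hε h3.toFun
    ((lastMap h3 Sm).trans Φ).toFun hsh hB ?_
  · have : 0 ≤ (1 + 2 * μs) * (eS s / (δ s / 8) * Lam) := mul_nonneg (by linarith) hLam0
    linarith
  · have h4 : (1 + 2 * μs) * (eS s / (δ s / 8) * Lam) ≤ 2 * ν := by
      refine mul_le_mul ?_ hθ1 hLam0 (by norm_num)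
      linarith
    have h5 : 0 ≤ ν := hLam0.trans hθ1
    linarith
  · intro i hi x hx hx' hxj
    obtain ⟨-, h4, h5, -⟩ := hside i hi x hx hx' hxj
    exact ⟨h4, h5⟩

/-- **the field `face` of `SharpOut`**: thresholds `e₁` of the staircases, then thresholds `t₀` of
the collapse -/
theorem face_of (D : KIn η₀ w ρ M h Pr) (C : Cells ρ w K)
    (HT : T3Out (D.G C) M (edges M) h h1 ω O LaT Lf Lam1 sl)
    (L : PLv (D.G C) (edges M) h1 Pr sl' η A Cs εE μ' δ)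
    (RP : RPOut (D.G C) M (edges M) Pr L.lev h1 κ₀ κ₁ h2
      (GEP (edges M) h2 (AkP (D.G C) M h1 univ) L.lev.kP L.lev.lv L.lev.loP L.lev.hiP
        L.lev.omP La mu)
      (GFY (edges M) h2 (AkP (D.G C) M h1 univ) L.lev.lv L.lev.loP L.lev.hiP L.lev.omP La We O' r0
        Rr Y Ks es βs ρs) h3)
    {p μ r r₀ μ₀ μs c η₁ : ℝ} (hfc : FaceC p μ r₀ Ks es βs μ₀)
    (hη : η₀ ≤ η₁) (hρ0 : 0 < ρs) (hρ1 : ρs ≤ 1 / 2) (hμ₀ : 0 < μ₀) (hr0 : 0 ≤ r) (hr1 : r ≤ r₀)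
    (hr2 : r ≤ ρs / 16) (hc0 : 0 ≤ c) (hc1 : c ≤ ρs / 16) (hηc : η ≤ c / 16)
    (hμ' : ∀ s β, μ' s ≤ c / 4 * wl (D.G C) s β)
    (hεE : ∀ e, 4 * εE e ≤ c * ‖(edges M).b e - (edges M).a e‖)
    (hδ : ∀ s k a l σ, 0 < σ → M.F k = sqr a l σ →
      (h1.toFun '' M.F k ∩ PK (D.G C) s).Nonempty → δ s ≤ ρs / 16 * σ)
    (hμs : 0 ≤ μs) (hμs1 : μs ≤ μ₀) (hμs2 : μs ≤ ρs / 50) {εk : M.κ → ℝ}
    (hε : ∀ k, 0 < εk k) :
    ∃ e₁ : K.S → ℝ, (∀ s, 0 < e₁ s) ∧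
    ∀ (eS : K.S → ℝ) (he0 : ∀ s, 0 < eS s) (he8 : ∀ s, eS s ≤ δ s / 8), (∀ s, eS s ≤ e₁ s) →
    ∀ Sm : Bool → ConHomeo Λ Λ, (∀ β, (L.bfam eS he0 he8 β).IsS (Sm β)) →
    ∃ t₀ : M.κ → ℝ, (∀ k, 0 < t₀ k) ∧ ∀ (R : Fac K) (N t : M.κ → ℝ) (Φ : ConHomeo Λ Λ),
      (∀ k, 0 < t k) → (∀ k, t k ≤ t₀ k) →
      Small (D.W C) R (lastMap h3 Sm).toFun M.F N t → IsSoft1 (D.B C) μs R Φ →
      ∀ k ∈ Y, ∀ (a : V) (l : Fin 3) (σ : ℝ), 0 < σ → M.F k = sqr a l σ →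
      ∀ m z, Deep η₁ (δN η₀) w ρ univ (Finset.univ.erase l) m z (h.toFun '' M.F k) →
      (∀ i, i ≠ l → ∀ x : V, x ∈ sqr a l σ → x + (2 * σ) • ev i ∈ sqr a l σ →
        (∀ j, j ≠ i → j ≠ l → |x j - a j| = σ) →
        IsEdge M (x, x + (2 * σ) • ev i) ∧
        (1 - r) * (2 * σ) ≤ ((lastMap h3 Sm).trans Φ).toFun (x + (2 * σ) • ev i) i -
          ((lastMap h3 Sm).trans Φ).toFun x i ∧
        Vale.Agent.P073.H239.tv ((lastMap h3 Sm).trans Φ).toFun (x, x + (2 * σ) • ev i)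
          Finset.univ ≤ ENNReal.ofReal ((1 + r) * (2 * σ)) ∧
        Vale.Agent.P073.H239.tv h.toFun (x, x + (2 * σ) • ev i) (Finset.univ.erase l) ≤
          ENNReal.ofReal ((1 + r) * (2 * σ))) →
      faceI p ((lastMap h3 Sm).trans Φ).toFun a l σ ≤ ENNReal.ofReal ((μ + εk k) * σ ^ 3) := by
  obtain ⟨Lam, hLam0, hLam⟩ := exists_lam (M := M) D.bΩ.1 h3
  set ν := min (ρs / 16) (μ₀ / 4) with hν
  have hν0 : 0 < ν := lt_min (by positivity) (by positivity)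
  have hν1 : ν ≤ ρs / 16 := min_le_left _ _
  have hν2 : ν ≤ μ₀ / 4 := min_le_right _ _
  obtain ⟨e₁, he₁, -, -, key⟩ := exists_thr (D.G C) h1 (Lam3 := Lam) (ε₁ := fun _ => ν)
    hLam0 (fun _ => hν0) (e₁ := fun _ => 1) L.δ0 (fun _ => one_pos)
  refine ⟨e₁, he₁, fun eS he0 he8 hsm Sm hS => ⟨fun _ => ν, fun _ => hν0, ?_⟩⟩
  intro R N t Φ htp ht HS HΦ k hkY a l σ hσ hF m z hD hside
  exact face_at D C HT L RP hS hfc hη hρ0 hρ1 hr0 hr1 hr2 hc0 hc1 hηc hμ' hεE hμs hμs1 hμs2 hν1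
    (by linarith) (hε k).le HS HΦ hkY (htp k).le (ht k) hσ hF
    (fun s hs => hδ s k a l σ hσ hF hs) (hLam k)
    (fun s hs => key k s hs (eS s) (hsm s)) hD hside

end P073.H761.SE
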