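import Vale.Agent.P073.H761.ConApp
import Vale.Agent.P073.H304.FamOf
import Vale.Agent.P073.H234.GX.Def
import Vale.Agent.P073.H83.MorreyS

/-!
# P073, block H761, [GenX]: the generic origin for the gluing step

`GenX p Ω f F v nn`: on every rational box `R` there are conical approximations of `f` which
converge on the net of `v`, whose single hybrids with `f` are absolutely continuous on the
`v`-rational segments, and which have short segments on the faces of the generations `nn l`.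
`gxOk`: almost every origin is good, along a subsequence of the generations.
-/

open Set Metric Topology Filter MeasureTheory
open scoped ENNReal NNReal ContDiff

namespace Vale.Agent.P073.H761

open Vale.Agent.P073.AB (Idx pt edge eInt squ cl RatGood)
open Vale.Agent.P073.St (V Mat)
open _root_.P073 (ConHomeo)
open _root_.P073.Net (dyc dyo len)
open Vale.Agent.P073.H194
open Vale.Agent.P073.H73 (onSeg)
open Vale.Agent.P073.H304 (hyb1 fmat SegIn Fam)
open Vale.Agent.P073.H989 (ratBoxes Bz)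

/-- **[GenX]** the generic property -/
def GenX (p : ℝ) : H234.GX.GXT := fun Ω f F v nn =>
  ∃ q : ℝ, 2 < q ∧ q < 3 ∧ q ≤ p ∧ ∀ R ∈ ratBoxes Ω, ∃ φ : ℕ → ConHomeo R (f '' R),
    (∀ j : ℕ, Bz R f (φ j).toFun (1 / ((j:ℝ) + 1))) ∧
    NetConv q v R (fun j => fderiv ℝ (φ j).toFun) (fun x => cl (F x)) ∧
    (∀ j, RatGood v Ω (hyb1 R (φ j).toFun f) (hyb1 R (fmat (φ j).toFun) F)) ∧
    ∀ B > 0, ∀ᶠ l in atTop, ∀ᶠ j in atTop, SegIn v R (φ j).toFun (nn l) B

/-- the use of `GenX`: 304's family -/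
theorem GenX.fam {p : ℝ} {Ω : Set V} {f : V → V} {F : V → Mat} {v : V} {nn : ℕ → ℕ}
    (h : GenX p Ω f F v nn) {R : Set V} (hR : R ∈ ratBoxes Ω) :
    ∃ (φ : ℕ → V → V) (G : ℕ → V → Mat), Fam Ω v nn R f F φ G := by
  obtain ⟨q, -, -, -, h⟩ := h
  obtain ⟨φ, h1, h2, h3, h4⟩ := h R hR
  exact ⟨_, _, H304.fam_of φ h1 h2 h3 h4⟩

theorem GenX.sub {p : ℝ} {Ω : Set V} {f : V → V} {F : V → Mat} {v : V} {nn θ : ℕ → ℕ}
    (h : GenX p Ω f F v nn) (hθ : StrictMono θ) : GenX p Ω f F v fun l => nn (θ l) := by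
  obtain ⟨q, h1, h2, h3, h⟩ := h
  refine ⟨q, h1, h2, h3, fun R hR => ?_⟩
  obtain ⟨φ, a1, a2, a3, a4⟩ := h R hR
  exact ⟨φ, a1, a2, a3, fun B hB => hθ.tendsto_atTop.eventually (a4 B hB)⟩

/-- **(989, 83)** the single hybrids -/
def SpecRatHyb (q : ℝ) : Prop :=
  ∀ (Ω Λ : Set V) (f : V → V) (F : V → Mat), St.IsBoundedDomain Ω → St.IsBoundedDomain Λ →
    St.IsHomeo Ω Λ f → St.IsSobolev q Ω f F → ∀ R ∈ ratBoxes Ω, ∀ φ : ConHomeo R (f '' R),
    Bz R f φ.toFun 1 → ∫⁻ x in R, ‖fderiv ℝ φ.toFun x‖ₑ ^ q ≠ ⊤ →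
    ∀ᵐ v : V, RatGood v Ω (hyb1 R φ.toFun f) (hyb1 R (fmat φ.toFun) F)

theorem morreySeg {q : ℝ} (hq : 2 < q) : MorreySeg q :=
  ⟨H83.CS q, H83.CS_pos q, fun _ _ _ _ hφ _ hx => H83.morrey_seg hq hφ hx⟩

/-! ### The largest face integral along a subsequence -/

theorem aestronglyMeasurable_cl {p : ℝ} (hp : 1 ≤ p) {Ω : Set V} (hv : volume Ω ≠ ⊤) {f : V → V}
    {F : V → Mat} (hF : St.IsSobolev p Ω f F) :
    AEStronglyMeasurable (fun x => cl (F x)) (volume.restrict Ω) := by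
  have : IsFiniteMeasure (volume.restrict Ω) := ⟨by
    rw [Measure.restrict_apply_univ]; exact lt_top_iff_ne_top.2 hv⟩
  have h1 : ∀ i j, AEStronglyMeasurable (fun x => F x i j) (volume.restrict Ω) :=
    fun i j => (hF.2.1 i j).aestronglyMeasurable
  have h2 : AEStronglyMeasurable F (volume.restrict Ω) := by
    refine AEMeasurable.aestronglyMeasurable ?_
    refine aemeasurable_pi_lambda _ fun i => aemeasurable_pi_lambda _ fun j => ?_
    exact (h1 i j).aemeasurable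
  have h3 : Continuous cl := by
    let L : Mat →ₗ[ℝ] (V →L[ℝ] V) :=
      { toFun := cl
        map_add' := fun A B => by
          ext w i
          simp [cl, Matrix.toLin'_apply, Matrix.mulVec, dotProduct, add_mul, Finset.sum_add_distrib]
        map_smul' := fun c A => by
          ext w i
          simp [cl, Matrix.toLin'_apply, Matrix.mulVec, dotProduct, mul_assoc, Finset.mul_sum] }
    exact L.continuous_of_finiteDimensional
  exact h3.comp_aestronglyMeasurable h2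

theorem lint_HF_ne_top {p : ℝ} {Ω : Set V} {f : V → V} {F : V → Mat} (hp : 1 ≤ p)
    (hΩ : St.IsBoundedDomain Ω) (hF : St.IsSobolev p Ω f F) : ∫⁻ y, H696.HF p Ω F y ≠ ⊤ := by
  have e : ∫⁻ y, H696.HF p Ω F y = ∫⁻ y in Ω, ‖cl (F y)‖ₑ ^ p := by
    rw [← lintegral_indicator hΩ.1.measurableSet]
    refine lintegral_congr fun y => ?_
    by_cases hy : y ∈ Ω
    · simp only [H696.HF, indicator_of_mem hy]
    · have h0 : ‖Ω.indicator (fun y => cl (F y)) y‖ₑ = 0 := by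
        rw [indicator_of_notMem hy]
        exact enorm_zero (E := V →L[ℝ] V)
      rw [H696.HF, h0, indicator_of_notMem hy]
      exact ENNReal.zero_rpow_of_pos (by linarith)
  rw [e]
  exact PK.IsSob.lintegral_ne_top hp hF

/-- along a subsequence of any sequence of generations the largest face integral tends to zero for
almost every origin in the unit cube -/
theorem exists_sub_sup {H : V → ℝ≥0∞} (hH : AEMeasurable H) (hfin : ∫⁻ x, H x ≠ ⊤) {nn : ℕ → ℕ}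
    (hnn : StrictMono nn) : ∃ θ : ℕ → ℕ, StrictMono θ ∧
      ∀ᵐ v ∂(volume.restrict (Icc (0:V) 1)), Tendsto (fun l => supS (nn (θ l)) H v) atTop (𝓝 0) := by
  set H' := hH.mk H with hH'
  have hm : Measurable H' := hH.measurable_mk
  have he : H =ᵐ[volume] H' := hH.ae_eq_mk
  have hfin' : ∫⁻ x, H' x ≠ ⊤ := by rwa [← lintegral_congr_ae he]
  have h1 : Tendsto (fun l => ∫⁻ v in Icc (0:V) 1, supS (nn l) H' v) atTop (𝓝 0) :=
    (tendsto_supS hm hfin').comp hnn.tendsto_atTop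
  obtain ⟨θ, hθ, h2⟩ := exists_subseq_tsum h1
  refine ⟨θ, hθ, ?_⟩
  have h3 : ∫⁻ v in Icc (0:V) 1, ∑' l, supS (nn (θ l)) H' v ≠ ⊤ := by
    rw [lintegral_tsum fun l => (measurable_supS _ hm).aemeasurable]
    exact ne_top_of_le_ne_top tsum_half_ne_top (ENNReal.tsum_le_tsum h2)
  have h4 : ∀ᵐ v ∂(volume.restrict (Icc (0:V) 1)), ∑' l, supS (nn (θ l)) H' v < ⊤ :=
    ae_lt_top (Measurable.tsum fun l => measurable_supS _ hm) h3
  filter_upwards [h4, ae_restrict_of_ae (ae_supS_congr he)] with v hv hv2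
  simp_rw [hv2]
  exact ENNReal.tendsto_atTop_zero_of_tsum_ne_top hv.ne

/-! ### The theorem -/

/-- finite energies, after dropping finitely many maps -/
theorem exists_shift {q : ℝ} (hq : 1 ≤ q) {R : Set V} {f : V → V} {F : V → Mat}
    (hF : ∫⁻ x in R, ‖cl (F x)‖ₑ ^ q ≠ ⊤)
    (hFm : AEStronglyMeasurable (fun x => cl (F x)) (volume.restrict R)) (h : ConApp q R f F) :
    ∃ φ : ℕ → ConHomeo R (f '' R), (∀ j : ℕ, Bz R f (φ j).toFun (1 / (j + 1))) ∧
      (∀ j, ∫⁻ x in R, ‖fderiv ℝ (φ j).toFun x‖ₑ ^ q ≠ ⊤) ∧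
      Tendsto (fun j => ∫⁻ x in R, ‖fderiv ℝ (φ j).toFun x - cl (F x)‖ₑ ^ q) atTop (𝓝 0) := by
  obtain ⟨φ, h1, h2⟩ := h
  obtain ⟨j₀, hj₀⟩ := eventually_atTop.1 (h2.eventually_lt_const (u := 1) (by norm_num))
  refine ⟨fun j => φ (j + j₀), fun j => (h1 _).mono ?_, fun j => ?_,
    h2.comp (tendsto_add_atTop_nat j₀)⟩
  · push_cast
    gcongr
    linarith [(Nat.cast_nonneg j₀ : (0:ℝ) ≤ j₀)]
  · have h3 : ∫⁻ x in R, ‖fderiv ℝ (φ (j + j₀)).toFun x‖ₑ ^ q ≤
        2 ^ (q - 1) * ((∫⁻ x in R, ‖cl (F x)‖ₑ ^ q) +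
          ∫⁻ x in R, ‖fderiv ℝ (φ (j + j₀)).toFun x - cl (F x)‖ₑ ^ q) := by
      calc ∫⁻ x in R, ‖fderiv ℝ (φ (j + j₀)).toFun x‖ₑ ^ q
          ≤ ∫⁻ x in R, 2 ^ (q - 1) * (‖cl (F x)‖ₑ ^ q +
              ‖fderiv ℝ (φ (j + j₀)).toFun x - cl (F x)‖ₑ ^ q) := by
            refine lintegral_mono fun x => ?_
            refine le_trans ?_ (ENNReal.rpow_add_le_mul_rpow_add_rpow _ _ hq)
            gcongr
            have := enorm_sub_le' (fderiv ℝ (φ (j + j₀)).toFun x) (cl (F x)) 0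
            rwa [sub_zero, sub_zero] at this
        _ = _ := by
            rw [lintegral_const_mul' _ _ (by finiteness),
              lintegral_add_left' (hFm.enorm.pow_const q)]
    refine ne_top_of_le_ne_top ?_ h3
    refine ENNReal.mul_ne_top (by finiteness) (ENNReal.add_ne_top.2 ⟨hF, ?_⟩)
    exact ((hj₀ (j + j₀) (by omega)).trans (by norm_num)).ne

/-- **[GenX] is generic** -/
theorem gxOk {p q : ℝ} (hp : 3 ≤ p) (hq : 2 < q) (hq3 : q < 3) (hC : H989.CloseK q)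
    (hRH : SpecRatHyb q) : H234.GX.GXOk p (GenX p) := by
  have hqp : q ≤ p := by linarith
  have hp1 : 1 ≤ p := by linarith
  have hq1 : 1 ≤ q := by linarith
  refine ⟨fun Ω Λ f F hΩ hΛ hf hF nn hnn => ?_, fun Ω f F v nn θ h hθ => h.sub hθ⟩
  have hΩb : Bornology.IsBounded Ω := PK.isBounded_of_domain hΩ
  have hΩv : volume Ω ≠ ⊤ := hΩb.measure_lt_top.ne
  have hFq : St.IsSobolev q Ω f F := H989.sob_exp hqp hΩv hF
  have hFm : AEStronglyMeasurable (fun x => cl (F x)) (volume.restrict Ω) :=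
    aestronglyMeasurable_cl hp1 hΩv hF
  have hHm : AEMeasurable (H696.HF p Ω F) := by
    have h1 : AEStronglyMeasurable (Ω.indicator fun y => cl (F y)) volume :=
      (aestronglyMeasurable_indicator_iff hΩ.1.measurableSet).2 hFm
    exact h1.enorm.pow_const p
  obtain ⟨θ, hθ, hsup⟩ := exists_sub_sup hHm (lint_HF_ne_top hp1 hΩ hF) hnn
  refine ⟨θ, hθ, ?_⟩
  have hcount : Countable (ratBoxes Ω) := (H989.countable_ratBoxes Ω).to_subtype
  have hdom : ∀ R ∈ ratBoxes Ω, St.IsBoundedDomain R := fun R hR => H989.domain_of_ratBoxes hR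
  have hsubΩ : ∀ R ∈ ratBoxes Ω, R ⊆ Ω := fun R hR =>
    subset_closure.trans (H989.closure_sub_of_ratBoxes hR)
  have hFR : ∀ R ∈ ratBoxes Ω, ∫⁻ x in R, ‖cl (F x)‖ₑ ^ q ≠ ⊤ := fun R hR =>
    ne_top_of_le_ne_top (PK.IsSob.lintegral_ne_top hq1 hFq)
      (lintegral_mono_set (hsubΩ R hR))
  have hFmR : ∀ R ∈ ratBoxes Ω, AEStronglyMeasurable (fun x => cl (F x)) (volume.restrict R) :=
    fun R hR => hFm.mono_measure (Measure.restrict_mono (hsubΩ R hR) le_rfl)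
  have hA : ∀ R : ratBoxes Ω, ConApp q R.1 f F := fun R => by
    have hd := H989.domain_image hΛ hf (hdom R.1 R.2) (hsubΩ R.1 R.2)
    exact conApp_of_difApp hq1 (hdom R.1 R.2).1 (PK.isBounded_of_domain (hdom R.1 R.2)) hd.1
      (PK.isBounded_of_domain hd) (H989.difApp_boxes hq1 hqp hC hΛ hf hF R.1 R.2)
  choose φ hφ hfin hc using fun R : ratBoxes Ω =>
    exists_shift hq1 (hFR R.1 R.2) (hFmR R.1 R.2) (hA R)
  obtain ⟨ζ, hζ, h1⟩ := exists_genFam (G := fun x => cl (F x)) (R := fun R : ratBoxes Ω => R.1)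
    (Gk := fun R j => fderiv ℝ (φ R j).toFun) hq1 (fun R => (hdom R.1 R.2).1.measurableSet)
    (fun R => hFmR R.1 R.2)
    (fun R k => (measurable_fderiv ℝ _).aestronglyMeasurable) hc
  have h2 := fun (R : ratBoxes Ω) (j : ℕ) =>
    ae_con_net (by linarith : 0 < q) (hdom R.1 R.2).1 (φ R (ζ R j))
  have h3 := fun (R : ratBoxes Ω) (j : ℕ) =>
    hRH Ω Λ f F hΩ hΛ hf hFq R.1 R.2 (φ R (ζ R j)) ((hφ R (ζ R j)).mono (by
      rw [div_le_one (by positivity)]
      linarith [(Nat.cast_nonneg (ζ R j) : (0:ℝ) ≤ ζ R j)])) (hfin R (ζ R j))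
  filter_upwards [hsup, ae_restrict_of_ae h1,
    ae_restrict_of_ae (ae_all_iff.2 fun R => ae_all_iff.2 fun j => h2 R j),
    ae_restrict_of_ae (ae_all_iff.2 fun R => ae_all_iff.2 fun j => h3 R j)] with v v0 v1 v2 v3
  refine ⟨q, hq, hq3, hqp, fun R hR => ?_⟩
  have hnet : ConNet q v (fun j => φ ⟨R, hR⟩ (ζ ⟨R, hR⟩ j)) F :=
    ⟨v1 ⟨R, hR⟩, fun j e => (v2 ⟨R, hR⟩ j).1 e, fun j s hs => (v2 ⟨R, hR⟩ j).2 s hs⟩
  refine ⟨fun j => φ ⟨R, hR⟩ (ζ ⟨R, hR⟩ j), fun j => (hφ ⟨R, hR⟩ _).mono ?_, hnet.conv,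
    fun j => v3 ⟨R, hR⟩ j, fun B hB => ?_⟩
  · have h5 : (j : ℝ) ≤ ζ ⟨R, hR⟩ j := by exact_mod_cast (hζ ⟨R, hR⟩).id_le j
    gcongr
  · exact hnet.seg (nn := fun l => nn (θ l)) (morreySeg hq) hq hqp hp (hdom R hR).1
      (PK.isBounded_of_domain (hdom R hR)) (hsubΩ R hR) v0 hB

end Vale.Agent.P073.H761
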