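import Vale.Agent.P073.H761.C2Tools

/-!
# P073: the conical output on the beam gives a diffeomorphism (form of `H253.BeamSpec`)
-/

namespace Vale.Agent.P073.H761

open MeasureTheory Set Filter Topology Metric Vale.Agent.P073.LOC Vale.Agent.P073.H235
open Vale.Agent.P073.H253
open Vale.Agent.P073.St (V Mat)
open Vale.Agent.P073.SQ (ev cube Cells)
open _root_.P073 (ConHomeo)
open scoped ContDiff ENNReal

theorem lintegral_sum_mono {p : ℝ} {g : V → V} {J : Finset (Fin 3)} {S T : Set V} (h : S ⊆ T) :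
    En p g J S ≤ En p g J T := sum_mono_set _ _ h

theorem lintegral_sum_mono' {p : ℝ} {g : V → V} {J : Finset (Fin 3)} {k : Fin 3} {c : ℝ}
    {S T : Set V} (h : S ⊆ T) : En2 p g J k c S ≤ En2 p g J k c T := sum_mono_set _ _ h

/-- **(C2T)**: the conical output gives a diffeomorphism (`1 ≤ p < 3`) -/
theorem beamT_of_con {p : ℝ} (hp : 1 ≤ p) (hp3 : p < 3) : ∃ D > 0,
    ∀ (C M θ₁ θ₂ ν₁ ν τ ε : ℝ) (L : V →L[ℝ] V) (Λ : Set V) (f : V → V), 0 < C → 1 ≤ M →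
    0 < θ₁ → 0 < θ₂ → 0 < ν₁ → ν₁ ≤ ν → ν ≤ 1 / 4 → τ < θ₁ → τ < θ₂ → 0 < ε →
    St.IsBoundedDomain Λ → ContinuousOn f (closure Q1) →
    ConBeamT p C M θ₁ θ₂ ν₁ ν τ ε L Λ f →
    ∃ (c₁ c₂ : ℝ) (g : V → V), |c₁ - θ₁| ≤ τ ∧ |c₂ - θ₂| ≤ τ ∧
      BeamT p (D * C) M θ₁ θ₂ ν₁ ν (2 * ν₁) (2 * ν) τ (D * ε) c₁ c₂ L Λ f g := by
  have hp0 : 0 ≤ p := by linarith
  obtain ⟨C₀, hC₀, hmain⟩ := smooth_squeeze hp hp3
  have h2p : (0:ℝ) < 2 ^ p := by positivity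
  refine ⟨C₀ + 1 + 3 * 2 ^ p, by positivity, ?_⟩
  intro C M θ₁ θ₂ ν₁ ν τ ε L Λ f hC hM hθ₁ hθ₂ hν₁ hν₁ν hν4 hτ1 hτ2 hε hΛ hf hcon
  obtain ⟨c₁, c₂, W, h, hc1, hc2, hD, hbd, hE1, hE2, hP1, hP2, hline⟩ := hcon
  have hν : 0 < ν := by linarith
  have hab := abs_le.1 hc1
  have hab2 := abs_le.1 hc2
  have hc0 : 0 < c₁ := by linarith [hab.1]
  have hc0' : c₁ < 2 * θ₁ := by linarith [hab.2]
  have hd0 : 0 < c₂ := by linarith [hab2.1]
  have hd0' : c₂ < 2 * θ₂ := by linarith [hab2.2]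
  have hM0 : 0 < M := by linarith
  have hQΩ : ∀ x ∈ core1 ν₁ θ₂, Function.update x 1 c₁ ∈ Bx (bm θ₁ θ₂) := fun x hx =>
    core1_mem hν₁ hθ₂ hc0 hc0' hx
  have hbm : ∀ i, 0 < bm θ₁ θ₂ i := bm_pos hθ₁ hθ₂
  have hfl : ∀ i, 0 < fl θ₂ i := fl_pos' hθ₂
  set ℓ : ℝ := 1 - ν / 4 with hℓ
  have hℓ0 : 1 / 2 ≤ ℓ := by rw [hℓ]; linarith
  have hℓ1 : ℓ ≤ 1 := by rw [hℓ]; linarith
  have hℓp : 0 < ℓ := by linarith
  set η : ℝ := ε / (2 ^ p * (M ^ p * M)) with hη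
  have hη0 : 0 < η := by positivity
  have hlptΩ : ∀ u : ℝ, 0 < u → u < 1 → lpt c₁ c₂ u ∈ Bx (bm θ₁ θ₂) := by
    intro u h0 h1 i
    fin_cases i
    · exact ⟨h0, h1⟩
    · exact ⟨hc0, hc0'⟩
    · exact ⟨hd0, hd0'⟩
  have hseg : segment ℝ (lpt c₁ c₂ (ν / 8)) (lpt c₁ c₂ (ν / 8) + ℓ • ev 0) ⊆
      Bx (bm θ₁ θ₂) := by
    rw [segment_eq_image']
    rintro _ ⟨t, ht, rfl⟩
    simp only [add_sub_cancel_left]
    rw [lpt_add]
    refine hlptΩ _ ?_ ?_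
    · have := mul_nonneg hℓp.le ht.1
      linarith
    · have : ℓ * t ≤ ℓ * 1 := mul_le_mul_of_nonneg_left ht.2 hℓp.le
      rw [hℓ] at this ⊢
      linarith
  have hev0 : ev 0 ≠ 0 := by
    intro h0
    have := congrFun h0 0
    unfold ev at this
    rw [Pi.single_eq_same] at this
    exact one_ne_zero this
  have hev1 : ev 0 1 = 0 := by
    unfold ev
    rw [Pi.single_eq_of_ne (by decide)]
  obtain ⟨g, hg, hgbd, hgE, hgs, hgp⟩ := hmain (bm θ₁ θ₂) Λ W h 1 c₁ (cmp (bm θ₁ θ₂) f)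
    (C * ν₁ * θ₁ * θ₂) Unit Unit inferInstance inferInstance
    (fun _ => lpt c₁ c₂ (ν / 8)) (fun _ => ℓ • ev 0) (fun _ => η)
    (fun _ => core1 ν₁ θ₂) (fun _ => C * ν * θ₂) hbm hΛ hD
    (cmp_ucont hbm hf) hbd (by positivity)
    (fun _ => smul_ne_zero hℓp.ne' hev0) (fun _ => ⟨rfl, by
      show ℓ * ev 0 1 = 0
      rw [hev1, mul_zero]⟩)
    (fun _ => hseg) (fun K _ _ => Set.toFinite _)
    (fun _ => hη0) (fun _ => isCompact_Icc) (fun _ => hQΩ) (fun K _ _ => Set.toFinite _)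
    (fun _ => by positivity)
  set D : ℝ := C₀ + 1 + 3 * 2 ^ p with hDdef
  have hbound : ∀ b : ℝ, C * ν₁ * θ₁ * θ₂ ≤ b → C₀ * b + C * ν₁ * θ₁ * θ₂ ≤ D * b := by
    intro b hb
    have hb0 : 0 ≤ b := le_trans (by positivity) hb
    have : 0 ≤ 3 * 2 ^ p * b := by positivity
    rw [hDdef]
    nlinarith
  have hplane : ∀ (S : Set V) (b : ℝ), MeasurableSet S → S ⊆ core1 ν₁ θ₂ → C * ν * θ₂ ≤ b →
      ∑ j ∈ Finset.univ.erase (1 : Fin 3), ∫⁻ x in S,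
        ENNReal.ofReal (‖lineDeriv ℝ h.toFun (Function.update x 1 c₁) (ev j)‖ ^ p) ≤
          ENNReal.ofReal b →
      En2 p g (Finset.univ.erase 1) 1 c₁ S ≤ ENNReal.ofReal (D * b) := by
    intro S b hS hSc hb hSb
    have hb0 : 0 ≤ b := le_trans (by positivity) hb
    have e0 := tri_map hp0 (isOpen_box _) h.cont g (measurable_update 1 c₁)
      (Finset.univ.erase 1) hS (fun x hx => hQΩ x (hSc hx)) fun _ => (0 : V)
    simp only [sub_zero] at e0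
    refine e0.trans ?_
    have e1 : ∑ j ∈ Finset.univ.erase (1 : Fin 3), ∫⁻ x in S,
        ENNReal.ofReal (‖fderiv ℝ g (Function.update x 1 c₁) (ev j) -
          lineDeriv ℝ h.toFun (Function.update x 1 c₁) (ev j)‖ ^ p) ≤ ENNReal.ofReal (2 * b) := by
      calc _ ≤ ∑ j ∈ Finset.univ.erase (1 : Fin 3), ENNReal.ofReal b :=
            Finset.sum_le_sum fun j hj => ((lintegral_mono_set hSc).trans
              (hgp () j (Finset.ne_of_mem_erase hj))).trans (ENNReal.ofReal_le_ofReal hb)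
        _ = _ := by
            rw [Finset.sum_const]
            have : (Finset.univ.erase (1 : Fin 3)).card = 2 := by decide
            rw [this, nsmul_eq_mul, ENNReal.ofReal_mul (by norm_num)]
            norm_num
    calc _ ≤ ENNReal.ofReal (2 ^ p) * (ENNReal.ofReal (2 * b) + ENNReal.ofReal b) :=
          mul_le_mul' le_rfl (add_le_add e1 hSb)
      _ = ENNReal.ofReal (2 ^ p * (2 * b + b)) := by
          rw [← ENNReal.ofReal_add (by positivity) hb0, ← ENNReal.ofReal_mul h2p.le]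
      _ ≤ _ := by
          apply ENNReal.ofReal_le_ofReal
          have : 0 ≤ (C₀ + 1) * b := by positivity
          rw [hDdef]
          nlinarith
  refine ⟨c₁, c₂, g, hc1, hc2, hg, hgbd, ?_, ?_, ?_, ?_, ?_⟩
  · have h1 := hgE univ
    rw [inter_univ] at h1
    calc En p g Finset.univ (Bx (bm θ₁ θ₂)) ≤
          ENNReal.ofReal C₀ * ENNReal.ofReal (C * θ₁ * θ₂) +
          ENNReal.ofReal (C * ν₁ * θ₁ * θ₂) := h1.trans (by gcongr)
      _ = ENNReal.ofReal (C₀ * (C * θ₁ * θ₂) + C * ν₁ * θ₁ * θ₂) := by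
          rw [← ENNReal.ofReal_mul hC₀.le, ← ENNReal.ofReal_add (by positivity) (by positivity)]
      _ ≤ ENNReal.ofReal (D * (C * θ₁ * θ₂)) := by
          apply ENNReal.ofReal_le_ofReal
          refine hbound _ ?_
          have : C * θ₁ * θ₂ * ν₁ ≤ C * θ₁ * θ₂ * 1 := by gcongr; linarith
          linarith
      _ = _ := by congr 1; ring
  · refine (lintegral_sum_mono (inter_subset_inter_right _ (Fr_mono hbm
      (show 2 * ν₁ ≤ 3 * ν₁ by linarith) _))).trans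
      ?_
    calc En p g Finset.univ (Bx (bm θ₁ θ₂) ∩ Fr (bm θ₁ θ₂) (3 * ν₁) {0, 2})
        ≤ ENNReal.ofReal C₀ * ENNReal.ofReal (C * ν₁ * θ₁ * θ₂) +
          ENNReal.ofReal (C * ν₁ * θ₁ * θ₂) := (hgE _).trans (by gcongr)
      _ = ENNReal.ofReal (C₀ * (C * ν₁ * θ₁ * θ₂) + C * ν₁ * θ₁ * θ₂) := by
          rw [← ENNReal.ofReal_mul hC₀.le, ← ENNReal.ofReal_add (by positivity) (by positivity)]
      _ ≤ ENNReal.ofReal (D * (C * ν₁ * θ₁ * θ₂)) :=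
          ENNReal.ofReal_le_ofReal (hbound _ le_rfl)
      _ = _ := by congr 1; ring
  · have := hplane (Bx (fl θ₂) ∩ Co (fl θ₂) (ν₁ / 2) {0, 2}) (C * θ₂)
      ((measurableSet_Bx _).inter (measurableSet_Co' _ _ _)) core1_sub (by
        have : C * θ₂ * ν ≤ C * θ₂ * 1 := by gcongr; linarith
        linarith) hP1
    rwa [← mul_assoc] at this
  · have h1 : Bx (fl θ₂) ∩ Co (fl θ₂) (ν₁ / 2) {0, 2} ∩ Fr (fl θ₂) (2 * ν) {0} ⊆
        Bx (fl θ₂) ∩ Co (fl θ₂) (ν₁ / 2) {0, 2} ∩ Fr (fl θ₂) (3 * ν) {0} :=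
      inter_subset_inter_right _ (Fr_mono hfl (show 2 * ν ≤ 3 * ν by linarith) _)
    refine (lintegral_sum_mono' h1).trans ?_
    have := hplane (Bx (fl θ₂) ∩ Co (fl θ₂) (ν₁ / 2) {0, 2} ∩ Fr (fl θ₂) (3 * ν) {0})
      (C * ν * θ₂) (((measurableSet_Bx _).inter (measurableSet_Co' _ _ _)).inter
        (measurableSet_Fr _ _ _)) (inter_subset_left.trans core1_sub) le_rfl hP2
    refine this.trans (le_of_eq ?_)
    congr 1; ring
  · have h1 := line_le (h := h.toFun) hp0 hℓ0 hℓ1 (hgs ())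
    have h2 : ν / 8 + ℓ = 1 - ν / 8 := by rw [hℓ]; ring
    rw [h2] at h1
    have hmem : ∀ u ∈ Icc (ν / 8) (1 - ν / 8), lpt c₁ c₂ u ∈ Bx (bm θ₁ θ₂) := fun u hu =>
      hlptΩ u (by linarith [hu.1]) (by linarith [hu.2])
    have hη1 : 0 ≤ 2 ^ p * η := by positivity
    have h3 := LineOK.perturb hp0 hM hε.le hη1
      ⟨fun u => (Bx (bm θ₁ θ₂)).indicator (fun x => lineDeriv ℝ h.toFun x (ev 0)) (lpt c₁ c₂ u),
        (H880.measurable_lineDeriv_on (isOpen_box _) h.cont (ev 0)).comp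
          (continuous_lpt c₁ c₂).measurable,
        fun u hu => indicator_of_mem (hmem u hu) _⟩
      hline h1
    have h4 : 2 ^ p * (ε + M ^ p * M * (2 ^ p * η)) ≤ D * ε := by
      have e1 : M ^ p * M * (2 ^ p * η) = ε := by
        rw [hη]; field_simp
      rw [e1, hDdef]
      have : 0 ≤ (C₀ + 1) * ε := by positivity
      nlinarith
    obtain ⟨ρ, r1, r2, r3, r4, r5, r6⟩ := h3
    exact ⟨ρ, r1, r2, r3, r4, r5, r6.trans (ENNReal.ofReal_le_ofReal h4)⟩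

end Vale.Agent.P073.H761
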