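import Vale.Agent.P073.H989.Tile5b

/-!
# P073, block A15, [T5]: the minimal squares are covered by the faces of the cut mesh

`TD.cov`: a point of a minimal square which is not in an open protected cell lies in a face of the
tiling `T.tiling`.
-/

namespace Vale.Agent.P073.H761

open MeasureTheory Set Filter Topology Metric Vale.Agent.P073.St
open Vale.Agent.P073.AB (Idx Part MinSq FaceOf squ)
open Vale.Agent.P073.H989 (TD)
open P073.Net (dyc dyo)

/-- a face of a cube is contained in the cube and misses its interior -/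
theorem squ_face {v : V} {s : Idx × Fin 3} {q : Idx} (h : FaceOf s q) {x : V}
    (hx : x ∈ squ v s) : x ∈ dyc v q.1 q.2 ∧ x ∉ dyo v q.1 q.2 := by
  obtain ⟨h1, h2, h3⟩ := h
  obtain ⟨hx1, hx2⟩ := hx
  have hp : (0:ℝ) < 2 ^ q.1 := by positivity
  rw [h1] at hx1
  constructor
  · intro k
    by_cases hk : k = s.2
    · subst hk
      rw [hx1]
      rcases h2 with h2 | h2 <;> rw [h2]
      · constructor
        · exact le_refl _
        · gcongr
          linarith
      · push_cast
        constructor
        · gcongr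
          linarith
        · exact le_refl _
    · have h4 := hx2 k hk
      rw [h1, h3 k hk] at h4
      exact h4
  · intro hx3
    have h4 := hx3 s.2
    rw [hx1] at h4
    rcases h2 with h2 | h2 <;> rw [h2] at h4
    · exact lt_irrefl _ h4.1
    · push_cast at h4
      exact lt_irrefl _ h4.2

variable {Ω : Set V} (T : TD Ω)

/-- a point of a partition cube outside of its interior and outside of the open protected cells is
not in the interior of a cell -/
theorem not_mem_interior {q : Idx} (hq : q ∈ T.I) {x : V} (hx : x ∈ dyc T.v q.1 q.2)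
    (hx' : x ∉ dyo T.v q.1 q.2) (hint : ∀ D, x ∉ interior (T.R D)) (i : T.ι) :
    x ∉ interior (T.Q i) := by
  have key : ∀ q' ∈ T.I, x ∉ dyo T.v q'.1 q'.2 := by
    intro q' hq' h
    by_cases he : q' = q
    · exact hx' (he ▸ h)
    · exact Set.disjoint_left.1 (T.part.disj q' hq' q hq he) h hx
  rcases i with q' | a | D
  · intro h
    refine key q'.1 q'.2.1 ?_
    rw [← H194.interior_dyc]
    exact h
  · intro h
    have h1 : x ∈ interior (T.piece a.1.1 a.1.2.1 a.1.2.2) := h
    rw [T.interior_piece] at h1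
    exact key _ a.2.mem h1.1
  · exact hint D

/-- **cov** -/
theorem TD.cov (hΩ : IsOpen Ω) {s : Idx × Fin 3} (hs : MinSq T.v T.I s) {x : V}
    (hx : x ∈ squ T.v s) (hint : ∀ D, x ∉ interior (T.R D)) :
    ∃ k : T.tiling.κ, x ∈ T.tiling.F k := by
  obtain ⟨q, hq, hf⟩ := hs.1
  obtain ⟨h1, h2⟩ := squ_face hf hx
  obtain ⟨i, hi⟩ := T.cover x (T.part.sub q hq h1)
  have h3 : x ∈ frontier (T.Q i) := by
    rw [frontier, (T.poly i).cpt.isClosed.closure_eq]
    exact ⟨hi, not_mem_interior T hq h1 h2 hint i⟩
  obtain ⟨j, hji, hxj, h4⟩ := T.tiling.exists_face hΩ (i := i) h3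
  obtain ⟨k, hk, -⟩ := T.tiling.exists_κ (i := i) (j := j) (Ne.symm hji) h4
  exact ⟨k, by rw [hk]; exact ⟨hi, hxj⟩⟩

end Vale.Agent.P073.H761
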