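import Vale.Agent.P073.H235.UncSpec

/-!
# P073: tools for the assembly of the un-collapse
-/

namespace Vale.Agent.P073.H761

open MeasureTheory Set Filter Topology Metric Vale.Agent.P073.LOC Vale.Agent.P073.H235
open Vale.Agent.P073.St (V Mat)
open Vale.Agent.P073.SQ (ev)
open Vale.Agent.P073.AB (cl)
open scoped ContDiff ENNReal

theorem pw {p : ℝ} (hp : 0 ≤ p) (a b : V) : ENNReal.ofReal (‖a‖ ^ p) ≤
    ENNReal.ofReal (2 ^ p) * (ENNReal.ofReal (‖a - b‖ ^ p) + ENNReal.ofReal (‖b‖ ^ p)) := by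
  rw [← ENNReal.ofReal_add (by positivity) (by positivity),
    ← ENNReal.ofReal_mul (by positivity)]
  apply ENNReal.ofReal_le_ofReal
  have h1 : ‖a‖ ≤ 2 * max ‖a - b‖ ‖b‖ := by
    have h2 : ‖a‖ ≤ ‖a - b‖ + ‖b‖ := by
      have := norm_add_le (a - b) b
      rwa [sub_add_cancel] at this
    have h3 := le_max_left ‖a - b‖ ‖b‖
    have h4 := le_max_right ‖a - b‖ ‖b‖
    linarith
  have h5 : 0 ≤ max ‖a - b‖ ‖b‖ := (norm_nonneg _).trans (le_max_left _ _)
  calc ‖a‖ ^ p ≤ (2 * max ‖a - b‖ ‖b‖) ^ p := Real.rpow_le_rpow (norm_nonneg _) h1 hp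
    _ = 2 ^ p * (max ‖a - b‖ ‖b‖) ^ p := Real.mul_rpow (by norm_num) h5
    _ ≤ 2 ^ p * (‖a - b‖ ^ p + ‖b‖ ^ p) := by
        gcongr
        rcases le_total ‖a - b‖ ‖b‖ with h | h
        · rw [max_eq_right h]
          have : 0 ≤ ‖a - b‖ ^ p := by positivity
          linarith
        · rw [max_eq_left h]
          have : 0 ≤ ‖b‖ ^ p := by positivity
          linarith

/-- the quasi triangle inequality for the energies -/
theorem tri {p : ℝ} (hp : 0 ≤ p) (S : Set V) (a b : V → V) (hb : Measurable b) :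
    ∫⁻ x in S, ENNReal.ofReal (‖a x‖ ^ p) ≤ ENNReal.ofReal (2 ^ p) *
      ((∫⁻ x in S, ENNReal.ofReal (‖a x - b x‖ ^ p)) +
        ∫⁻ x in S, ENNReal.ofReal (‖b x‖ ^ p)) := by
  have hm : Measurable fun x => ENNReal.ofReal (‖b x‖ ^ p) :=
    ENNReal.measurable_ofReal.comp ((measurable_norm.comp hb).pow_const p)
  rw [← lintegral_add_right _ hm, ← lintegral_const_mul' _ _ ENNReal.ofReal_ne_top]
  exact lintegral_mono fun x => pw hp _ _

theorem measurable_der (g : V → V) (v : V) : Measurable fun x => fderiv ℝ g x v :=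
  measurable_fderiv_apply_const ℝ g v

/-- the same summed over the directions -/
theorem tri_sum {p : ℝ} (hp : 0 ≤ p) (J : Finset (Fin 3)) (S : Set V) (a b : Fin 3 → V → V)
    (hb : ∀ j, Measurable (b j)) :
    ∑ j ∈ J, ∫⁻ x in S, ENNReal.ofReal (‖a j x‖ ^ p) ≤ ENNReal.ofReal (2 ^ p) *
      ((∑ j ∈ J, ∫⁻ x in S, ENNReal.ofReal (‖a j x - b j x‖ ^ p)) +
        ∑ j ∈ J, ∫⁻ x in S, ENNReal.ofReal (‖b j x‖ ^ p)) := by
  rw [← Finset.sum_add_distrib, Finset.mul_sum]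
  exact Finset.sum_le_sum fun j _ => tri hp S (a j) (b j) (hb j)

theorem sum_union_le (J : Finset (Fin 3)) (u : Fin 3 → V → ℝ≥0∞) {S A B : Set V}
    (h : S ⊆ A ∪ B) :
    ∑ j ∈ J, ∫⁻ x in S, u j x ≤
      (∑ j ∈ J, ∫⁻ x in A, u j x) + ∑ j ∈ J, ∫⁻ x in B, u j x := by
  rw [← Finset.sum_add_distrib]
  exact Finset.sum_le_sum fun j _ =>
    (lintegral_mono_set h).trans (lintegral_union_le _ _ _)

theorem sum_mono_set (J : Finset (Fin 3)) (u : Fin 3 → V → ℝ≥0∞) {S A : Set V} (h : S ⊆ A) :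
    ∑ j ∈ J, ∫⁻ x in S, u j x ≤ ∑ j ∈ J, ∫⁻ x in A, u j x :=
  Finset.sum_le_sum fun _ _ => lintegral_mono_set h

theorem Lat.congr {k : Fin 3} {a b : V} {ν M : ℝ} {χ : V → ℝ} (h : Lat k a ν M χ)
    (hab : ∀ i, i ≠ k → b i = a i) : Lat k b ν M χ where
  smooth := h.smooth
  nonneg := h.nonneg
  le_one := h.le_one
  indep := h.indep
  der := h.der
  zero := by
    rintro x ⟨i, hi, hx⟩
    rw [hab i hi] at hx
    exact h.zero x ⟨i, hi, hx⟩
  one := by
    intro x hx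
    refine h.one x fun i hi => ?_
    have := hx i hi
    rwa [hab i hi] at this

/-- the thin part lies in the frame or near the faces -/
theorem thin_pos {θ δ τ ν M : ℝ} {k : Fin 3} {a : V} {χ : V → ℝ} (P : Par θ δ τ ν M k a χ)
    {x : V} (hx : x ∈ Thin θ δ k χ) :
    (∃ i, i ≠ k ∧ (x i < ν / 2 * a i ∨ (1 - ν / 2) * a i < x i)) ∨ x k < θ + δ ∨
      1 - θ - δ < x k := by
  by_contra hcon
  push Not at hcon
  obtain ⟨h1, h2, h3⟩ := hcon
  have hχ : χ x = 1 := P.lat.one x fun i hi => h1 i hi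
  have hu : uu θ χ x = θ := by unfold uu; rw [hχ]; ring
  have h4 := fat (τ := τ) (u := θ) (x := x k) P.hδ (by linarith) (by linarith)
  have h5 : (1:ℝ) / 2 ≤ Spr δ (uu θ χ x) (x k) := hx
  rw [hu] at h5
  unfold Spr at h5
  rw [h4.1, h4.2.1] at h5
  norm_num at h5

theorem vol_slab (i : Fin 3) (s : ℝ) (hs : 0 ≤ s) :
    volume {x : V | (∀ j, 0 < x j ∧ x j < 1) ∧ x i < s} ≤ ENNReal.ofReal s := by
  have h1 : {x : V | (∀ j, 0 < x j ∧ x j < 1) ∧ x i < s} ⊆
      Set.pi univ fun j => Ioo ((0 : V) j) (Function.update (1 : V) i s j) := by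
    rintro x ⟨hx, hi⟩ j -
    show 0 < x j ∧ x j < Function.update (1 : V) i s j
    by_cases h : j = i
    · subst h
      rw [Function.update_self]
      exact ⟨(hx j).1, hi⟩
    · rw [Function.update_of_ne h]
      exact hx j
  refine (measure_mono h1).trans ?_
  rw [Real.volume_pi_Ioo]
  refine le_of_eq ?_
  rw [Finset.prod_eq_single i]
  · simp
  · intro j _ hj
    rw [Function.update_of_ne hj]
    simp
  · intro h; exact absurd (Finset.mem_univ i) h

theorem vol_slab' (i : Fin 3) (s : ℝ) (hs : 0 ≤ s) :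
    volume {x : V | (∀ j, 0 < x j ∧ x j < 1) ∧ 1 - s < x i} ≤ ENNReal.ofReal s := by
  have h1 : {x : V | (∀ j, 0 < x j ∧ x j < 1) ∧ 1 - s < x i} ⊆
      Set.pi univ fun j => Ioo (Function.update (0 : V) i (1 - s) j) ((1 : V) j) := by
    rintro x ⟨hx, hi⟩ j -
    show Function.update (0 : V) i (1 - s) j < x j ∧ x j < 1
    by_cases h : j = i
    · subst h
      rw [Function.update_self]
      exact ⟨hi, (hx j).2⟩
    · rw [Function.update_of_ne h]
      exact hx j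
  refine (measure_mono h1).trans ?_
  rw [Real.volume_pi_Ioo]
  refine le_of_eq ?_
  rw [Finset.prod_eq_single i]
  · simp
  · intro j _ hj
    rw [Function.update_of_ne hj]
    simp
  · intro h; exact absurd (Finset.mem_univ i) h

theorem vol_frame (s : ℝ) (hs : 0 ≤ s) (T : Set V)
    (hT : ∀ x ∈ T, (∀ j, 0 < x j ∧ x j < 1) ∧ ∃ i, x i < s ∨ 1 - s < x i) :
    volume T ≤ ENNReal.ofReal (6 * s) := by
  have h1 : T ⊆ ⋃ i : Fin 3, ({x : V | (∀ j, 0 < x j ∧ x j < 1) ∧ x i < s} ∪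
      {x : V | (∀ j, 0 < x j ∧ x j < 1) ∧ 1 - s < x i}) := by
    intro x hx
    obtain ⟨h2, i, h3⟩ := hT x hx
    refine mem_iUnion.2 ⟨i, ?_⟩
    rcases h3 with h3 | h3
    · exact Or.inl ⟨h2, h3⟩
    · exact Or.inr ⟨h2, h3⟩
  calc volume T ≤ _ := measure_mono h1
    _ ≤ ∑ i : Fin 3, volume ({x : V | (∀ j, 0 < x j ∧ x j < 1) ∧ x i < s} ∪
      {x : V | (∀ j, 0 < x j ∧ x j < 1) ∧ 1 - s < x i}) := measure_iUnion_fintype_le _ _
    _ ≤ ∑ _i : Fin 3, ENNReal.ofReal (2 * s) := by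
        refine Finset.sum_le_sum fun i _ => (measure_union_le _ _).trans ?_
        rw [two_mul, ENNReal.ofReal_add hs hs]
        exact add_le_add (vol_slab i s hs) (vol_slab' i s hs)
    _ = ENNReal.ofReal (6 * s) := by
        rw [Finset.sum_const, Finset.card_univ, Fintype.card_fin, nsmul_eq_mul]
        have : ((3 : ℕ) : ℝ≥0∞) = ENNReal.ofReal 3 := by norm_num
        rw [this, ← ENNReal.ofReal_mul (by norm_num)]
        congr 1; ring

theorem Near.mono {p κ κ' : ℝ} {L : V →L[ℝ] V} {Λ : Set V} {f : V → V} {F : V → Mat}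
    (h : Near p κ L Λ f F) (hκ : κ ≤ κ') : Near p κ' L Λ f F :=
  ⟨h.dom, h.homeo, h.cont, h.sob, h.near.trans (ENNReal.ofReal_le_ofReal hκ)⟩

end Vale.Agent.P073.H761
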