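import Vale.Agent.P073.H761.Sm1
import Vale.Agent.P073.H761.UncTools

/-!
# P073: (C1), the conical output on the flat box gives a diffeomorphism
-/

namespace Vale.Agent.P073.H761

open MeasureTheory Set Filter Topology Metric Vale.Agent.P073.LOC Vale.Agent.P073.H235
open Vale.Agent.P073.St (V Mat)
open Vale.Agent.P073.SQ (ev cube Cells)
open _root_.P073 (ConHomeo)
open scoped ContDiff ENNReal

theorem Icc_sub_closure : Icc (0 : V) 1 ⊆ closure Q1 := by
  have h1 : Q1 = Set.pi univ fun _ : Fin 3 => Ioo (0 : ℝ) 1 := by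
    ext x; simp [Q1, Set.mem_pi]
  rw [h1, closure_pi_set]
  intro x hx i _
  rw [closure_Ioo (by norm_num)]
  exact ⟨hx.1 i, hx.2 i⟩

/-- the compressed map is uniformly continuous -/
theorem cmp_ucont {a : V} (ha : ∀ i, 0 < a i) {f : V → V} (hf : ContinuousOn f (closure Q1)) :
    UniformContinuousOn (cmp a f) (Bx a) := by
  have h1 : UniformContinuousOn (cmp a f) (Icc 0 a) := by
    refine isCompact_Icc.uniformContinuousOn_of_continuous ?_
    refine hf.comp (by fun_prop) fun x hx => Icc_sub_closure ⟨fun i => ?_, fun i => ?_⟩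
    · exact div_nonneg (hx.1 i) (ha i).le
    · exact (div_le_one (ha i)).2 (hx.2 i)
  exact h1.mono fun x hx => ⟨fun i => (hx i).1.le, fun i => (hx i).2.le⟩

/-- triangle inequality with the derivatives of the conical map -/
theorem tri_map {p : ℝ} (hp : 0 ≤ p) {Ω : Set V} (hΩ : IsOpen Ω) {h : V → V}
    (hc : ContinuousOn h Ω) (g : V → V) {φ : V → V} (hφ : Measurable φ) (J : Finset (Fin 3))
    {S : Set V} (hS : MeasurableSet S) (hSΩ : ∀ x ∈ S, φ x ∈ Ω) (M : Fin 3 → V) :
    ∑ j ∈ J, ∫⁻ x in S, ENNReal.ofReal (‖fderiv ℝ g (φ x) (ev j) - M j‖ ^ p) ≤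
      ENNReal.ofReal (2 ^ p) *
      ((∑ j ∈ J, ∫⁻ x in S,
        ENNReal.ofReal (‖fderiv ℝ g (φ x) (ev j) - lineDeriv ℝ h (φ x) (ev j)‖ ^ p)) +
      ∑ j ∈ J, ∫⁻ x in S, ENNReal.ofReal (‖lineDeriv ℝ h (φ x) (ev j) - M j‖ ^ p)) := by
  set H : Fin 3 → V → V := fun j => Ω.indicator fun x => lineDeriv ℝ h x (ev j) with hH
  have hm : ∀ j, Measurable (H j) := fun j => H880.measurable_lineDeriv_on hΩ hc (ev j)
  have he : ∀ j, ∀ x ∈ S, H j (φ x) = lineDeriv ℝ h (φ x) (ev j) := fun j x hx =>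
    indicator_of_mem (hSΩ x hx) _
  refine (tri_sum hp J S (fun j x => fderiv ℝ g (φ x) (ev j) - M j)
    (fun j x => H j (φ x) - M j) fun j => ((hm j).comp hφ).sub measurable_const).trans ?_
  refine mul_le_mul' le_rfl (add_le_add ?_ ?_)
  · refine Finset.sum_le_sum fun j _ => le_of_eq ?_
    refine setLIntegral_congr_fun hS fun x hx => ?_
    rw [he j x hx, sub_sub_sub_cancel_right]
  · refine Finset.sum_le_sum fun j _ => le_of_eq ?_
    refine setLIntegral_congr_fun hS fun x hx => ?_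
    rw [he j x hx]

theorem measurable_update (k : Fin 3) (c : ℝ) : Measurable fun x : V => Function.update x k c :=
  (continuous_id.update k continuous_const).measurable

theorem measurableSet_Bx (a : V) : MeasurableSet (Bx a) := (isOpen_box a).measurableSet

theorem measurableSet_Co' (a : V) (ν : ℝ) (J : Finset (Fin 3)) : MeasurableSet (Co a ν J) := by
  have : Co a ν J = ⋂ i ∈ J, {x : V | ν / 4 * a i ≤ x i ∧ x i ≤ (1 - ν / 4) * a i} := by
    ext x; simp [Co]
  rw [this]
  refine Finset.measurableSet_biInter _ fun i _ => ?_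
  exact (measurableSet_le measurable_const (measurable_pi_apply i)).inter
    (measurableSet_le (measurable_pi_apply i) measurable_const)

theorem fl_pos' {θ : ℝ} (hθ : 0 < θ) (i : Fin 3) : 0 < fl θ i := by
  fin_cases i
  · exact one_pos
  · exact one_pos
  · show 0 < 2 * θ
    positivity

/-- the compact core of the plane `x 2 = c` -/
def core2 (ν : ℝ) : Set V :=
  Icc ![ν / 8, ν / 8, 0] ![1 - ν / 8, 1 - ν / 8, 1]

theorem core_sub {ν : ℝ} : Bx (1 : V) ∩ Co 1 (ν / 2) {0, 1} ⊆ core2 ν := by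
  rintro x ⟨hx, hc⟩
  have h0 := hc 0 (by simp)
  have h1 := hc 1 (by simp)
  simp only [Pi.one_apply, mul_one] at h0 h1
  have h2 := hx 2
  constructor
  · intro i
    fin_cases i
    · show ν / 8 ≤ x 0
      linarith [h0.1]
    · show ν / 8 ≤ x 1
      linarith [h1.1]
    · exact h2.1.le
  · intro i
    fin_cases i
    · show x 0 ≤ 1 - ν / 8
      linarith [h0.2]
    · show x 1 ≤ 1 - ν / 8
      linarith [h1.2]
    · exact h2.2.le

theorem core_mem {ν θ c : ℝ} (hν : 0 < ν) (hc : 0 < c) (hc' : c < 2 * θ) {x : V}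
    (hx : x ∈ core2 ν) : Function.update x 2 c ∈ Bx (fl θ) := by
  have h0 : ν / 8 ≤ x 0 := hx.1 0
  have h0' : x 0 ≤ 1 - ν / 8 := hx.2 0
  have h1 : ν / 8 ≤ x 1 := hx.1 1
  have h1' : x 1 ≤ 1 - ν / 8 := hx.2 1
  intro i
  fin_cases i
  · show 0 < Function.update x 2 c 0 ∧ Function.update x 2 c 0 < 1
    rw [Function.update_of_ne (by decide)]
    constructor <;> linarith
  · show 0 < Function.update x 2 c 1 ∧ Function.update x 2 c 1 < 1
    rw [Function.update_of_ne (by decide)]
    constructor <;> linarith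
  · show 0 < Function.update x 2 c 2 ∧ Function.update x 2 c 2 < 2 * θ
    rw [Function.update_self]
    exact ⟨hc, hc'⟩

/-- **(C1)** -/
theorem specC1 : SpecC1 := by
  intro p hp hp3
  have hp0 : 0 ≤ p := by linarith
  obtain ⟨C₀, hC₀, hmain⟩ := smooth_squeeze hp hp3
  have h2p : (0:ℝ) < 2 ^ p := by positivity
  refine ⟨C₀ + 1 + 3 * 2 ^ p, by positivity, ?_⟩
  intro C θ ν τ ε L Λ f hC hθ hν hν4 hτ hε hΛ hf hcon
  obtain ⟨c, W, h, hcθ, hD, hbd, hE1, hE2, hmid⟩ := hcon
  have hab := abs_le.1 hcθ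
  have hc0 : 0 < c := by linarith [hab.1]
  have hc2 : c < 2 * θ := by linarith [hab.2]
  have hQΩ : ∀ x ∈ core2 ν, Function.update x 2 c ∈ Bx (fl θ) := fun x hx =>
    core_mem hν hc0 hc2 hx
  obtain ⟨g, hg, hgbd, hgE, -, hgp⟩ := hmain (fl θ) Λ W h 2 c (cmp (fl θ) f) (C * ν * θ)
    Empty Unit inferInstance inferInstance (fun i => i.elim) (fun i => i.elim) (fun i => i.elim)
    (fun _ => core2 ν) (fun _ => ε) (fun i => fl_pos' hθ i) hΛ hD
    (cmp_ucont (fun i => fl_pos' hθ i) hf) hbd (by positivity)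
    (fun i => i.elim) (fun i => i.elim) (fun i => i.elim) (fun K _ _ => Set.toFinite _)
    (fun i => i.elim) (fun _ => isCompact_Icc) (fun _ => hQΩ) (fun K _ _ => Set.toFinite _)
    (fun _ => hε)
  have hbound : ∀ b : ℝ, C * ν * θ ≤ b → C₀ * b + C * ν * θ ≤ (C₀ + 1 + 3 * 2 ^ p) * b := by
    intro b hb
    have hb0 : 0 ≤ b := le_trans (by positivity) hb
    have : 0 ≤ 3 * 2 ^ p * b := by positivity
    nlinarith
  refine ⟨c, g, hcθ, hg, hgbd, ?_, ?_, ?_⟩
  · have h1 := hgE univ
    rw [inter_univ] at h1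
    calc En p g Finset.univ (Bx (fl θ)) ≤ ENNReal.ofReal C₀ * ENNReal.ofReal (C * θ) +
          ENNReal.ofReal (C * ν * θ) := h1.trans (by gcongr)
      _ = ENNReal.ofReal (C₀ * (C * θ) + C * ν * θ) := by
          rw [← ENNReal.ofReal_mul hC₀.le, ← ENNReal.ofReal_add (by positivity) (by positivity)]
      _ ≤ ENNReal.ofReal ((C₀ + 1 + 3 * 2 ^ p) * (C * θ)) := by
          apply ENNReal.ofReal_le_ofReal
          refine hbound _ ?_
          have : C * θ * ν ≤ C * θ * 1 := by gcongr; linarith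
          linarith
      _ = _ := by congr 1; ring
  · calc En p g Finset.univ (Bx (fl θ) ∩ Fr (fl θ) (2 * ν) {0, 1})
        ≤ ENNReal.ofReal C₀ * ENNReal.ofReal (C * ν * θ) + ENNReal.ofReal (C * ν * θ) :=
          (hgE _).trans (by gcongr)
      _ = ENNReal.ofReal (C₀ * (C * ν * θ) + C * ν * θ) := by
          rw [← ENNReal.ofReal_mul hC₀.le, ← ENNReal.ofReal_add (by positivity) (by positivity)]
      _ ≤ ENNReal.ofReal ((C₀ + 1 + 3 * 2 ^ p) * (C * ν * θ)) :=
          ENNReal.ofReal_le_ofReal (hbound _ le_rfl)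
      _ = _ := by congr 1; ring
  · refine (tri_map hp0 (isOpen_box _) h.cont g (measurable_update 2 c) _
      ((measurableSet_Bx _).inter (measurableSet_Co' _ _ _))
      (fun x hx => hQΩ x (core_sub hx)) fun j => L (ev j)).trans ?_
    have e1 : ∑ j ∈ Finset.univ.erase (2 : Fin 3), ∫⁻ x in Bx 1 ∩ Co 1 (ν / 2) {0, 1},
        ENNReal.ofReal (‖fderiv ℝ g (Function.update x 2 c) (ev j) -
          lineDeriv ℝ h.toFun (Function.update x 2 c) (ev j)‖ ^ p) ≤ ENNReal.ofReal (2 * ε) := by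
      calc _ ≤ ∑ j ∈ Finset.univ.erase (2 : Fin 3), ENNReal.ofReal ε :=
            Finset.sum_le_sum fun j hj => (lintegral_mono_set core_sub).trans
              (hgp () j (Finset.ne_of_mem_erase hj))
        _ = _ := by
            rw [Finset.sum_const]
            have : (Finset.univ.erase (2 : Fin 3)).card = 2 := by decide
            rw [this, nsmul_eq_mul, ENNReal.ofReal_mul (by norm_num)]
            norm_num
    calc _ ≤ ENNReal.ofReal (2 ^ p) * (ENNReal.ofReal (2 * ε) + ENNReal.ofReal ε) :=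
          mul_le_mul' le_rfl (add_le_add e1 hmid)
      _ = ENNReal.ofReal (2 ^ p * (2 * ε + ε)) := by
          rw [← ENNReal.ofReal_add (by positivity) hε.le, ← ENNReal.ofReal_mul h2p.le]
      _ ≤ _ := by
          apply ENNReal.ofReal_le_ofReal
          have : 0 ≤ (C₀ + 1) * ε := by positivity
          nlinarith

end Vale.Agent.P073.H761
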