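import Vale.Agent.P073.H761.U8
import Vale.Agent.P073.H732.U2
import Vale.Agent.P073.H16.UncU3
import Vale.Agent.P073.H190.UncU5

/-!
# P073: the un-collapse theorems, unconditional
-/

namespace Vale.Agent.P073.H761

open Vale.Agent.P073.H235

/-- rank two: the flat output gives the local theorem -/
theorem specUncollapse_all : SpecUncollapse :=
  specUncollapse H732.specU1 H732.specU2 H16.specU3 H190.specU5 H190.specU6

/-- rank one: the beam output gives the flat output -/
theorem specUncollapse1_all : SpecUncollapse1 :=
  specUncollapse1 H732.specU1 H732.specU2 H16.specU3 H190.specU4 H190.specU5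

end Vale.Agent.P073.H761
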