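import Vale.Agent.P073.H761.Bs3

/-!
# P073, H761, BASE: the product drawing of the through arcs (`SpecBase`)
-/

open Set Metric Topology Filter

namespace P073.H761.Bs

open P073.H31 P073.H237 P073.H339 P073.GB200 P073.H341

theorem sig_left {A : ArcD} (h : A.Good) {a : ℝ} (h0 : A.p ≤ a) (h1 : a ≤ A.p + A.w) :
    A.sig a = (a - A.p) / A.w := by
  have hw := h.w0
  rw [ArcD.sig, h.lam_left h0 (by linarith), cl1_eq_self (div_nonneg (by linarith) hw.le)
    (by rw [div_le_iff₀ hw]; linarith)]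

theorem sig_right {A : ArcD} (h : A.Good) {a : ℝ} (h0 : A.q - A.w' ≤ a) (h1 : a ≤ A.q) :
    A.sig a = (A.q - a) / A.w' := by
  have hw := h.w0'
  rw [ArcD.sig, h.lam_right h1 (by linarith), cl1_eq_self (div_nonneg (by linarith) hw.le)
    (by rw [div_le_iff₀ hw]; linarith)]

/-- the hypotheses in the chart -/
structure Mdl (w : Bool → ℝ) (k : ℕ) (D : ℕ → ThrD) (om : ℕ → ℝ) (Q : ConHomeo Rct Rct) :
    Prop where
  sp : Sp w k D
  pos : Pos k (fun i => (D i).arc (om i))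
  qb : Q.toFun '' bR = bR
  qa : ∀ i < k, QA Q.toFun (w (D i).d) (D i) ((D i).arc (om i))
  bnd : ∀ i < k, (0 < (D i).hi ∧ (D i).hi < 1) ∧ (0 < (D i).hi' ∧ (D i).hi' < 1)

theorem bR_sub : bR ⊆ Rct := fun _ h => h.1

variable {w : Bool → ℝ} {k : ℕ} {D : ℕ → ThrD} {om : ℕ → ℝ} {Q : ConHomeo Rct Rct}

theorem Sp.fM_zero (H : Sp w k D) {i : ℕ} (hi : i < k) {y : ℝ × ℝ} (h1 : (D i).Y ≤ crd (D i).d y)
    (h2 : crd (D i).d y ≤ (D i).Y + w (D i).d) : fM w k D i (Th w k D y) = 0 := by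
  unfold fM
  rw [crd_Th, sub_eq_zero]
  exact ((H (D i).d).band (mem_sd hi) h1 h2).symm

namespace Mdl

variable (H : Mdl w k D om Q)
include H

theorem bandL {i : ℕ} (hi : i < k) {x : ℝ × ℝ} (hx : x ∈ IL ((D i).arc (om i))) :
    (D i).Y ≤ crd (D i).d (Q.toFun x) ∧ crd (D i).d (Q.toFun x) ≤ (D i).Y + w (D i).d := by
  have hw := (H.sp (D i).d).hw
  have g := (H.pos.good i hi).w0
  rw [((H.qa i hi).L x hx).1]
  have h0 : 0 ≤ (x.1 - ((D i).arc (om i)).p) / ((D i).arc (om i)).w :=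
    div_nonneg (by linarith [hx.1.1]) g.le
  have h1 : (x.1 - ((D i).arc (om i)).p) / ((D i).arc (om i)).w ≤ 1 := by
    rw [div_le_iff₀ g]; linarith [hx.1.2]
  constructor <;> nlinarith

theorem bandR {i : ℕ} (hi : i < k) {x : ℝ × ℝ} (hx : x ∈ IR ((D i).arc (om i))) :
    (D i).Y ≤ crd (D i).d (Q.toFun x) ∧ crd (D i).d (Q.toFun x) ≤ (D i).Y + w (D i).d := by
  have hw := (H.sp (D i).d).hw
  have g := (H.pos.good i hi).w0'
  rw [((H.qa i hi).R x hx).1]
  have h0 : 0 ≤ (((D i).arc (om i)).q - x.1) / ((D i).arc (om i)).w' :=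
    div_nonneg (by linarith [hx.1.2]) g.le
  have h1 : (((D i).arc (om i)).q - x.1) / ((D i).arc (om i)).w' ≤ 1 := by
    rw [div_le_iff₀ g]; linarith [hx.1.1]
  constructor <;> nlinarith

theorem inBand {i : ℕ} (hi : i < k) {x : ℝ × ℝ} (hx : x ∈ bR)
    (h1 : (D i).Y ≤ crd (D i).d (Q.toFun x))
    (h2 : crd (D i).d (Q.toFun x) ≤ (D i).Y + w (D i).d) :
    x ∈ IL ((D i).arc (om i)) ∨ x ∈ IR ((D i).arc (om i)) := by
  have h3 : x.2 = 1 ∧ ((D i).arc (om i)).p ≤ x.1 ∧ x.1 ≤ ((D i).arc (om i)).q := by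
    by_contra hc
    have := (H.qa i hi).out x hx fun h => by
      by_contra h'
      push Not at h'
      exact hc ⟨h, h'.1, h'.2⟩
    linarith
  obtain ⟨h3, h4, h5⟩ := h3
  by_cases c1 : x.1 ≤ ((D i).arc (om i)).p + ((D i).arc (om i)).w
  · left; exact ⟨⟨h4, c1⟩, h3⟩
  · by_cases c2 : ((D i).arc (om i)).q - ((D i).arc (om i)).w' ≤ x.1
    · right; exact ⟨⟨c2, h5⟩, h3⟩
    · exfalso
      have := (H.qa i hi).inn x.1 (not_le.1 c1) (not_le.1 c2)
      have e : (x.1, 1) = x := Prod.ext rfl h3.symm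
      rw [e] at this
      linarith

theorem mp {i : ℕ} (hi : i < k) : ((((D i).arc (om i)).p, 1) : ℝ × ℝ) ∈ IL ((D i).arc (om i)) :=
  ⟨⟨le_rfl, by show _ ≤ _; linarith [(H.pos.good i hi).w0]⟩, rfl⟩

theorem mq {i : ℕ} (hi : i < k) : ((((D i).arc (om i)).q, 1) : ℝ × ℝ) ∈ IR ((D i).arc (om i)) :=
  ⟨⟨by show _ ≤ _; linarith [(H.pos.good i hi).w0'], le_rfl⟩, rfl⟩

theorem ne01 (d d' : Bool) : TH w k D d' (if d then 0 else 1) ≠ TH w k D d' (if d then 1 else 0) := by
  have h0 := H.sp.TH0 d'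
  have h1 := H.sp.TH1 d'
  cases d
  · simp only [Bool.false_eq_true, if_false]
    rw [h0]; exact h1.ne'
  · simp only [if_true]
    rw [h0]; exact h1.ne

theorem two {i j : ℕ} (hi : i < k) (hj : j < k) (hij : i ≠ j) {x : ℝ × ℝ}
    (h1 : x ∈ Sa (CM w k D) (fM w k D) i) (h2 : x ∈ Sa (CM w k D) (fM w k D) j) :
    (D i).d ≠ (D j).d := by
  intro hd
  have e1 : TH w k D (D i).d (D i).Y - crd (D i).d x = 0 := h1.2
  have e2 : TH w k D (D j).d (D j).Y - crd (D j).d x = 0 := h2.2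
  have m2 := mem_sd (D := D) hj
  rw [← hd] at e2 m2
  exact (H.sp (D i).d).cne (mem_sd hi) m2 hij (by
    show TH w k D (D i).d (D i).Y = TH w k D (D i).d (D j).Y
    linarith)

theorem constL {i : ℕ} (hi : i < k) {x : ℝ × ℝ} (hx : x ∈ IL ((D i).arc (om i))) :
    Th w k D (Q.toFun x) = Th w k D (Q.toFun (((D i).arc (om i)).p, 1)) := by
  refine crd_ext fun d => ?_
  rw [crd_Th, crd_Th]
  have b1 := H.bandL hi hx
  have b2 := H.bandL hi (H.mp hi)
  by_cases hd : d = (D i).d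
  · rw [hd]
    exact ((H.sp (D i).d).band (mem_sd hi) b1.1 b1.2).trans
      ((H.sp (D i).d).band (mem_sd hi) b2.1 b2.2).symm
  · have hd' : d = !(D i).d := by
      cases h : (D i).d <;> rw [h] at hd <;> cases d <;> simp_all
    rw [hd', ((H.qa i hi).L x hx).2, ((H.qa i hi).L _ (H.mp hi)).2]

theorem constR {i : ℕ} (hi : i < k) {x : ℝ × ℝ} (hx : x ∈ IR ((D i).arc (om i))) :
    Th w k D (Q.toFun x) = Th w k D (Q.toFun (((D i).arc (om i)).q, 1)) := by
  refine crd_ext fun d => ?_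
  rw [crd_Th, crd_Th]
  have b1 := H.bandR hi hx
  have b2 := H.bandR hi (H.mq hi)
  by_cases hd : d = (D i).d
  · rw [hd]
    exact ((H.sp (D i).d).band (mem_sd hi) b1.1 b1.2).trans
      ((H.sp (D i).d).band (mem_sd hi) b2.1 b2.2).symm
  · have hd' : d = !(D i).d := by
      cases h : (D i).d <;> rw [h] at hd <;> cases d <;> simp_all
    rw [hd', ((H.qa i hi).R x hx).2, ((H.qa i hi).R _ (H.mq hi)).2]

theorem fib {x y : ℝ × ℝ} (hx : x ∈ bR) (hy : y ∈ bR)
    (h : Th w k D (Q.toFun x) = Th w k D (Q.toFun y)) :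
    x = y ∨ ∃ i < k, (x ∈ IL ((D i).arc (om i)) ∧ y ∈ IL ((D i).arc (om i))) ∨
      (x ∈ IR ((D i).arc (om i)) ∧ y ∈ IR ((D i).arc (om i))) := by
  have h' : ∀ d, TH w k D d (crd d (Q.toFun x)) = TH w k D d (crd d (Q.toFun y)) := fun d => by
    rw [← crd_Th, ← crd_Th]; exact congrArg (crd d) h
  by_cases hc : ∀ d, crd d (Q.toFun x) = crd d (Q.toFun y)
  · left; exact Q.injOn hx.1 hy.1 (crd_ext hc)
  · right
    push Not at hc
    obtain ⟨d, hd⟩ := hc
    obtain h1 | ⟨i, hi, ⟨a1, a2⟩, b1, b2⟩ := (H.sp d).inj (h' d)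
    · exact absurd h1 hd
    · have hik : i < k := Finset.mem_range.1 (Finset.mem_filter.1 hi).1
      have hid : (D i).d = d := (Finset.mem_filter.1 hi).2
      subst hid
      refine ⟨i, hik, ?_⟩
      have h'' := h' (!(D i).d)
      rcases H.inBand hik hx a1 a2 with hx' | hx' <;> rcases H.inBand hik hy b1 b2 with hy' | hy'
      · left; exact ⟨hx', hy'⟩
      · rw [((H.qa i hik).L x hx').2, ((H.qa i hik).R y hy').2] at h''
        exact absurd h'' (H.ne01 _ _)
      · rw [((H.qa i hik).R x hx').2, ((H.qa i hik).L y hy').2] at h''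
        exact absurd h''.symm (H.ne01 _ _)
      · right; exact ⟨hx', hy'⟩

/-- **the thin model is a pattern** -/
theorem pat : Pat k (fun i => (D i).arc (om i)) (fun i => (D i).d) (CM w k D) (BM w k D)
    (fM w k D) (fun x => Th w k D (Q.toFun x)) where
  pos := H.pos
  hC := H.sp.hC
  hfn := fun i _ => (plc_fM w k D i).contOn _
  hS := fun i hi => H.sp.hS hi
  γc := (plc_Th w k D).c.comp_continuousOn (Q.cont.mono bR_sub)
  γk := (plc_Th w k D).k.comp (Q.conical.mono conBall_Rct.conicalSet_bdry bR_sub)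
    (mapsTo_univ _ _) (Q.cont.mono bR_sub)
  γi := by
    have h1 : (fun x => Th w k D (Q.toFun x)) '' bR = Th w k D '' (Q.toFun '' bR) :=
      (image_image _ _ _).symm
    rw [h1, H.qb, H.sp.Th_bR]
  γf := fun x hx y hy h => H.fib hx hy h
  γL := fun i hi x hx => H.constL hi hx
  γR := fun i hi x hx => H.constR hi hx
  zp := fun i hi => H.sp.fM_zero hi (H.bandL hi (H.mp hi)).1 (H.bandL hi (H.mp hi)).2
  zq := fun i hi => H.sp.fM_zero hi (H.bandR hi (H.mq hi)).1 (H.bandR hi (H.mq hi)).2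
  pos_in := fun i hi a h1 h2 => (H.sp.fM_pos hi).2 ((H.qa i hi).inn a h1 h2)
  neg_out := fun i hi x hx h => (H.sp.fM_neg hi).2 ((H.qa i hi).out x hx h)
  sub := by
    intro i hi j hj hij x hx y hy
    have hd := H.two hi hj hij hx.1 hx.2
    have e1 : TH w k D (D i).d (D i).Y - crd (D i).d x = 0 := hx.1.2
    have e2 : TH w k D (D j).d (D j).Y - crd (D j).d x = 0 := hx.2.2
    have e3 : TH w k D (D i).d (D i).Y - crd (D i).d y = 0 := hy.1.2
    have e4 : TH w k D (D j).d (D j).Y - crd (D j).d y = 0 := hy.2.2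
    refine crd_ext fun d => ?_
    by_cases h : d = (D i).d
    · rw [h]; linarith
    · have h' : d = (D j).d := by
        cases h1 : (D i).d <;> cases h2 : (D j).d <;> rw [h1] at hd h <;> rw [h2] at hd <;>
          cases d <;> simp_all
      rw [h']; linarith
  dis := by
    intro i hi j hj hij hd
    rw [Set.disjoint_left]
    intro x h1 h2
    exact H.two hi hj hij h1 h2 hd
  link := by
    rintro i hi j hj hij ⟨x, h1, h2⟩
    have hd := H.two hi hj hij h1 h2
    obtain ⟨⟨a1, a2⟩, a3, a4⟩ := H.bnd i hi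
    obtain ⟨⟨b1, b2⟩, b3, b4⟩ := H.bnd j hj
    rcases h3 : D i with ⟨_ | _, lo, hi_, lo', hi_', Y⟩ <;>
      rcases h4 : D j with ⟨_ | _, lo₂, hi₂, lo₂', hi₂', Y₂⟩ <;> rw [h3] at hd a1 a2 a3 a4 <;>
      rw [h4] at hd b1 b2 b3 b4 <;> simp only [ThrD.arc, Lnk] at hd a1 a2 a3 a4 b1 b2 b3 b4 ⊢
    · exact absurd rfl hd
    · left; exact ⟨by linarith, by linarith, by linarith⟩
    · right; exact ⟨by linarith, by linarith, by linarith⟩
    · exact absurd rfl hd

end Mdl

/-- two points of the filled set over the same point: equal coordinates off the arc -/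
theorem fil_eq {E : Type*} [NormedAddCommGroup E] {N : ℕ} {C : Set E} {fn : ℕ → E → ℝ}
    {u v : E × (Fin N → ℝ)} (hu : u ∈ Fil N k C fn) (hv : v ∈ Fil N k C fn) (h : u.1 = v.1)
    {i : Fin N} (hi : (i : ℕ) < k) (h0 : fn i u.1 ≠ 0) : u.2 i = v.2 i := by
  obtain ⟨_, a2, a3, _⟩ := hu.2 i
  obtain ⟨_, b2, b3, _⟩ := hv.2 i
  rcases lt_or_gt_of_ne h0 with h1 | h1
  · rw [a2 hi h1, b2 hi (h ▸ h1)]
  · rw [a3 hi h1, b3 hi (h ▸ h1)]

/-- **[BASE]** -/
theorem specBase (E : Type*) [NormedAddCommGroup E] [NormedSpace ℝ E] : SpecBase E := by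
  intro m K κ _ hκ S hS k N D om w hkN hw hom hF hm' hsep hpos C B col fn γ hP
  set Q : ConHomeo Rct Rct := κ.symm.trans S with hQ
  have hqb : Q.toFun '' bR = bR := by
    have h1 : κ.invFun '' bR = bR := by
      conv_lhs => rw [← hκ.bd]
      rw [image_image]
      have : ∀ x ∈ bR, κ.invFun (κ.toFun x) = x := fun x hx => κ.left_inv hx.1
      rw [image_congr this, image_id']
    show (S.toFun ∘ κ.invFun) '' bR = bR
    rw [image_comp, h1]
    exact S_bR hS
  have H : Mdl w k D om Q := by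
    refine ⟨fun d => ⟨hw d, ?_, ?_, ?_⟩, hpos, hqb, fun i hi => ?_, fun i hi => ?_⟩
    · intro i hi j hj hij
      have hik : i < k := Finset.mem_range.1 (Finset.mem_filter.1 hi).1
      have hid : (D i).d = d := (Finset.mem_filter.1 hi).2
      have hjk : j < k := Finset.mem_range.1 (Finset.mem_filter.1 hj).1
      have hjd : (D j).d = d := (Finset.mem_filter.1 hj).2
      have := hsep i hik j hjk hij (hid.trans hjd.symm)
      rwa [hid, hjd] at this
    · intro i hi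
      exact (hF i (Finset.mem_range.1 (Finset.mem_filter.1 hi).1)).Y0
    · intro i hi
      have hid : (D i).d = d := (Finset.mem_filter.1 hi).2
      have := (hF i (Finset.mem_range.1 (Finset.mem_filter.1 hi).1)).Y1
      rwa [hid] at this
    · exact qa hκ hS (hF i hi) (hm' i hi)
    · have F := hF i hi
      exact ⟨⟨F.lo0.trans F.lohi, F.hi1⟩, F.lo0'.trans F.lohi', F.hi1'⟩
  obtain ⟨Φ1, z1, b1⟩ := peelP N k _ col C B fn γ 1 hkN one_pos hP
  obtain ⟨Φ2, z2, b2⟩ := peelP N k _ _ _ _ _ _ 1 hkN one_pos H.pat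
  obtain ⟨X, hX⟩ := H.sp.exists_Xi hkN
  have hom' : ∀ i < k, 0 < ((D i).arc (om i)).om := fun i hi => (hpos.good i hi).om0
  have hXd : ∀ x ∈ Rct, X.toFun (Q.toFun x) ∈ Fil N k (CM w k D) (fM w k D) := fun x hx =>
    X.mapsTo (Q.mapsTo hx)
  have hbd : ∀ x ∈ bR, Φ2.toFun x = X.toFun (Q.toFun x) := by
    intro x hx
    have e1 : (Φ2.toFun x).1 = (X.toFun (Q.toFun x)).1 := by
      rw [b2 x hx, hX]; rfl
    refine Prod.ext e1 (funext fun i => ?_)
    by_cases hi : (i : ℕ) < k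
    · by_cases h0 : fM w k D i (Φ2.toFun x).1 = 0
      · have hband : (D i).Y ≤ crd (D i).d (Q.toFun x) ∧
            crd (D i).d (Q.toFun x) ≤ (D i).Y + w (D i).d := by
          rw [b2 x hx] at h0
          constructor
          · by_contra hc
            exact ((H.sp.fM_pos hi).2 (not_le.1 hc)).ne' h0
          · by_contra hc
            exact ((H.sp.fM_neg hi).2 (not_le.1 hc)).ne h0
        have e2 : (X.toFun (Q.toFun x)).2 i = (D i).z (w (D i).d) (Q.toFun x) := by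
          rw [hX]
          show (if (i : ℕ) < k then (D i).z (w (D i).d) (Q.toFun x) else 0) = _
          rw [if_pos hi]
        have hwi := hw (D i).d
        have g := hpos.good i hi
        rw [z2 x hx.1, e2]
        rcases H.inBand hi hx hband.1 hband.2 with hx' | hx'
        · have hx2 : x.2 = 1 := hx'.2
          rw [hx2, md_top one_pos hom' hi, sig_left g hx'.1.1 hx'.1.2, ThrD.z,
            ((H.qa i hi).L x hx').1, add_sub_cancel_left, mul_div_cancel_left₀ _ hwi.ne']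
          have h0' : 0 ≤ (x.1 - ((D i).arc (om i)).p) / ((D i).arc (om i)).w :=
            div_nonneg (by linarith [hx'.1.1]) g.w0.le
          have h1' : (x.1 - ((D i).arc (om i)).p) / ((D i).arc (om i)).w ≤ 1 := by
            rw [div_le_iff₀ g.w0]; linarith [hx'.1.2]
          rw [cl1_eq_self (by linarith) (by linarith)]
          ring
        · have hx2 : x.2 = 1 := hx'.2
          rw [hx2, md_top one_pos hom' hi, sig_right g hx'.1.1 hx'.1.2, ThrD.z,
            ((H.qa i hi).R x hx').1, add_sub_cancel_left, mul_div_cancel_left₀ _ hwi.ne']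
          have h0' : 0 ≤ (((D i).arc (om i)).q - x.1) / ((D i).arc (om i)).w' :=
            div_nonneg (by linarith [hx'.1.2]) g.w0'.le
          have h1' : (((D i).arc (om i)).q - x.1) / ((D i).arc (om i)).w' ≤ 1 := by
            rw [div_le_iff₀ g.w0']; linarith [hx'.1.1]
          rw [cl1_eq_self (by linarith) (by linarith)]
          ring
      · exact fil_eq (Φ2.mapsTo hx.1) (hXd x hx.1) e1 hi h0
    · rw [((Φ2.mapsTo hx.1).2 i).2.2.2 (not_lt.1 hi), ((hXd x hx.1).2 i).2.2.2 (not_lt.1 hi)]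
  refine ⟨(Q.trans X).trans (Φ2.symm.trans Φ1), ?_, ?_⟩
  · intro x hx i
    have hv := hXd x hx
    have hu := Φ2.mapsTo_inv hv
    show (Φ1.toFun (Φ2.invFun (X.toFun (Q.toFun x)))).2 i = _
    rw [z1 _ hu i, ← z2 _ hu i, Φ2.right_inv hv, hX]
    rfl
  · intro x hx
    show (Φ1.toFun (Φ2.invFun (X.toFun (Q.toFun x)))).1 = _
    rw [← hbd x hx, Φ2.left_inv hx.1]
    exact b1 x hx

end P073.H761.Bs
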