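import Vale.Agent.P073.H761.SEnd7
import Vale.Agent.P073.H471.SoftTwo
import Vale.Agent.P073.H471.KillLast
import Vale.Agent.P073.H267.GeoPt
import Vale.Agent.P073.H142.PCone2

/-!
# P073, H761, [SHARP-END], part 8: the soft collapse on a plate ([SOFT-W])

`soft_loc`: at a point of the plate the soft collapse is controlled by the coordinates clamped to
the window; `soft_face`: the same for `Φ ∘ f` on a face.
-/

open Set Metric Topology Filter

namespace P073.H761.SE

open P073 P073.Net P073.PA691 P073.H236 P073.H579 P073.H345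
open Vale.Agent.P073.St (V)
open Vale.Agent.P073.H471 Vale.Agent.P073.H267

variable {Ω Λ : Set V} {v : V} {K : BoxCx Λ v} {S : Rad K} {W : Wid K S} {B : Boxes W}
  {G : Geo B} {s : K.S} {R : Fac K} {Φ : ConHomeo Λ Λ} {μ : ℝ}

/-- one-sided bound of the coordinate `j` -/
noncomputable def mx (G : Geo B) (s : K.S) (j : Fin 3) (y y' : V) : ℝ :=
  if j = K.nrm s then 0 else max 0 (cw (wlo G s) (whi G s) j y' - cw (wlo G s) (whi G s) j y)

/-- the sum of the tangential displacements -/
noncomputable def sd (G : Geo B) (s : K.S) (y y' : V) : ℝ :=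
  ∑ i ∈ Finset.univ.erase (K.nrm s), |cw (wlo G s) (whi G s) i y' - cw (wlo G s) (whi G s) i y|

theorem mx_nonneg (G : Geo B) (s : K.S) (j : Fin 3) (y y' : V) : 0 ≤ mx G s j y y' := by
  unfold mx
  split_ifs
  · exact le_rfl
  · exact le_max_left _ _

theorem sd_nonneg (G : Geo B) (s : K.S) (y y' : V) : 0 ≤ sd G s y y' :=
  Finset.sum_nonneg fun _ _ => abs_nonneg _

theorem sd_comm (G : Geo B) (s : K.S) (y y' : V) : sd G s y y' = sd G s y' y :=
  Finset.sum_congr rfl fun _ _ => abs_sub_comm _ _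

theorem term_le_sd (G : Geo B) (s : K.S) (y y' : V) {i : Fin 3} (hi : i ≠ K.nrm s) :
    |cw (wlo G s) (whi G s) i y' - cw (wlo G s) (whi G s) i y| ≤ sd G s y y' :=
  Finset.single_le_sum
    (f := fun i => |cw (wlo G s) (whi G s) i y' - cw (wlo G s) (whi G s) i y|)
    (fun _ _ => abs_nonneg _) (Finset.mem_erase.2 ⟨hi, Finset.mem_univ _⟩)

theorem mx_le (G : Geo B) (s : K.S) (j : Fin 3) (y y' : V) :
    mx G s j y y' ≤ if j = K.nrm s then 0 else
      |cw (wlo G s) (whi G s) j y' - cw (wlo G s) (whi G s) j y| := by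
  unfold mx
  split_ifs
  · exact le_rfl
  · exact max_le (abs_nonneg _) (le_abs_self _)

/-- in the window the clamp is the identity near the point -/
theorem cw_eventually {j : Fin 3} {y : V} (h1 : K.slo s j + G.a s < y j)
    (h2 : y j < K.shi s j - G.a s) :
    ∀ᶠ y' in 𝓝 y, cw (wlo G s) (whi G s) j y' = y' j := by
  have h3 : Tendsto (fun y' : V => y' j) (𝓝 y) (𝓝 (y j)) := (continuous_apply j).tendsto y
  filter_upwards [h3 (Ioo_mem_nhds h1 h2)] with y' hy'
  exact cl_of_mem ⟨hy'.1.le, hy'.2.le⟩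

/-- **[SOFT-W], at a point of the plate** -/
theorem soft_loc (H : IsSoft1 B μ R Φ) (hμ : 0 ≤ μ) {c : ℝ} (hc : 0 ≤ c) {y : V}
    (hy : y ∈ G.PB c s) (hn : |y (K.nrm s) - K.slo s (K.nrm s)| < B.τ s) {q : ℝ}
    (qs : y ∈ Zs W s → R.ρs s ≤ q) (qe : ∀ e, y ∈ Ze W e → R.ρe e ≤ q)
    (qv : ∀ i, y ∈ Zv W i → R.ρv i ≤ q) :
    ∀ᶠ y' in 𝓝 y, ∀ j,
      Φ.toFun y' j - Φ.toFun y j ≤ mx G s j y y' + μ * sd G s y y' + 7 * (q * ‖y' - y‖) ∧
      Φ.toFun y j - Φ.toFun y' j ≤ mx G s j y' y + μ * sd G s y y' + 7 * (q * ‖y' - y‖) := by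
  have ha := G.a_pos s
  have hau := G.a_u s
  rcases G.cover_pt hc hy hn with ⟨h1, -, h2⟩ | ⟨e, hes, h1, h0, h3, h4⟩ | ⟨e, -, h1⟩
  · -- the plate
    have hcw : ∀ᶠ y' in 𝓝 y, ∀ i, i ≠ K.nrm s → cw (wlo G s) (whi G s) i y' = y' i := by
      rw [eventually_all]
      intro i
      by_cases hi : i = K.nrm s
      · exact Eventually.of_forall fun y' h => absurd hi h
      · have h3 := h2 i hi
        filter_upwards [cw_eventually (G := G) (s := s) (j := i) (y := y) (by linarith)
          (by linarith)] with y' hy' _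
        exact hy'
    have hcy := hcw.self_of_nhds
    have hq := qs (interior_subset h1)
    filter_upwards [hcw, isOpen_interior.mem_nhds h1] with y' hcy' hy'
    have hL : ∀ k, k ≠ K.nrm s → |y' k - y k| ≤ sd G s y y' := by
      intro k hk
      rw [← hcy k hk, ← hcy' k hk]
      exact term_le_sd G s y y' hk
    have hm : ∀ j, (if j = K.nrm s then 0 else max 0 (y' j - y j)) = mx G s j y y' := by
      intro j
      unfold mx
      split_ifs with hj
      · rfl
      · rw [hcy j hj, hcy' j hj]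
    have hm' : ∀ j, (if j = K.nrm s then 0 else max 0 (y j - y' j)) = mx G s j y' y := by
      intro j
      unfold mx
      split_ifs with hj
      · rfl
      · rw [hcy j hj, hcy' j hj]
    have hn0 := norm_nonneg (y' - y)
    have hρ := R.s_pos s
    have h7 : 2 * (R.ρs s * ‖y' - y‖) ≤ 7 * (q * ‖y' - y‖) := by
      have : R.ρs s * ‖y' - y‖ ≤ q * ‖y' - y‖ := mul_le_mul_of_nonneg_right hq hn0
      have h8 : 0 ≤ R.ρs s * ‖y' - y‖ := by positivity
      linarith
    intro j
    constructor
    · have h5 := H.zs1 s y (interior_subset h1) y' (interior_subset hy') _ hL j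
      rw [hm j] at h5
      linarith
    · have h5 := H.zs1 s y' (interior_subset hy') y (interior_subset h1) _
        (fun k hk => by rw [abs_sub_comm]; exact hL k hk) j
      rw [hm' j, norm_sub_rev y y'] at h5
      linarith
  · -- a side
    have hd : K.dir e ≠ K.nrm s := (nrm_ne_dir hes).symm
    have hT := B.T_pos e
    have hEi : y ∈ interior (B.E e) :=
      mem_interior_iff_mem_nhds.2 (mem_of_superset (closedBall_mem_nhds _ (by positivity)) h0)
    have hcw := cw_eventually (G := G) (s := s) (j := K.dir e) (y := y) (by linarith)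
      (by linarith)
    have hcy := hcw.self_of_nhds
    have hq := qe e (interior_subset h1)
    filter_upwards [hcw, isOpen_interior.mem_nhds hEi] with y' hcy' hy'
    have hn0 := norm_nonneg (y' - y)
    have hL : |y' (K.dir e) - y (K.dir e)| ≤ sd G s y y' := by
      have := term_le_sd G s y y' hd
      rwa [hcy, hcy'] at this
    have h7 : 7 * (R.ρe e * ‖y' - y‖) ≤ 7 * (q * ‖y' - y‖) := by
      have : R.ρe e * ‖y' - y‖ ≤ q * ‖y' - y‖ := mul_le_mul_of_nonneg_right hq hn0
      linarith
    have h8 := mul_le_mul_of_nonneg_left hL hμ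
    intro j
    constructor
    · have h5 := H.ze1 e y (interior_subset hEi) y' (interior_subset hy') j
      have h6 : (if j = K.dir e then max 0 (y' j - y j) else 0) ≤ mx G s j y y' := by
        split_ifs with hj
        · subst hj
          unfold mx
          rw [if_neg hd, hcy, hcy']
        · exact mx_nonneg G s j y y'
      linarith
    · have h5 := H.ze1 e y' (interior_subset hy') y (interior_subset hEi) j
      have h6 : (if j = K.dir e then max 0 (y j - y' j) else 0) ≤ mx G s j y' y := by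
        split_ifs with hj
        · subst hj
          unfold mx
          rw [if_neg hd, hcy, hcy']
        · exact mx_nonneg G s j y' y
      rw [norm_sub_rev y y', abs_sub_comm (y (K.dir e))] at h5
      linarith
  · -- a vertex
    have key : ∀ i, y ∈ interior (Zv W i) → ∀ᶠ y' in 𝓝 y, ∀ j,
        Φ.toFun y' j - Φ.toFun y j ≤ mx G s j y y' + μ * sd G s y y' + 7 * (q * ‖y' - y‖) ∧
        Φ.toFun y j - Φ.toFun y' j ≤ mx G s j y' y + μ * sd G s y y' +
          7 * (q * ‖y' - y‖) := by
      intro i hi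
      have hq := qv i (interior_subset hi)
      filter_upwards [isOpen_interior.mem_nhds hi] with y' hy' j
      have hn0 := norm_nonneg (y' - y)
      have h5 := H.zv i y' (interior_subset hy') y (interior_subset hi) j
      have h6 := abs_le.1 h5
      have h7 : R.ρv i * ‖y' - y‖ ≤ q * ‖y' - y‖ := mul_le_mul_of_nonneg_right hq hn0
      have h8 : 0 ≤ R.ρv i * ‖y' - y‖ := mul_nonneg (R.v_pos i).le hn0
      have h9 := mx_nonneg G s j y y'
      have h10 := mx_nonneg G s j y' y
      have h11 := mul_nonneg hμ (sd_nonneg G s y y')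
      constructor <;> linarith
    rcases h1 with h1 | h1
    · exact key _ h1.1
    · exact key _ h1.1

/-- **[SOFT-W], on a face** -/
theorem soft_face (H : IsSoft1 B μ R Φ) (hμ : 0 ≤ μ) {α : Type*} {A : α → Set V} {N t : α → ℝ}
    {f : V → V} (HS : Small W R f A N t) {c : ℝ} (hc : 0 ≤ c) {k : α} {X : Set V}
    (hX : X ⊆ A k) (hf : ContinuousOn f X)
    (hpos : ∀ x ∈ X, f x ∈ G.PB c s ∧ |f x (K.nrm s) - K.slo s (K.nrm s)| < B.τ s)
    (ht : 0 ≤ t k) {x : V} (hx : x ∈ X) :
    ∀ᶠ x' in 𝓝[X] x, ∀ j,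
      Φ.toFun (f x') j - Φ.toFun (f x) j ≤
        mx G s j (f x) (f x') + μ * sd G s (f x) (f x') + t k * ‖x' - x‖ ∧
      Φ.toFun (f x) j - Φ.toFun (f x') j ≤
        mx G s j (f x') (f x) + μ * sd G s (f x) (f x') + t k * ‖x' - x‖ := by
  have hN := HS.pos k
  have hD : 0 ≤ diam (A k) := diam_nonneg
  have hND : 0 < N k * (1 + diam (A k)) := by positivity
  have him : ∀ {Z : Set V}, f x ∈ Z → (f '' A k ∩ Z).Nonempty := fun h =>
    ⟨f x, mem_image_of_mem _ (hX hx), h⟩
  have key := soft_loc (G := G) H hμ hc (hpos x hx).1 (hpos x hx).2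
    (q := t k / 7 / (N k * (1 + diam (A k))))
    (fun h => by rw [le_div_iff₀ hND]; exact HS.s k s (him h))
    (fun e h => by rw [le_div_iff₀ hND]; exact HS.e k e (him h))
    (fun i h => by rw [le_div_iff₀ hND]; exact HS.v k i (him h))
  filter_upwards [(hf x hx).tendsto key, self_mem_nhdsWithin] with x' h1 hx' j
  have h2 := HS.lip k x' (hX hx') x (hX hx)
  have h3 : 7 * (t k / 7 / (N k * (1 + diam (A k))) * ‖f x' - f x‖) ≤ t k * ‖x' - x‖ := by
    have h4 : t k / 7 / (N k * (1 + diam (A k))) * ‖f x' - f x‖ ≤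
        t k / 7 / (N k * (1 + diam (A k))) * (N k * ‖x' - x‖) :=
      mul_le_mul_of_nonneg_left h2 (by positivity)
    have h5 : t k / 7 / (N k * (1 + diam (A k))) * (N k * ‖x' - x‖) ≤
        t k / 7 * ‖x' - x‖ := by
      have h6 : t k / 7 / (N k * (1 + diam (A k))) * (N k * ‖x' - x‖) =
          t k / 7 * ‖x' - x‖ * (1 / (1 + diam (A k))) := by
        have : N k ≠ 0 := hN.ne'
        have : 1 + diam (A k) ≠ 0 := by positivity
        field_simp
      rw [h6]
      have h7 : 1 / (1 + diam (A k)) ≤ 1 := by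
        rw [div_le_one (by positivity)]; linarith
      exact mul_le_of_le_one_right (by positivity) h7
    linarith
  obtain ⟨h4, h5⟩ := h1 j
  constructor <;> linarith

end P073.H761.SE
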