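import Vale.Agent.P073.H237.SharpDefs

/-!
# P073, H761, BASE: collapse of finitely many bands of the line
-/

open Set Metric Topology Filter

namespace P073.H761.Bs

open P073.H31 P073.H237

/-- the part of the band `[Y, Y + w]` below `t` -/
noncomputable def ph (w Y t : ℝ) : ℝ := w * cl1 ((t - Y) / w)

variable {w Y t : ℝ}

theorem ph_zero (hw : 0 < w) (h : t ≤ Y) : ph w Y t = 0 := by
  rw [ph, cl1_eq_zero (div_nonpos_of_nonpos_of_nonneg (by linarith) hw.le), mul_zero]

theorem ph_full (hw : 0 < w) (h : Y + w ≤ t) : ph w Y t = w := by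
  rw [ph, cl1_eq_one (by rw [le_div_iff₀ hw]; linarith), mul_one]

theorem ph_mid (hw : 0 < w) (h : Y ≤ t) (h' : t ≤ Y + w) : ph w Y t = t - Y := by
  rw [ph, cl1_eq_self (div_nonneg (by linarith) hw.le) (by rw [div_le_iff₀ hw]; linarith),
    mul_div_cancel₀ _ hw.ne']

theorem ph_nonneg (hw : 0 < w) : 0 ≤ ph w Y t := mul_nonneg hw.le (cl1_nonneg _)

theorem ph_le (hw : 0 < w) : ph w Y t ≤ w := by
  have := mul_le_mul_of_nonneg_left (cl1_le_one ((t - Y) / w)) hw.le
  rwa [mul_one] at this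

theorem ph_lip (hw : 0 < w) {a b : ℝ} (hab : a ≤ b) : ph w Y b - ph w Y a ≤ b - a := by
  rcases le_total b Y with h1 | h1
  · rw [ph_zero hw h1, ph_zero hw (hab.trans h1)]; linarith
  · rcases le_total a Y with h2 | h2
    · rw [ph_zero hw h2]
      rcases le_total b (Y + w) with h3 | h3
      · rw [ph_mid hw h1 h3]; linarith
      · rw [ph_full hw h3]; linarith
    · rcases le_total b (Y + w) with h3 | h3
      · rw [ph_mid hw h1 h3, ph_mid hw h2 (hab.trans h3)]; linarith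
      · rw [ph_full hw h3]
        rcases le_total a (Y + w) with h4 | h4
        · rw [ph_mid hw h2 h4]; linarith
        · rw [ph_full hw h4]; linarith

theorem ph_lip' (hw : 0 < w) {a b : ℝ} (hab : a < b) (h : Y + w < b) :
    ph w Y b - ph w Y a < b - a := by
  rw [ph_full hw h.le]
  rcases le_total a Y with h2 | h2
  · rw [ph_zero hw h2]; linarith
  · rcases le_total a (Y + w) with h4 | h4
    · rw [ph_mid hw h2 h4]; linarith
    · rw [ph_full hw h4]; linarith

/-- separated bands -/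
structure Sep (w : ℝ) (s : Finset ℕ) (Y : ℕ → ℝ) : Prop where
  hw : 0 < w
  sep : ∀ i ∈ s, ∀ j ∈ s, i ≠ j → Y i + w < Y j ∨ Y j + w < Y i
  pos : ∀ i ∈ s, 0 < Y i
  one : ∀ i ∈ s, Y i + w < 1

theorem sum_aux (hw : 0 < w) (Y : ℕ → ℝ) (s : Finset ℕ) :
    (∀ i ∈ s, ∀ j ∈ s, i ≠ j → Y i + w < Y j ∨ Y j + w < Y i) → ∀ a b, a ≤ b →
    ∑ i ∈ s, (ph w (Y i) b - ph w (Y i) a) ≤ b - a ∧
      (a < b → (∀ i ∈ s, ¬ (Y i ≤ a ∧ b ≤ Y i + w)) →
        ∑ i ∈ s, (ph w (Y i) b - ph w (Y i) a) < b - a) := by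
  induction s using Finset.induction_on_max_value Y with
  | empty => intro _ a b hab; simp [hab]
  | insert j s hj hmax IH =>
    intro hs a b hab
    have ho : ∀ i ∈ s, Y i + w < Y j := by
      intro i hi
      have hne : i ≠ j := fun h => hj (h ▸ hi)
      rcases hs i (Finset.mem_insert_of_mem hi) j (Finset.mem_insert_self _ _) hne with h | h
      · exact h
      · have := hmax i hi
        linarith
    have IH' := IH fun i hi j hj => hs i (Finset.mem_insert_of_mem hi) j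
      (Finset.mem_insert_of_mem hj)
    rw [Finset.sum_insert hj]
    rcases le_total b (Y j) with h1 | h1
    · rw [ph_zero hw h1, ph_zero hw (hab.trans h1), sub_self, zero_add]
      obtain ⟨i1, i2⟩ := IH' a b hab
      exact ⟨i1, fun hlt hn => i2 hlt fun i hi => hn i (Finset.mem_insert_of_mem hi)⟩
    · rcases lt_or_ge a (Y j) with h2 | h2
      · have e : ∑ i ∈ s, (ph w (Y i) b - ph w (Y i) a) =
            ∑ i ∈ s, (ph w (Y i) (Y j) - ph w (Y i) a) :=
          Finset.sum_congr rfl fun i hi => by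
            rw [ph_full hw ((ho i hi).le.trans h1), ph_full hw (ho i hi).le]
        have e2 : ph w (Y j) b - ph w (Y j) (Y j) ≤ b - Y j := ph_lip hw h1
        rw [ph_zero hw le_rfl] at e2
        rw [e, ph_zero hw h2.le]
        obtain ⟨i1, i2⟩ := IH' a (Y j) h2.le
        have i3 := i2 h2 fun i hi h => absurd h.2 (not_le.2 (ho i hi))
        exact ⟨by linarith, fun _ _ => by linarith⟩
      · have e : ∑ i ∈ s, (ph w (Y i) b - ph w (Y i) a) = 0 :=
          Finset.sum_eq_zero fun i hi => by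
            rw [ph_full hw ((ho i hi).le.trans h1), ph_full hw ((ho i hi).le.trans h2), sub_self]
        rw [e, add_zero]
        refine ⟨ph_lip hw hab, fun hlt hn => ph_lip' hw hlt ?_⟩
        by_contra hc
        exact hn j (Finset.mem_insert_self _ _) ⟨h2, not_lt.1 hc⟩

/-- the collapse of the bands -/
noncomputable def th1 (w : ℝ) (s : Finset ℕ) (Y : ℕ → ℝ) (t : ℝ) : ℝ := t - ∑ i ∈ s, ph w (Y i) t

theorem PLc.finsum {E : Type*} [NormedAddCommGroup E] [NormedSpace ℝ E] {ι : Type*}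
    {f : ι → E → ℝ} (s : Finset ι) (hf : ∀ i, PLc (f i)) : PLc (fun x => ∑ i ∈ s, f i x) := by
  classical
  induction s using Finset.induction_on with
  | empty => simpa using PLc.const (E := E) (0:ℝ)
  | insert j s hj IH =>
    simp only [Finset.sum_insert hj]
    exact (hf j).add IH

theorem plc_ph (w Y : ℝ) : PLc (ph w Y) :=
  ((PLc.id.sub (PLc.const Y)).divc w).cl1.cmul w

theorem plc_th1 (w : ℝ) (s : Finset ℕ) (Y : ℕ → ℝ) : PLc (th1 w s Y) :=
  PLc.id.sub (PLc.finsum s fun i => plc_ph w (Y i))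

namespace Sep

variable {s : Finset ℕ} {Y : ℕ → ℝ} (H : Sep w s Y)

include H

theorem mono : Monotone (th1 w s Y) := by
  intro a b hab
  have := (sum_aux H.hw Y s H.sep a b hab).1
  rw [Finset.sum_sub_distrib] at this
  unfold th1
  linarith

theorem lt {a b : ℝ} (hab : a < b) (h : ∀ i ∈ s, ¬ (Y i ≤ a ∧ b ≤ Y i + w)) :
    th1 w s Y a < th1 w s Y b := by
  have := (sum_aux H.hw Y s H.sep a b hab.le).2 hab h
  rw [Finset.sum_sub_distrib] at this
  unfold th1
  linarith

theorem not_two {i j : ℕ} (hi : i ∈ s) (hj : j ∈ s) {t : ℝ} (h1 : Y i ≤ t) (h2 : t ≤ Y i + w)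
    (h3 : Y j ≤ t) (h4 : t ≤ Y j + w) : i = j := by
  by_contra hne
  rcases H.sep i hi j hj hne with h | h <;> linarith

theorem band {i : ℕ} (hi : i ∈ s) {t : ℝ} (h1 : Y i ≤ t) (h2 : t ≤ Y i + w) :
    th1 w s Y t = th1 w s Y (Y i) := by
  have hw := H.hw
  have e : ∑ j ∈ s, (ph w (Y j) t - ph w (Y j) (Y i)) = t - Y i := by
    rw [Finset.sum_eq_single_of_mem i hi]
    · rw [ph_mid hw h1 h2, ph_zero hw le_rfl, sub_zero]
    · intro j hj hne
      rcases H.sep i hi j hj hne.symm with h | h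
      · rw [ph_zero hw (by linarith), ph_zero hw (by linarith), sub_self]
      · rw [ph_full hw (by linarith), ph_full hw (by linarith), sub_self]
  rw [Finset.sum_sub_distrib] at e
  unfold th1
  linarith

theorem lt_iff {i : ℕ} (hi : i ∈ s) {t : ℝ} : th1 w s Y t < th1 w s Y (Y i) ↔ t < Y i := by
  constructor
  · intro h
    by_contra hc
    exact absurd (H.mono (not_lt.1 hc)) (not_le.2 h)
  · intro h
    refine H.lt h fun j hj hb => ?_
    by_cases hne : i = j
    · subst hne; linarith [hb.1]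
    · rcases H.sep i hi j hj hne with h' | h'
      · have := H.hw; linarith [hb.1]
      · linarith [hb.2]

theorem gt_iff {i : ℕ} (hi : i ∈ s) {t : ℝ} : th1 w s Y (Y i) < th1 w s Y t ↔ Y i + w < t := by
  have hw := H.hw
  constructor
  · intro h
    by_contra hc
    have h1 := not_lt.1 hc
    have h2 := H.mono h1
    rw [H.band hi (by linarith) le_rfl] at h2
    linarith
  · intro h
    rw [← H.band hi (t := Y i + w) (by linarith) le_rfl]
    refine H.lt h fun j hj hb => ?_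
    by_cases hne : i = j
    · subst hne; linarith [hb.2]
    · rcases H.sep i hi j hj hne with h' | h'
      · linarith [hb.1]
      · linarith [hb.2]

theorem eq_iff {i : ℕ} (hi : i ∈ s) {t : ℝ} :
    th1 w s Y t = th1 w s Y (Y i) ↔ Y i ≤ t ∧ t ≤ Y i + w := by
  constructor
  · intro h
    constructor
    · by_contra hc
      exact ((H.lt_iff hi).2 (not_le.1 hc)).ne h
    · by_contra hc
      exact ((H.gt_iff hi).2 (not_le.1 hc)).ne h.symm
  · rintro ⟨h1, h2⟩
    exact H.band hi h1 h2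

theorem inj {a b : ℝ} (h : th1 w s Y a = th1 w s Y b) :
    a = b ∨ ∃ i ∈ s, (Y i ≤ a ∧ a ≤ Y i + w) ∧ (Y i ≤ b ∧ b ≤ Y i + w) := by
  by_contra hc
  push Not at hc
  obtain ⟨h1, h2⟩ := hc
  rcases lt_or_gt_of_ne h1 with h3 | h3
  · refine (H.lt h3 fun i hi hb => ?_).ne h
    have := h2 i hi ⟨hb.1, h3.le.trans hb.2⟩ (hb.1.trans h3.le)
    linarith [hb.2]
  · refine (H.lt h3 fun i hi hb => ?_).ne h.symm
    have := h2 i hi ⟨hb.1.trans h3.le, hb.2⟩ hb.1
    linarith [hb.2]

theorem zero : th1 w s Y 0 = 0 := by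
  unfold th1
  rw [Finset.sum_eq_zero fun i hi => ph_zero H.hw (H.pos i hi).le, sub_zero]

theorem one' : 0 < th1 w s Y 1 := by
  rw [← H.zero]
  exact H.lt one_pos fun i hi hb => absurd (H.pos i hi) (not_lt.2 hb.1)

theorem cpos {i : ℕ} (hi : i ∈ s) : 0 < th1 w s Y (Y i) := by
  rw [← H.zero]
  exact (H.lt_iff hi).2 (H.pos i hi)

theorem clt {i : ℕ} (hi : i ∈ s) : th1 w s Y (Y i) < th1 w s Y 1 :=
  (H.gt_iff hi).2 (H.one i hi)

theorem cne {i j : ℕ} (hi : i ∈ s) (hj : j ∈ s) (hne : i ≠ j) :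
    th1 w s Y (Y i) ≠ th1 w s Y (Y j) := by
  intro h
  have hw := H.hw
  have := (H.eq_iff hj).1 h
  rcases H.sep i hi j hj hne with h' | h' <;> linarith [this.1, this.2]

theorem mem {t : ℝ} (ht : t ∈ Icc (0:ℝ) 1) : th1 w s Y t ∈ Icc 0 (th1 w s Y 1) := by
  constructor
  · rw [← H.zero]; exact H.mono ht.1
  · exact H.mono ht.2

theorem surj {x : ℝ} (hx : x ∈ Icc 0 (th1 w s Y 1)) : ∃ t ∈ Icc (0:ℝ) 1, th1 w s Y t = x := by
  have h1 := intermediate_value_Icc (α := ℝ) zero_le_one ((plc_th1 w s Y).c.continuousOn)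
  rw [H.zero] at h1
  exact h1 hx

/-- **the inverse** -/
theorem inv {x : ℝ} (hx : x ∈ Icc 0 (th1 w s Y 1)) {z : ℕ → ℝ} (hz : ∀ i ∈ s, 0 ≤ z i ∧ z i ≤ 1)
    (h0 : ∀ i ∈ s, th1 w s Y (Y i) < x → z i = 0) (h1 : ∀ i ∈ s, x < th1 w s Y (Y i) → z i = 1) :
    x + ∑ i ∈ s, w * (1 - z i) ∈ Icc (0:ℝ) 1 ∧ th1 w s Y (x + ∑ i ∈ s, w * (1 - z i)) = x ∧
      ∀ i ∈ s, 1 - cl1 ((x + ∑ i ∈ s, w * (1 - z i) - Y i) / w) = z i := by
  have hw := H.hw
  have key : ∃ t ∈ Icc (0:ℝ) 1, th1 w s Y t = x ∧ ∀ i ∈ s, 1 - cl1 ((t - Y i) / w) = z i := by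
    have off : ∀ t, th1 w s Y t = x → ∀ i ∈ s, th1 w s Y (Y i) ≠ x →
        1 - cl1 ((t - Y i) / w) = z i := by
      intro t ht i hi hne
      rcases lt_or_gt_of_ne hne with h | h
      · rw [h0 i hi h]
        rw [← ht, H.gt_iff hi] at h
        rw [cl1_eq_one (by rw [le_div_iff₀ hw]; linarith), sub_self]
      · rw [h1 i hi h]
        rw [← ht] at h
        have h := (H.lt_iff hi).1 h
        rw [cl1_eq_zero (div_nonpos_of_nonpos_of_nonneg (by linarith) hw.le), sub_zero]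
    by_cases hc : ∃ i ∈ s, th1 w s Y (Y i) = x
    · obtain ⟨i, hi, hix⟩ := hc
      obtain ⟨z0, z1⟩ := hz i hi
      have b1 : Y i ≤ Y i + w * (1 - z i) := by nlinarith
      have b2 : Y i + w * (1 - z i) ≤ Y i + w := by nlinarith
      have ht : th1 w s Y (Y i + w * (1 - z i)) = x := by
        rw [H.band hi b1 b2, hix]
      refine ⟨Y i + w * (1 - z i), ⟨?_, ?_⟩, ht, ?_⟩
      · linarith [H.pos i hi]
      · linarith [H.one i hi]
      · intro j hj
        by_cases hij : i = j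
        · subst hij
          rw [add_sub_cancel_left, mul_div_cancel_left₀ _ hw.ne',
            cl1_eq_self (by linarith) (by linarith)]
          ring
        · exact off _ ht j hj fun h => H.cne hi hj hij (hix.trans h.symm)
    · push Not at hc
      obtain ⟨t, ht, htx⟩ := H.surj hx
      exact ⟨t, ht, htx, fun i hi => off t htx i hi (hc i hi)⟩
  obtain ⟨t, ht, htx, htz⟩ := key
  have e : x + ∑ i ∈ s, w * (1 - z i) = t := by
    have e1 : ∑ i ∈ s, w * (1 - z i) = ∑ i ∈ s, ph w (Y i) t :=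
      Finset.sum_congr rfl fun i hi => by rw [← htz i hi, sub_sub_cancel, ph]
    rw [e1, ← htx, th1]
    ring
  rw [e]
  exact ⟨ht, htx, htz⟩

end Sep

end P073.H761.Bs
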