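import Vale.Agent.P073.H761.Bs1

/-!
# P073, H761, BASE: the explicit thin model and its thick drawing
-/

open Set Metric Topology Filter

namespace P073.H761.Bs

open P073.H31 P073.H237 P073.H339 P073.GB200 P073.H341

variable (w : Bool → ℝ) (k : ℕ) (D : ℕ → ThrD)

/-- arcs of a type -/
def sd (d : Bool) : Finset ℕ := (Finset.range k).filter fun i => (D i).d = d

/-- one-dimensional collapse -/
noncomputable def TH (d : Bool) (t : ℝ) : ℝ := th1 (w d) (sd k D d) (fun i => (D i).Y) t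

/-- the collapse of the square -/
noncomputable def Th (x : ℝ × ℝ) : ℝ × ℝ := (TH w k D false x.1, TH w k D true x.2)

/-- the model rectangle -/
noncomputable def CM : Set (ℝ × ℝ) := rect 0 (TH w k D false 1) 0 (TH w k D true 1)

/-- its boundary -/
noncomputable def BM : Set (ℝ × ℝ) := brect 0 (TH w k D false 1) 0 (TH w k D true 1)

/-- the functions of the straight arcs -/
noncomputable def fM (i : ℕ) (x : ℝ × ℝ) : ℝ := TH w k D (D i).d (D i).Y - crd (D i).d x

theorem crd_Th (d : Bool) (x : ℝ × ℝ) : crd d (Th w k D x) = TH w k D d (crd d x) := by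
  cases d <;> rfl

theorem plc_crd (d : Bool) : PLc (crd d) := by
  cases d
  · exact PLc.id.fst
  · exact PLc.id.snd

theorem plc_TH (d : Bool) : PLc (TH w k D d) := plc_th1 _ _ _

theorem plc_Th : PLc (Th w k D) :=
  ((plc_TH w k D false).comp PLc.id.fst).prodMk ((plc_TH w k D true).comp PLc.id.snd)

theorem plc_fM (i : ℕ) : PLc (fM w k D i) := (PLc.const _).sub (plc_crd _)

theorem crd_ext {x y : ℝ × ℝ} (h : ∀ d, crd d x = crd d y) : x = y := Prod.ext (h false) (h true)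

theorem mem_CM {x : ℝ × ℝ} : x ∈ CM w k D ↔ ∀ d, crd d x ∈ Icc 0 (TH w k D d 1) := by
  constructor
  · rintro ⟨h1, h2⟩ d
    cases d
    · exact h1
    · exact h2
  · intro h
    exact ⟨h false, h true⟩

theorem mem_Rct {x : ℝ × ℝ} : x ∈ Rct ↔ ∀ d, crd d x ∈ Icc (0:ℝ) 1 := by
  constructor
  · rintro ⟨h1, h2⟩ d
    cases d
    · exact h1
    · exact h2
  · intro h
    exact ⟨h false, h true⟩

theorem mem_bR {x : ℝ × ℝ} : x ∈ bR ↔ x ∈ Rct ∧ ∃ d, crd d x = 0 ∨ crd d x = 1 := by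
  constructor
  · rintro ⟨h, h1 | h1 | h1 | h1⟩
    · exact ⟨h, false, Or.inl h1⟩
    · exact ⟨h, false, Or.inr h1⟩
    · exact ⟨h, true, Or.inl h1⟩
    · exact ⟨h, true, Or.inr h1⟩
  · rintro ⟨h, d, h1⟩
    refine ⟨h, ?_⟩
    cases d
    · rcases h1 with h1 | h1
      · exact Or.inl h1
      · exact Or.inr (Or.inl h1)
    · rcases h1 with h1 | h1
      · exact Or.inr (Or.inr (Or.inl h1))
      · exact Or.inr (Or.inr (Or.inr h1))

theorem mem_BM {x : ℝ × ℝ} : x ∈ BM w k D ↔ x ∈ CM w k D ∧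
    ∃ d, crd d x = 0 ∨ crd d x = TH w k D d 1 := by
  constructor
  · rintro ⟨h, h1 | h1 | h1 | h1⟩
    · exact ⟨h, false, Or.inl h1⟩
    · exact ⟨h, false, Or.inr h1⟩
    · exact ⟨h, true, Or.inl h1⟩
    · exact ⟨h, true, Or.inr h1⟩
  · rintro ⟨h, d, h1⟩
    refine ⟨h, ?_⟩
    cases d
    · rcases h1 with h1 | h1
      · exact Or.inl h1
      · exact Or.inr (Or.inl h1)
    · rcases h1 with h1 | h1
      · exact Or.inr (Or.inr (Or.inl h1))
      · exact Or.inr (Or.inr (Or.inr h1))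

variable {w k D}

theorem mem_sd {i : ℕ} (hi : i < k) : i ∈ sd k D (D i).d :=
  Finset.mem_filter.2 ⟨Finset.mem_range.2 hi, rfl⟩

/-- the hypotheses of the model -/
def Sp (w : Bool → ℝ) (k : ℕ) (D : ℕ → ThrD) : Prop :=
  ∀ d, Sep (w d) (sd k D d) (fun i => (D i).Y)

variable (w k D)

/-- the thick drawing of the model -/
noncomputable def XiF (N : ℕ) (y : ℝ × ℝ) : (ℝ × ℝ) × (Fin N → ℝ) :=
  (Th w k D y, fun i => if (i : ℕ) < k then (D i).z (w (D i).d) y else 0)

/-- sum of the bands -/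
noncomputable def XiS (N : ℕ) (d : Bool) (z : Fin N → ℝ) : ℝ :=
  ∑ i : Fin N, if (i : ℕ) < k ∧ (D i).d = d then w d * (1 - z i) else 0

/-- its inverse -/
noncomputable def XiG (N : ℕ) (v : (ℝ × ℝ) × (Fin N → ℝ)) : ℝ × ℝ :=
  (v.1.1 + XiS w k D N false v.2, v.1.2 + XiS w k D N true v.2)

theorem crd_XiG (N : ℕ) (d : Bool) (v : (ℝ × ℝ) × (Fin N → ℝ)) :
    crd d (XiG w k D N v) = crd d v.1 + XiS w k D N d v.2 := by cases d <;> rfl

theorem XiS_eq {N : ℕ} (hkN : k ≤ N) (d : Bool) (z : Fin N → ℝ) (zz : ℕ → ℝ)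
    (h : ∀ i : Fin N, (i : ℕ) < k → zz i = z i) :
    XiS w k D N d z = ∑ i ∈ sd k D d, w d * (1 - zz i) := by
  have e1 : XiS w k D N d z =
      ∑ i : Fin N, if (i : ℕ) < k ∧ (D i).d = d then w d * (1 - zz i) else 0 := by
    refine Finset.sum_congr rfl fun i _ => ?_
    split_ifs with h1
    · rw [h i h1.1]
    · rfl
  rw [e1, ← Finset.sum_range (fun i => if i < k ∧ (D i).d = d then w d * (1 - zz i) else 0),
    ← Finset.sum_filter]
  refine Finset.sum_congr ?_ fun _ _ => rfl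
  ext i
  simp only [sd, Finset.mem_filter, Finset.mem_range]
  constructor
  · rintro ⟨_, h2, h3⟩; exact ⟨h2, h3⟩
  · rintro ⟨h2, h3⟩; exact ⟨by omega, h2, h3⟩

theorem plc_z (i : ℕ) : PLc ((D i).z (w (D i).d)) :=
  (PLc.const 1).sub (((plc_crd (D i).d).sub (PLc.const (D i).Y)).divc (w (D i).d)).cl1

theorem plc_XiF (N : ℕ) : PLc (XiF w k D N) := by
  refine (plc_Th w k D).prodMk (PLc.pi fun i => ?_)
  by_cases hi : (i : ℕ) < k
  · simp only [if_pos hi]
    exact plc_z w D i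
  · simp only [if_neg hi]
    exact PLc.const 0

theorem plc_XiS (N : ℕ) (d : Bool) :
    PLc (fun v : (ℝ × ℝ) × (Fin N → ℝ) => XiS w k D N d v.2) := by
  refine PLc.finsum Finset.univ fun i => ?_
  by_cases hi : (i : ℕ) < k ∧ (D i).d = d
  · simp only [if_pos hi]
    refine PLc.cmul _ ((PLc.const 1).sub ?_)
    exact ⟨(continuous_apply i).comp continuous_snd,
      (PLc.id.snd (F := ℝ × ℝ) (G := Fin N → ℝ)).k.linear_comp (LinearMap.proj (R := ℝ)
        (φ := fun _ : Fin N => ℝ) i)⟩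
  · simp only [if_neg hi]
    exact PLc.const 0

theorem plc_XiG (N : ℕ) : PLc (XiG w k D N) :=
  (PLc.id.fst.fst.add (plc_XiS w k D N false)).prodMk (PLc.id.fst.snd.add (plc_XiS w k D N true))

variable {w k D}

theorem z_nonneg (D : ThrD) (w : ℝ) (y : ℝ × ℝ) : 0 ≤ D.z w y := by
  have := cl1_le_one ((crd D.d y - D.Y) / w)
  unfold ThrD.z; linarith

theorem z_le_one (D : ThrD) (w : ℝ) (y : ℝ × ℝ) : D.z w y ≤ 1 := by
  have := cl1_nonneg ((crd D.d y - D.Y) / w)
  unfold ThrD.z; linarith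

namespace Sp

variable (H : Sp w k D)
include H

theorem TH0 (d : Bool) : TH w k D d 0 = 0 := (H d).zero

theorem TH1 (d : Bool) : 0 < TH w k D d 1 := (H d).one'

theorem fM_neg {i : ℕ} (hi : i < k) {y : ℝ × ℝ} :
    fM w k D i (Th w k D y) < 0 ↔ (D i).Y + w (D i).d < crd (D i).d y := by
  unfold fM
  rw [crd_Th, sub_neg]
  exact (H (D i).d).gt_iff (mem_sd hi)

theorem fM_pos {i : ℕ} (hi : i < k) {y : ℝ × ℝ} :
    0 < fM w k D i (Th w k D y) ↔ crd (D i).d y < (D i).Y := by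
  unfold fM
  rw [crd_Th, sub_pos]
  exact (H (D i).d).lt_iff (mem_sd hi)

theorem Th_mem {y : ℝ × ℝ} (hy : y ∈ Rct) : Th w k D y ∈ CM w k D := by
  rw [mem_CM]
  intro d
  rw [crd_Th]
  exact (H d).mem (mem_Rct.1 hy d)

theorem maps (N : ℕ) : MapsTo (XiF w k D N) Rct (Fil N k (CM w k D) (fM w k D)) := by
  intro y hy
  refine ⟨H.Th_mem hy, fun i => ?_⟩
  show (0 ≤ (if (i : ℕ) < k then (D i).z (w (D i).d) y else 0) ∧
    (if (i : ℕ) < k then (D i).z (w (D i).d) y else 0) ≤ 1) ∧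
    ((i : ℕ) < k → fM w k D i (Th w k D y) < 0 →
      (if (i : ℕ) < k then (D i).z (w (D i).d) y else 0) = 0) ∧
    ((i : ℕ) < k → 0 < fM w k D i (Th w k D y) →
      (if (i : ℕ) < k then (D i).z (w (D i).d) y else 0) = 1) ∧
    (k ≤ i → (if (i : ℕ) < k then (D i).z (w (D i).d) y else 0) = 0)
  by_cases hi : (i : ℕ) < k
  · have hw := (H (D i).d).hw
    simp only [if_pos hi]
    refine ⟨⟨z_nonneg _ _ _, z_le_one _ _ _⟩, fun _ h => ?_, fun _ h => ?_, fun h => by omega⟩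
    · rw [H.fM_neg hi] at h
      rw [ThrD.z, cl1_eq_one (by rw [le_div_iff₀ hw]; linarith), sub_self]
    · rw [H.fM_pos hi] at h
      rw [ThrD.z, cl1_eq_zero (div_nonpos_of_nonpos_of_nonneg (by linarith) hw.le), sub_zero]
  · simp only [if_neg hi]
    exact ⟨⟨le_rfl, zero_le_one⟩, fun h => absurd h hi, fun h => absurd h hi, fun _ => trivial⟩

theorem invv {N : ℕ} (hkN : k ≤ N) {v : (ℝ × ℝ) × (Fin N → ℝ)}
    (hv : v ∈ Fil N k (CM w k D) (fM w k D)) :
    (∀ d, crd d (XiG w k D N v) ∈ Icc (0:ℝ) 1) ∧ Th w k D (XiG w k D N v) = v.1 ∧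
      ∀ i : Fin N, (i : ℕ) < k → (D i).z (w (D i).d) (XiG w k D N v) = v.2 i := by
  set zz : ℕ → ℝ := fun i => if h : i < N then v.2 ⟨i, h⟩ else 0 with hzz
  have hz : ∀ i : Fin N, zz i = v.2 i := fun i => by rw [hzz]; simp only [i.2, dif_pos]
  have key : ∀ d, crd d (XiG w k D N v) ∈ Icc (0:ℝ) 1 ∧
      TH w k D d (crd d (XiG w k D N v)) = crd d v.1 ∧
      ∀ i ∈ sd k D d, 1 - cl1 ((crd d (XiG w k D N v) - (D i).Y) / w d) = zz i := by
    intro d
    have hx : crd d v.1 ∈ Icc 0 (TH w k D d 1) := (mem_CM w k D).1 hv.1 d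
    rw [crd_XiG, XiS_eq w k D hkN d v.2 zz fun i _ => hz i]
    refine (H d).inv hx ?_ ?_ ?_
    · intro i hi
      have hik : i < k := Finset.mem_range.1 (Finset.mem_filter.1 hi).1
      have := (hv.2 ⟨i, by omega⟩).1
      rwa [← hz] at this
    · intro i hi hlt
      have hik : i < k := Finset.mem_range.1 (Finset.mem_filter.1 hi).1
      have hid : (D i).d = d := (Finset.mem_filter.1 hi).2
      have := (hv.2 ⟨i, by omega⟩).2.1 hik (by
        show fM w k D i v.1 < 0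
        unfold fM
        rw [hid, sub_neg]; exact hlt)
      rwa [← hz] at this
    · intro i hi hlt
      have hik : i < k := Finset.mem_range.1 (Finset.mem_filter.1 hi).1
      have hid : (D i).d = d := (Finset.mem_filter.1 hi).2
      have := (hv.2 ⟨i, by omega⟩).2.2.1 hik (by
        show 0 < fM w k D i v.1
        unfold fM
        rw [hid, sub_pos]; exact hlt)
      rwa [← hz] at this
  refine ⟨fun d => (key d).1, crd_ext fun d => ?_, fun i hi => ?_⟩
  · rw [crd_Th]; exact (key d).2.1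
  · have := (key (D i).d).2.2 i (mem_sd hi)
    rw [hz i] at this
    exact this

/-- the thick drawing of the model -/
theorem exists_Xi {N : ℕ} (hkN : k ≤ N) : ∃ Φ : ConHomeo Rct (Fil N k (CM w k D) (fM w k D)),
    Φ.toFun = XiF w k D N := by
  refine ⟨mkCon (plc_XiF w k D N) (plc_XiG w k D N) conBall_Rct.conicalSet (H.maps N)
    (fun v hv => mem_Rct.2 (H.invv hkN hv).1) ?_ ?_, rfl⟩
  · intro y _
    refine crd_ext fun d => ?_
    rw [crd_XiG]
    have e : XiS w k D N d (XiF w k D N y).2 = ∑ i ∈ sd k D d,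
        w d * (1 - (D i).z (w (D i).d) y) := by
      refine XiS_eq w k D hkN d _ _ fun i hi => ?_
      show _ = if (i : ℕ) < k then (D i).z (w (D i).d) y else 0
      rw [if_pos hi]
    rw [e]
    show crd d (Th w k D y) + _ = _
    rw [crd_Th]
    have e2 : ∑ i ∈ sd k D d, w d * (1 - (D i).z (w (D i).d) y) =
        ∑ i ∈ sd k D d, ph (w d) (D i).Y (crd d y) := by
      refine Finset.sum_congr rfl fun i hi => ?_
      have hid : (D i).d = d := (Finset.mem_filter.1 hi).2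
      rw [ThrD.z, sub_sub_cancel, ph, hid]
    rw [e2, TH, th1]
    ring
  · intro v hv
    obtain ⟨_, h2, h3⟩ := H.invv hkN hv
    refine Prod.ext h2 (funext fun i => ?_)
    show (if (i : ℕ) < k then (D i).z (w (D i).d) (XiG w k D N v) else 0) = v.2 i
    split_ifs with hi
    · exact h3 i hi
    · exact ((hv.2 i).2.2.2 (not_lt.1 hi)).symm

theorem hC : ConBall 2 (CM w k D) (BM w k D) := conBall_rect (H.TH1 false) (H.TH1 true)

theorem Th_bR : Th w k D '' bR = BM w k D := by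
  ext x
  constructor
  · rintro ⟨y, hy, rfl⟩
    rw [mem_bR] at hy
    obtain ⟨hy, d, h⟩ := hy
    refine (mem_BM w k D).2 ⟨H.Th_mem hy, d, ?_⟩
    rw [crd_Th]
    rcases h with h | h
    · left; rw [h, H.TH0]
    · right; rw [h]
  · intro hx
    obtain ⟨hx, d, h⟩ := (mem_BM w k D).1 hx
    have hs : ∀ d', ∃ t ∈ Icc (0:ℝ) 1, TH w k D d' t = crd d' x ∧ (d' = d → t = 0 ∨ t = 1) := by
      intro d'
      by_cases hd : d' = d
      · subst hd
        rcases h with h | h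
        · exact ⟨0, ⟨le_rfl, zero_le_one⟩, by rw [H.TH0, h], fun _ => Or.inl rfl⟩
        · exact ⟨1, ⟨zero_le_one, le_rfl⟩, by rw [h], fun _ => Or.inr rfl⟩
      · obtain ⟨t, ht, htx⟩ := (H d').surj ((mem_CM w k D).1 hx d')
        exact ⟨t, ht, htx, fun h => absurd h hd⟩
    choose t ht htx htd using hs
    have hc : ∀ d', crd d' ((t false, t true) : ℝ × ℝ) = t d' := fun d' => by cases d' <;> rfl
    refine ⟨(t false, t true), mem_bR.2 ⟨mem_Rct.2 fun d' => ?_, d, ?_⟩, crd_ext fun d' => ?_⟩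
    · rw [hc]; exact ht d'
    · rw [hc]; exact htd d rfl
    · rw [crd_Th, hc]; exact htx d'

theorem hS {i : ℕ} (hi : i < k) : ConBall 1 (Sa (CM w k D) (fM w k D) i)
    (Sa (CM w k D) (fM w k D) i ∩ BM w k D) := by
  have c0 : 0 < TH w k D (D i).d (D i).Y := (H (D i).d).cpos (mem_sd hi)
  have c1 : TH w k D (D i).d (D i).Y < TH w k D (D i).d 1 := (H (D i).d).clt (mem_sd hi)
  set c := TH w k D (D i).d (D i).Y with hc
  have l0 := H.TH1 false
  have l1 := H.TH1 true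
  have mS : ∀ x, x ∈ Sa (CM w k D) (fM w k D) i ↔ x ∈ CM w k D ∧ crd (D i).d x = c := by
    intro x
    unfold Sa fM
    rw [mem_ofPred_eq, sub_eq_zero, ← hc, eq_comm (a := c)]
  rcases hd : (D i).d with _ | _
  · rw [hd] at c1 mS
    have e1 : Sa (CM w k D) (fM w k D) i = segment ℝ ((c, 0) : ℝ × ℝ) (c, TH w k D true 1) := by
      ext ⟨x, y⟩
      rw [mS, mem_vseg l1.le]
      constructor
      · rintro ⟨h1, h2⟩; exact ⟨h2, h1.2.1, h1.2.2⟩
      · rintro ⟨h1, h2, h3⟩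
        have h1' : x = c := h1
        exact ⟨⟨⟨by show 0 ≤ x; linarith, by show x ≤ _; linarith⟩, h2, h3⟩, h1⟩
    have e2 : Sa (CM w k D) (fM w k D) i ∩ BM w k D =
        {((c, 0) : ℝ × ℝ), ((c, TH w k D true 1) : ℝ × ℝ)} := by
      ext ⟨x, y⟩
      constructor
      · rintro ⟨h1, h2⟩
        have h1' : x = c := ((mS _).1 h1).2
        rcases h2.2 with h | h | h | h
        · have h' : x = 0 := h
          exact absurd (h1'.symm.trans h') c0.ne'
        · have h' : x = TH w k D false 1 := h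
          exact absurd (h1'.symm.trans h') c1.ne
        · left; exact Prod.ext h1' h
        · right; exact Prod.ext h1' h
      · rintro (h | h)
        · rw [h]
          have m : ((c, 0) : ℝ × ℝ) ∈ CM w k D := ⟨⟨c0.le, c1.le⟩, le_rfl, l1.le⟩
          exact ⟨(mS _).2 ⟨m, rfl⟩, m, Or.inr (Or.inr (Or.inl rfl))⟩
        · rw [mem_singleton_iff.1 h]
          have m : ((c, TH w k D true 1) : ℝ × ℝ) ∈ CM w k D := ⟨⟨c0.le, c1.le⟩, l1.le, le_rfl⟩
          exact ⟨(mS _).2 ⟨m, rfl⟩, m, Or.inr (Or.inr (Or.inr rfl))⟩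
    rw [e2, e1]
    refine isArc_iff_conBall.1 (isArc_segment fun h => ?_)
    have h2 : (0:ℝ) = TH w k D true 1 := congrArg Prod.snd h
    exact l1.ne h2
  · rw [hd] at c1 mS
    have e1 : Sa (CM w k D) (fM w k D) i = segment ℝ ((0, c) : ℝ × ℝ) (TH w k D false 1, c) := by
      ext ⟨x, y⟩
      rw [mS, mem_hseg l0.le]
      constructor
      · rintro ⟨h1, h2⟩; exact ⟨h1.1.1, h1.1.2, h2⟩
      · rintro ⟨h1, h2, h3⟩
        have h3' : y = c := h3
        exact ⟨⟨⟨h1, h2⟩, by show 0 ≤ y; linarith, by show y ≤ _; linarith⟩, h3⟩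
    have e2 : Sa (CM w k D) (fM w k D) i ∩ BM w k D =
        {((0, c) : ℝ × ℝ), ((TH w k D false 1, c) : ℝ × ℝ)} := by
      ext ⟨x, y⟩
      constructor
      · rintro ⟨h1, h2⟩
        have h1' : y = c := ((mS _).1 h1).2
        rcases h2.2 with h | h | h | h
        · left; exact Prod.ext h h1'
        · right; exact Prod.ext h h1'
        · have h' : y = 0 := h
          exact absurd (h1'.symm.trans h') c0.ne'
        · have h' : y = TH w k D true 1 := h
          exact absurd (h1'.symm.trans h') c1.ne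
      · rintro (h | h)
        · rw [h]
          have m : ((0, c) : ℝ × ℝ) ∈ CM w k D := ⟨⟨le_rfl, l0.le⟩, c0.le, c1.le⟩
          exact ⟨(mS _).2 ⟨m, rfl⟩, m, Or.inl rfl⟩
        · rw [mem_singleton_iff.1 h]
          have m : ((TH w k D false 1, c) : ℝ × ℝ) ∈ CM w k D := ⟨⟨l0.le, le_rfl⟩, c0.le, c1.le⟩
          exact ⟨(mS _).2 ⟨m, rfl⟩, m, Or.inr (Or.inl rfl)⟩
    rw [e2, e1]
    refine isArc_iff_conBall.1 (isArc_segment fun h => ?_)
    have h2 : (0:ℝ) = TH w k D false 1 := congrArg Prod.fst h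
    exact l0.ne h2

end Sp

end P073.H761.Bs
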