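import Vale.Agent.P073.H761.Bs2

/-!
# P073, H761, BASE: the boundary values of the model in the chart
-/

open Set Metric Topology Filter

namespace P073.H761.Bs

open P073.H31 P073.H237 P073.H339 P073.GB200 P073.H341

theorem ed_mem (e : Fin 4) {t : ℝ} (ht : t ∈ Icc (0:ℝ) 1) : ed e t ∈ Rct := by
  have h0 : (0:ℝ) ∈ Icc (0:ℝ) 1 := ⟨le_rfl, zero_le_one⟩
  have h1 : (1:ℝ) ∈ Icc (0:ℝ) 1 := ⟨zero_le_one, le_rfl⟩
  fin_cases e
  · exact ⟨ht, h0⟩
  · exact ⟨h1, ht⟩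
  · exact ⟨ht, h1⟩
  · exact ⟨h0, ht⟩

theorem bR_ed {y : ℝ × ℝ} (hy : y ∈ bR) : ∃ e, ∃ t ∈ Icc (0:ℝ) 1, y = ed e t := by
  obtain ⟨⟨h1, h2⟩, h | h | h | h⟩ := hy
  · exact ⟨3, y.2, h2, Prod.ext h rfl⟩
  · exact ⟨1, y.2, h2, Prod.ext h rfl⟩
  · exact ⟨0, y.1, h1, Prod.ext rfl h⟩
  · exact ⟨2, y.1, h1, Prod.ext rfl h⟩

section S

variable {S : ConHomeo Rct Rct} (hS : EdgeId S)
include hS

/-- the map on the bottom -/
theorem mono0 : StrictMonoOn (fun t => (S.toFun (ed 0 t)).1) (Icc (0:ℝ) 1) := by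
  have hm : ∀ t ∈ Icc (0:ℝ) 1, ed 0 t ∈ Rct := fun t ht => ed_mem 0 ht
  have hb : ∀ t ∈ Icc (0:ℝ) 1, (S.toFun (ed 0 t)).2 = 0 := fun t ht => hS.bot _ (hm t ht) rfl
  refine ContinuousOn.strictMonoOn_of_injOn_Icc zero_le_one ?_ ?_ ?_
  · have h0 : (S.toFun (ed 0 0)).1 = 0 := hS.left _ (hm 0 ⟨le_rfl, zero_le_one⟩) rfl
    show (S.toFun (ed 0 0)).1 ≤ (S.toFun (ed 0 1)).1
    rw [h0]
    exact (S.mapsTo (hm 1 ⟨zero_le_one, le_rfl⟩)).1.1
  · exact continuous_fst.comp_continuousOn (S.cont.comp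
      (Continuous.continuousOn (by unfold ed; fun_prop)) hm)
  · intro s hs t ht h
    have e : S.toFun (ed 0 s) = S.toFun (ed 0 t) := Prod.ext h (by rw [hb s hs, hb t ht])
    exact congrArg Prod.fst (S.injOn (hm s hs) (hm t ht) e)

/-- the map on the top -/
theorem mono2 : StrictMonoOn (fun t => (S.toFun (ed 2 t)).1) (Icc (0:ℝ) 1) := by
  have hm : ∀ t ∈ Icc (0:ℝ) 1, ed 2 t ∈ Rct := fun t ht => ed_mem 2 ht
  have hb : ∀ t ∈ Icc (0:ℝ) 1, (S.toFun (ed 2 t)).2 = 1 := fun t ht => hS.top _ (hm t ht) rfl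
  refine ContinuousOn.strictMonoOn_of_injOn_Icc zero_le_one ?_ ?_ ?_
  · have h0 : (S.toFun (ed 2 0)).1 = 0 := hS.left _ (hm 0 ⟨le_rfl, zero_le_one⟩) rfl
    show (S.toFun (ed 2 0)).1 ≤ (S.toFun (ed 2 1)).1
    rw [h0]
    exact (S.mapsTo (hm 1 ⟨zero_le_one, le_rfl⟩)).1.1
  · exact continuous_fst.comp_continuousOn (S.cont.comp
      (Continuous.continuousOn (by unfold ed; fun_prop)) hm)
  · intro s hs t ht h
    have e : S.toFun (ed 2 s) = S.toFun (ed 2 t) := Prod.ext h (by rw [hb s hs, hb t ht])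
    exact congrArg Prod.fst (S.injOn (hm s hs) (hm t ht) e)

/-- the map on the left side -/
theorem mono3 : StrictMonoOn (fun t => (S.toFun (ed 3 t)).2) (Icc (0:ℝ) 1) := by
  have hm : ∀ t ∈ Icc (0:ℝ) 1, ed 3 t ∈ Rct := fun t ht => ed_mem 3 ht
  have hb : ∀ t ∈ Icc (0:ℝ) 1, (S.toFun (ed 3 t)).1 = 0 := fun t ht => hS.left _ (hm t ht) rfl
  refine ContinuousOn.strictMonoOn_of_injOn_Icc zero_le_one ?_ ?_ ?_
  · have h0 : (S.toFun (ed 3 0)).2 = 0 := hS.bot _ (hm 0 ⟨le_rfl, zero_le_one⟩) rfl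
    show (S.toFun (ed 3 0)).2 ≤ (S.toFun (ed 3 1)).2
    rw [h0]
    exact (S.mapsTo (hm 1 ⟨zero_le_one, le_rfl⟩)).2.1
  · exact continuous_snd.comp_continuousOn (S.cont.comp
      (Continuous.continuousOn (by unfold ed; fun_prop)) hm)
  · intro s hs t ht h
    have e : S.toFun (ed 3 s) = S.toFun (ed 3 t) := Prod.ext (by rw [hb s hs, hb t ht]) h
    exact congrArg Prod.snd (S.injOn (hm s hs) (hm t ht) e)

/-- the map on the right side -/
theorem mono1 : StrictMonoOn (fun t => (S.toFun (ed 1 t)).2) (Icc (0:ℝ) 1) := by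
  have hm : ∀ t ∈ Icc (0:ℝ) 1, ed 1 t ∈ Rct := fun t ht => ed_mem 1 ht
  have hb : ∀ t ∈ Icc (0:ℝ) 1, (S.toFun (ed 1 t)).1 = 1 := fun t ht => hS.right _ (hm t ht) rfl
  refine ContinuousOn.strictMonoOn_of_injOn_Icc zero_le_one ?_ ?_ ?_
  · have h0 : (S.toFun (ed 1 0)).2 = 0 := hS.bot _ (hm 0 ⟨le_rfl, zero_le_one⟩) rfl
    show (S.toFun (ed 1 0)).2 ≤ (S.toFun (ed 1 1)).2
    rw [h0]
    exact (S.mapsTo (hm 1 ⟨zero_le_one, le_rfl⟩)).2.1
  · exact continuous_snd.comp_continuousOn (S.cont.comp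
      (Continuous.continuousOn (by unfold ed; fun_prop)) hm)
  · intro s hs t ht h
    have e : S.toFun (ed 1 s) = S.toFun (ed 1 t) := Prod.ext (by rw [hb s hs, hb t ht]) h
    exact congrArg Prod.snd (S.injOn (hm s hs) (hm t ht) e)

theorem S_bR : S.toFun '' bR = bR := by
  have hsub : S.toFun '' bR ⊆ bR := by
    rintro _ ⟨x, hx, rfl⟩
    refine ⟨S.mapsTo hx.1, ?_⟩
    rcases hx.2 with h | h | h | h
    · exact Or.inl (hS.left x hx.1 h)
    · exact Or.inr (Or.inl (hS.right x hx.1 h))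
    · exact Or.inr (Or.inr (Or.inl (hS.bot x hx.1 h)))
    · exact Or.inr (Or.inr (Or.inr (hS.top x hx.1 h)))
  refine hsub.antisymm ?_
  have m0 : (0:ℝ) ∈ Icc (0:ℝ) 1 := ⟨le_rfl, zero_le_one⟩
  have m1 : (1:ℝ) ∈ Icc (0:ℝ) 1 := ⟨zero_le_one, le_rfl⟩
  have hm : ∀ e, ∀ t ∈ Icc (0:ℝ) 1, ed e t ∈ bR := by
    intro e t ht
    refine ⟨ed_mem e ht, ?_⟩
    fin_cases e
    · exact Or.inr (Or.inr (Or.inl rfl))
    · exact Or.inr (Or.inl rfl)
    · exact Or.inr (Or.inr (Or.inr rfl))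
    · exact Or.inl rfl
  have ec : ∀ e, ContinuousOn (fun t => S.toFun (ed e t)) (Icc (0:ℝ) 1) := fun e =>
    S.cont.comp (Continuous.continuousOn (by
      fin_cases e <;> (unfold ed; fun_prop))) fun t ht => ed_mem e ht
  intro y hy
  obtain ⟨e, t, ht, rfl⟩ := bR_ed hy
  have key : ∃ s ∈ Icc (0:ℝ) 1, S.toFun (ed e s) = ed e t := by
    fin_cases e
    · have h := intermediate_value_Icc (α := ℝ) zero_le_one
        (continuous_fst.comp_continuousOn (ec 0))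
      have a0 : (S.toFun (ed 0 0)).1 = 0 := hS.left _ (ed_mem 0 m0) rfl
      have a1 : (S.toFun (ed 0 1)).1 = 1 := hS.right _ (ed_mem 0 m1) rfl
      simp only [Function.comp_apply] at h
      rw [a0, a1] at h
      obtain ⟨s, hs, h3⟩ := h ht
      exact ⟨s, hs, Prod.ext h3 (hS.bot _ (ed_mem 0 hs) rfl)⟩
    · have h := intermediate_value_Icc (α := ℝ) zero_le_one
        (continuous_snd.comp_continuousOn (ec 1))
      have a0 : (S.toFun (ed 1 0)).2 = 0 := hS.bot _ (ed_mem 1 m0) rfl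
      have a1 : (S.toFun (ed 1 1)).2 = 1 := hS.top _ (ed_mem 1 m1) rfl
      simp only [Function.comp_apply] at h
      rw [a0, a1] at h
      obtain ⟨s, hs, h3⟩ := h ht
      exact ⟨s, hs, Prod.ext (hS.right _ (ed_mem 1 hs) rfl) h3⟩
    · have h := intermediate_value_Icc (α := ℝ) zero_le_one
        (continuous_fst.comp_continuousOn (ec 2))
      have a0 : (S.toFun (ed 2 0)).1 = 0 := hS.left _ (ed_mem 2 m0) rfl
      have a1 : (S.toFun (ed 2 1)).1 = 1 := hS.right _ (ed_mem 2 m1) rfl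
      simp only [Function.comp_apply] at h
      rw [a0, a1] at h
      obtain ⟨s, hs, h3⟩ := h ht
      exact ⟨s, hs, Prod.ext h3 (hS.top _ (ed_mem 2 hs) rfl)⟩
    · have h := intermediate_value_Icc (α := ℝ) zero_le_one
        (continuous_snd.comp_continuousOn (ec 3))
      have a0 : (S.toFun (ed 3 0)).2 = 0 := hS.bot _ (ed_mem 3 m0) rfl
      have a1 : (S.toFun (ed 3 1)).2 = 1 := hS.top _ (ed_mem 3 m1) rfl
      simp only [Function.comp_apply] at h
      rw [a0, a1] at h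
      obtain ⟨s, hs, h3⟩ := h ht
      exact ⟨s, hs, Prod.ext (hS.left _ (ed_mem 3 hs) rfl) h3⟩
  obtain ⟨s, hs, h⟩ := key
  exact ⟨_, hm e s hs, h⟩

end S

/-- what we need to know about one through arc in the chart: `Q = S ∘ κ⁻¹` -/
structure QA (Q : ℝ × ℝ → ℝ × ℝ) (w : ℝ) (D : ThrD) (A : ArcD) : Prop where
  L : ∀ x ∈ IL A, crd D.d (Q x) = D.Y + w * (1 - (x.1 - A.p) / A.w) ∧
    crd (!D.d) (Q x) = if D.d then 0 else 1
  R : ∀ x ∈ IR A, crd D.d (Q x) = D.Y + w * (1 - (A.q - x.1) / A.w') ∧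
    crd (!D.d) (Q x) = if D.d then 1 else 0
  inn : ∀ a, A.p + A.w < a → a < A.q - A.w' → crd D.d (Q (a, 1)) < D.Y
  out : ∀ x ∈ bR, (x.2 = 1 → x.1 < A.p ∨ A.q < x.1) → D.Y + w < crd D.d (Q x)

variable {m K : ℝ} {κ S : ConHomeo Rct Rct}

theorem kinv (hκ : ChartTR m K κ) (e : Fin 4) {t : ℝ} (ht : t ∈ Icc (0:ℝ) 1)
    (h : (e = 1 ∨ e = 2) → t ≤ 1 - m) : κ.invFun (tpTR e t, 1) = ed e t := by
  rw [← hκ.top e t ht h, κ.left_inv (ed_mem e ht)]

theorem kinv0 (hκ : ChartTR m K κ) {a t : ℝ} (ht : t ∈ Icc (0:ℝ) 1) (h : a = (2 + t) / 4) :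
    κ.invFun (a, 1) = ed 0 t := by
  rw [← kinv hκ 0 ht (by rintro (h | h) <;> exact absurd h (by decide)), h]; rfl

theorem kinv3 (hκ : ChartTR m K κ) {a t : ℝ} (ht : t ∈ Icc (0:ℝ) 1) (h : a = (2 - t) / 4) :
    κ.invFun (a, 1) = ed 3 t := by
  rw [← kinv hκ 3 ht (by rintro (h | h) <;> exact absurd h (by decide)), h]; rfl

theorem kinv1 (hκ : ChartTR m K κ) {a t : ℝ} (ht : t ∈ Icc (0:ℝ) 1) (h : a = (3 + t) / 4)
    (h1 : t ≤ 1 - m) : κ.invFun (a, 1) = ed 1 t := by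
  rw [← kinv hκ 1 ht (fun _ => h1), h]; rfl

theorem kinv2 (hκ : ChartTR m K κ) {a t : ℝ} (ht : t ∈ Icc (0:ℝ) 1) (h : a = (1 - t) / 4)
    (h1 : t ≤ 1 - m) : κ.invFun (a, 1) = ed 2 t := by
  rw [← kinv hκ 2 ht (fun _ => h1), h]; rfl

theorem qa (hκ : ChartTR m K κ) (hS : EdgeId S) {D : ThrD} {w om : ℝ}
    (F : D.Fits w S) (hm : D.hi' ≤ 1 - m) :
    QA (fun x => S.toFun (κ.invFun x)) w D (D.arc om) := by
  have f1 := F.lo0; have f2 := F.lohi; have f3 := F.hi1; have f4 := F.lo0'; have f5 := F.lohi'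
  have f6 := F.hi1'; have f7 := F.Y0; have f8 := F.Y1
  rcases D with ⟨_ | _, lo, hi, lo', hi', Y⟩
  · simp only at f1 f2 f3 f4 f5 f6 f7 f8 hm
    have fs : ∀ t ∈ Icc lo hi, (S.toFun (ed 0 t)).1 = Y + w * ((t - lo) / (hi - lo)) := F.fst
    have sn : ∀ t ∈ Icc lo' hi', (S.toFun (ed 2 t)).1 = Y + w * ((t - lo') / (hi' - lo')) := F.snd
    have M0 := mono0 hS
    have M2 := mono2 hS
    have g1 : (S.toFun (ed 0 lo)).1 = Y := by rw [fs lo ⟨le_rfl, f2.le⟩]; simp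
    have g2 : (S.toFun (ed 0 hi)).1 = Y + w := by
      rw [fs hi ⟨f2.le, le_rfl⟩, div_self (sub_pos.2 f2).ne', mul_one]
    have g3 : (S.toFun (ed 2 lo')).1 = Y := by rw [sn lo' ⟨le_rfl, f5.le⟩]; simp
    have g4 : (S.toFun (ed 2 hi')).1 = Y + w := by
      rw [sn hi' ⟨f5.le, le_rfl⟩, div_self (sub_pos.2 f5).ne', mul_one]
    refine ⟨?_, ?_, ?_, ?_⟩
    · rintro ⟨a, b⟩ ⟨⟨h1, h2⟩, h3⟩
      have h3' : b = 1 := h3
      subst h3'
      have h1' : (1 - hi') / 4 ≤ a := h1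
      have h2' : a ≤ (1 - hi') / 4 + (hi' - lo') / 4 := h2
      have t1 : (1 - 4 * a) ∈ Icc lo' hi' := ⟨by linarith, by linarith⟩
      have t2 : (1 - 4 * a) ∈ Icc (0:ℝ) 1 := ⟨by linarith [t1.1], by linarith [t1.2]⟩
      show (S.toFun (κ.invFun (a, 1))).1 = _ ∧ (S.toFun (κ.invFun (a, 1))).2 = 1
      rw [kinv2 hκ t2 (by ring) (by linarith [t1.2]), sn _ t1]
      refine ⟨?_, hS.top _ (ed_mem 2 t2) rfl⟩
      show _ = Y + w * (1 - (a - (1 - hi') / 4) / ((hi' - lo') / 4))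
      have : hi' - lo' ≠ 0 := (sub_pos.2 f5).ne'
      field_simp
      ring
    · rintro ⟨a, b⟩ ⟨⟨h1, h2⟩, h3⟩
      have h3' : b = 1 := h3
      subst h3'
      have h1' : (2 + hi) / 4 - (hi - lo) / 4 ≤ a := h1
      have h2' : a ≤ (2 + hi) / 4 := h2
      have t1 : (4 * a - 2) ∈ Icc lo hi := ⟨by linarith, by linarith⟩
      have t2 : (4 * a - 2) ∈ Icc (0:ℝ) 1 := ⟨by linarith [t1.1], by linarith [t1.2]⟩
      show (S.toFun (κ.invFun (a, 1))).1 = _ ∧ (S.toFun (κ.invFun (a, 1))).2 = 0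
      rw [kinv0 hκ t2 (by ring), fs _ t1]
      refine ⟨?_, hS.bot _ (ed_mem 0 t2) rfl⟩
      show _ = Y + w * (1 - ((2 + hi) / 4 - a) / ((hi - lo) / 4))
      have : hi - lo ≠ 0 := (sub_pos.2 f2).ne'
      field_simp
      ring
    · intro a h1 h2
      have h1' : (1 - hi') / 4 + (hi' - lo') / 4 < a := h1
      have h2' : a < (2 + hi) / 4 - (hi - lo) / 4 := h2
      show (S.toFun (κ.invFun (a, 1))).1 < Y
      rcases le_total a (1 / 4) with c | c
      · have t2 : (1 - 4 * a) ∈ Icc (0:ℝ) 1 := ⟨by linarith, by linarith⟩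
        rw [kinv2 hκ t2 (by ring) (by linarith), ← g3]
        exact M2 t2 ⟨by linarith, by linarith⟩ (by linarith)
      · rcases le_total a (1 / 2) with c' | c'
        · have t2 : (2 - 4 * a) ∈ Icc (0:ℝ) 1 := ⟨by linarith, by linarith⟩
          rw [kinv3 hκ t2 (by ring), hS.left _ (ed_mem 3 t2) rfl]
          exact f7
        · have t2 : (4 * a - 2) ∈ Icc (0:ℝ) 1 := ⟨by linarith, by linarith⟩
          rw [kinv0 hκ t2 (by ring), ← g1]
          exact M0 t2 ⟨by linarith, by linarith⟩ (by linarith)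
    · intro x hx h
      show Y + w < (S.toFun (κ.invFun x)).1
      by_contra hc
      rw [not_lt] at hc
      have h' : x.2 = 1 → x.1 < (1 - hi') / 4 ∨ (2 + hi) / 4 < x.1 := h
      have hxm : κ.invFun x ∈ bR := by
        rw [← hκ.bd] at hx
        obtain ⟨y, hy, rfl⟩ := hx
        rw [κ.left_inv hy.1]; exact hy
      have hk : κ.toFun (κ.invFun x) = x := κ.right_inv hx.1
      obtain ⟨e, t, ht, hye⟩ := bR_ed hxm
      rw [hye] at hc hk
      have ht0 := ht.1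
      have ht1 := ht.2
      fin_cases e
      · have hc' : (S.toFun (ed 0 t)).1 ≤ Y + w := hc
        have h2 : t ≤ hi := by
          by_contra h3
          have := M0 ⟨by linarith, by linarith⟩ ht (not_le.1 h3)
          simp only at this
          linarith
        have hk' : κ.toFun (ed 0 t) = x := hk
        rw [hκ.top 0 t ht (by rintro (h | h) <;> exact absurd h (by decide))] at hk'
        rw [← hk'] at h'
        have h'' : (2 + t) / 4 < (1 - hi') / 4 ∨ (2 + hi) / 4 < (2 + t) / 4 := h' rfl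
        rcases h'' with h3 | h3 <;> linarith
      · have hc' : (S.toFun (ed 1 t)).1 ≤ Y + w := hc
        rw [hS.right _ (ed_mem 1 ht) rfl] at hc'
        linarith
      · have hc' : (S.toFun (ed 2 t)).1 ≤ Y + w := hc
        have h2 : t ≤ hi' := by
          by_contra h3
          have := M2 ⟨by linarith, by linarith⟩ ht (not_le.1 h3)
          simp only at this
          linarith
        have hk' : κ.toFun (ed 2 t) = x := hk
        rw [hκ.top 2 t ht fun _ => h2.trans hm] at hk'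
        rw [← hk'] at h'
        have h'' : (1 - t) / 4 < (1 - hi') / 4 ∨ (2 + hi) / 4 < (1 - t) / 4 := h' rfl
        rcases h'' with h3 | h3 <;> linarith
      · have hk' : κ.toFun (ed 3 t) = x := hk
        rw [hκ.top 3 t ht (by rintro (h | h) <;> exact absurd h (by decide))] at hk'
        rw [← hk'] at h'
        have h'' : (2 - t) / 4 < (1 - hi') / 4 ∨ (2 + hi) / 4 < (2 - t) / 4 := h' rfl
        rcases h'' with h3 | h3 <;> linarith
  · simp only at f1 f2 f3 f4 f5 f6 f7 f8 hm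
    have fs : ∀ t ∈ Icc lo hi, (S.toFun (ed 3 t)).2 = Y + w * ((t - lo) / (hi - lo)) := F.fst
    have sn : ∀ t ∈ Icc lo' hi', (S.toFun (ed 1 t)).2 = Y + w * ((t - lo') / (hi' - lo')) := F.snd
    have M3 := mono3 hS
    have M1 := mono1 hS
    have g1 : (S.toFun (ed 3 lo)).2 = Y := by rw [fs lo ⟨le_rfl, f2.le⟩]; simp
    have g2 : (S.toFun (ed 3 hi)).2 = Y + w := by
      rw [fs hi ⟨f2.le, le_rfl⟩, div_self (sub_pos.2 f2).ne', mul_one]
    have g3 : (S.toFun (ed 1 lo')).2 = Y := by rw [sn lo' ⟨le_rfl, f5.le⟩]; simp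
    have g4 : (S.toFun (ed 1 hi')).2 = Y + w := by
      rw [sn hi' ⟨f5.le, le_rfl⟩, div_self (sub_pos.2 f5).ne', mul_one]
    refine ⟨?_, ?_, ?_, ?_⟩
    · rintro ⟨a, b⟩ ⟨⟨h1, h2⟩, h3⟩
      have h3' : b = 1 := h3
      subst h3'
      have h1' : (2 - hi) / 4 ≤ a := h1
      have h2' : a ≤ (2 - hi) / 4 + (hi - lo) / 4 := h2
      have t1 : (2 - 4 * a) ∈ Icc lo hi := ⟨by linarith, by linarith⟩
      have t2 : (2 - 4 * a) ∈ Icc (0:ℝ) 1 := ⟨by linarith [t1.1], by linarith [t1.2]⟩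
      show (S.toFun (κ.invFun (a, 1))).2 = _ ∧ (S.toFun (κ.invFun (a, 1))).1 = 0
      rw [kinv3 hκ t2 (by ring), fs _ t1]
      refine ⟨?_, hS.left _ (ed_mem 3 t2) rfl⟩
      show _ = Y + w * (1 - (a - (2 - hi) / 4) / ((hi - lo) / 4))
      have : hi - lo ≠ 0 := (sub_pos.2 f2).ne'
      field_simp
      ring
    · rintro ⟨a, b⟩ ⟨⟨h1, h2⟩, h3⟩
      have h3' : b = 1 := h3
      subst h3'
      have h1' : (3 + hi') / 4 - (hi' - lo') / 4 ≤ a := h1
      have h2' : a ≤ (3 + hi') / 4 := h2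
      have t1 : (4 * a - 3) ∈ Icc lo' hi' := ⟨by linarith, by linarith⟩
      have t2 : (4 * a - 3) ∈ Icc (0:ℝ) 1 := ⟨by linarith [t1.1], by linarith [t1.2]⟩
      show (S.toFun (κ.invFun (a, 1))).2 = _ ∧ (S.toFun (κ.invFun (a, 1))).1 = 1
      rw [kinv1 hκ t2 (by ring) (by linarith [t1.2]), sn _ t1]
      refine ⟨?_, hS.right _ (ed_mem 1 t2) rfl⟩
      show _ = Y + w * (1 - ((3 + hi') / 4 - a) / ((hi' - lo') / 4))
      have : hi' - lo' ≠ 0 := (sub_pos.2 f5).ne'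
      field_simp
      ring
    · intro a h1 h2
      have h1' : (2 - hi) / 4 + (hi - lo) / 4 < a := h1
      have h2' : a < (3 + hi') / 4 - (hi' - lo') / 4 := h2
      show (S.toFun (κ.invFun (a, 1))).2 < Y
      rcases le_total a (1 / 2) with c | c
      · have t2 : (2 - 4 * a) ∈ Icc (0:ℝ) 1 := ⟨by linarith, by linarith⟩
        rw [kinv3 hκ t2 (by ring), ← g1]
        exact M3 t2 ⟨by linarith, by linarith⟩ (by linarith)
      · rcases le_total a (3 / 4) with c' | c'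
        · have t2 : (4 * a - 2) ∈ Icc (0:ℝ) 1 := ⟨by linarith, by linarith⟩
          rw [kinv0 hκ t2 (by ring), hS.bot _ (ed_mem 0 t2) rfl]
          exact f7
        · have t2 : (4 * a - 3) ∈ Icc (0:ℝ) 1 := ⟨by linarith, by linarith⟩
          rw [kinv1 hκ t2 (by ring) (by linarith), ← g3]
          exact M1 t2 ⟨by linarith, by linarith⟩ (by linarith)
    · intro x hx h
      show Y + w < (S.toFun (κ.invFun x)).2
      by_contra hc
      rw [not_lt] at hc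
      have h' : x.2 = 1 → x.1 < (2 - hi) / 4 ∨ (3 + hi') / 4 < x.1 := h
      have hxm : κ.invFun x ∈ bR := by
        rw [← hκ.bd] at hx
        obtain ⟨y, hy, rfl⟩ := hx
        rw [κ.left_inv hy.1]; exact hy
      have hk : κ.toFun (κ.invFun x) = x := κ.right_inv hx.1
      obtain ⟨e, t, ht, hye⟩ := bR_ed hxm
      rw [hye] at hc hk
      have ht0 := ht.1
      have ht1 := ht.2
      fin_cases e
      · have hk' : κ.toFun (ed 0 t) = x := hk
        rw [hκ.top 0 t ht (by rintro (h | h) <;> exact absurd h (by decide))] at hk'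
        rw [← hk'] at h'
        have h'' : (2 + t) / 4 < (2 - hi) / 4 ∨ (3 + hi') / 4 < (2 + t) / 4 := h' rfl
        rcases h'' with h3 | h3 <;> linarith
      · have hc' : (S.toFun (ed 1 t)).2 ≤ Y + w := hc
        have h2 : t ≤ hi' := by
          by_contra h3
          have := M1 ⟨by linarith, by linarith⟩ ht (not_le.1 h3)
          simp only at this
          linarith
        have hk' : κ.toFun (ed 1 t) = x := hk
        rw [hκ.top 1 t ht fun _ => h2.trans hm] at hk'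
        rw [← hk'] at h'
        have h'' : (3 + t) / 4 < (2 - hi) / 4 ∨ (3 + hi') / 4 < (3 + t) / 4 := h' rfl
        rcases h'' with h3 | h3 <;> linarith
      · have hc' : (S.toFun (ed 2 t)).2 ≤ Y + w := hc
        rw [hS.top _ (ed_mem 2 ht) rfl] at hc'
        linarith
      · have hc' : (S.toFun (ed 3 t)).2 ≤ Y + w := hc
        have h2 : t ≤ hi := by
          by_contra h3
          have := M3 ⟨by linarith, by linarith⟩ ht (not_le.1 h3)
          simp only at this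
          linarith
        have hk' : κ.toFun (ed 3 t) = x := hk
        rw [hκ.top 3 t ht (by rintro (h | h) <;> exact absurd h (by decide))] at hk'
        rw [← hk'] at h'
        have h'' : (2 - t) / 4 < (2 - hi) / 4 ∨ (3 + hi') / 4 < (2 - t) / 4 := h' rfl
        rcases h'' with h3 | h3 <;> linarith

end P073.H761.Bs
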