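import Vale.Agent.P073.H761.C1
import Vale.Agent.P073.H253.BeamSpec

/-!
# P073: tools for the beam: the line and the plane
-/

namespace Vale.Agent.P073.H761

open MeasureTheory Set Filter Topology Metric Vale.Agent.P073.LOC Vale.Agent.P073.H235
open Vale.Agent.P073.H253
open Vale.Agent.P073.St (V Mat)
open Vale.Agent.P073.SQ (ev cube Cells)
open _root_.P073 (ConHomeo)
open scoped ContDiff ENNReal

/-! ### The line -/

theorem lpt_add (c₁ c₂ u t ℓ : ℝ) : lpt c₁ c₂ u + t • (ℓ • ev 0) = lpt c₁ c₂ (ℓ * t + u) := by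
  funext i
  fin_cases i
  · show u + t * (ℓ * ev 0 0) = ℓ * t + u
    have : ev 0 0 = 1 := by unfold ev; rw [Pi.single_eq_same]
    rw [this]; ring
  · show c₁ + t * (ℓ * ev 0 1) = c₁
    have : ev 0 1 = 0 := by unfold ev; rw [Pi.single_eq_of_ne (by decide)]
    rw [this]; ring
  · show c₂ + t * (ℓ * ev 0 2) = c₂
    have : ev 0 2 = 0 := by unfold ev; rw [Pi.single_eq_of_ne (by decide)]
    rw [this]; ring

theorem continuous_lpt (c₁ c₂ : ℝ) : Continuous (lpt c₁ c₂) := by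
  refine continuous_pi fun i => ?_
  fin_cases i
  · exact continuous_id
  · exact continuous_const
  · exact continuous_const

theorem deriv_seg (h : V → V) (x v : V) (t : ℝ) :
    deriv (fun s : ℝ => h (x + s • v)) t = lineDeriv ℝ h (x + t • v) v := by
  unfold lineDeriv
  have e1 : (fun s : ℝ => h (x + t • v + s • v)) = fun s : ℝ => (fun r : ℝ => h (x + r • v))
      (t + s) := by
    funext s
    simp only [add_smul, add_assoc]
  have e2 := deriv_comp_const_add (fun r : ℝ => h (x + r • v)) t 0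
  rw [add_zero] at e2
  rw [e1]
  exact e2.symm

/-- the estimate on the segment as an estimate on an interval -/
theorem line_le {p : ℝ} (hp : 0 ≤ p) {g h : V → V} {c₁ c₂ u₀ ℓ e : ℝ} (hℓ : 1 / 2 ≤ ℓ)
    (hℓ1 : ℓ ≤ 1)
    (H : ∫⁻ t in Icc (0:ℝ) 1, ENNReal.ofReal
      (‖fderiv ℝ g (lpt c₁ c₂ u₀ + t • (ℓ • ev 0)) (ℓ • ev 0) -
        deriv (fun s : ℝ => h (lpt c₁ c₂ u₀ + s • (ℓ • ev 0))) t‖ ^ p) ≤ ENNReal.ofReal e) :
    ∫⁻ u in Icc u₀ (u₀ + ℓ), ENNReal.ofReal (‖fderiv ℝ g (lpt c₁ c₂ u) (ev 0) -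
      lineDeriv ℝ h (lpt c₁ c₂ u) (ev 0)‖ ^ p) ≤ ENNReal.ofReal (2 ^ p * e) := by
  have hℓ0 : 0 < ℓ := by linarith
  have him : (fun t : ℝ => ℓ * t + u₀) '' Icc 0 1 = Icc u₀ (u₀ + ℓ) := by
    rw [image_affine_Icc' hℓ0]
    congr 1 <;> ring
  rw [← him, lintegral_image_eq_lintegral_abs_deriv_mul measurableSet_Icc
    (f' := fun _ => ℓ) (fun t _ => by
      have h1 : HasDerivAt (fun t : ℝ => ℓ * t + u₀) ℓ t := by
        simpa using ((hasDerivAt_id t).const_mul ℓ).add_const u₀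
      exact h1.hasDerivWithinAt)
    (fun s _ t _ hst => by
      have h1 : ℓ * s = ℓ * t := add_right_cancel hst
      exact mul_left_cancel₀ hℓ0.ne' h1)]
  calc _ ≤ ∫⁻ t in Icc (0:ℝ) 1, ENNReal.ofReal (2 ^ p) * ENNReal.ofReal
        (‖fderiv ℝ g (lpt c₁ c₂ u₀ + t • (ℓ • ev 0)) (ℓ • ev 0) -
          deriv (fun s : ℝ => h (lpt c₁ c₂ u₀ + s • (ℓ • ev 0))) t‖ ^ p) := by
        refine lintegral_mono fun t => ?_
        rw [deriv_seg, lpt_add, map_smul, lineDeriv_smul, ← smul_sub, norm_smul,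
          Real.norm_eq_abs, abs_of_pos hℓ0, ← ENNReal.ofReal_mul (by positivity),
          ← ENNReal.ofReal_mul (by positivity)]
        apply ENNReal.ofReal_le_ofReal
        set w := ‖fderiv ℝ g (lpt c₁ c₂ (ℓ * t + u₀)) (ev 0) -
          lineDeriv ℝ h (lpt c₁ c₂ (ℓ * t + u₀)) (ev 0)‖ with hw
        have hw0 : 0 ≤ w := norm_nonneg _
        calc ℓ * w ^ p ≤ 1 * w ^ p := by gcongr
          _ = w ^ p := one_mul _
          _ ≤ (2 * (ℓ * w)) ^ p := by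
              refine Real.rpow_le_rpow hw0 ?_ hp
              nlinarith
          _ = 2 ^ p * (ℓ * w) ^ p := Real.mul_rpow (by norm_num) (by positivity)
    _ ≤ _ := by
        rw [lintegral_const_mul' _ _ ENNReal.ofReal_ne_top, ENNReal.ofReal_mul (by positivity)]
        gcongr

/-- `LineOK` is stable -/
theorem LineOK.perturb {p ε M τ a b η : ℝ} {w : V} {G G' : ℝ → V} (hp : 0 ≤ p) (hM : 1 ≤ M)
    (hε : 0 ≤ ε) (hη : 0 ≤ η) (hGm : ∃ H : ℝ → V, Measurable H ∧ ∀ u ∈ Icc a b, H u = G u)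
    (h : LineOK p ε M τ a b w G)
    (hGG : ∫⁻ u in Icc a b, ENNReal.ofReal (‖G' u - G u‖ ^ p) ≤ ENNReal.ofReal η) :
    LineOK p (2 ^ p * (ε + M ^ p * M * η)) M τ a b w G' := by
  obtain ⟨ρ, h1, h2, h3, h4, h5, h6⟩ := h
  obtain ⟨H, hH, hHG⟩ := hGm
  refine ⟨ρ, h1, h2, h3, h4, h5, ?_⟩
  have hρ0 : ∀ u, 0 < ρ u := fun u => lt_of_lt_of_le (by positivity) (h2 u).1
  have hm : Measurable fun u => ENNReal.ofReal (‖(ρ u)⁻¹ • H u - w‖ ^ p * ρ u) := by
    refine ENNReal.measurable_ofReal.comp (Measurable.mul ?_ h1)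
    exact (measurable_norm.comp ((h1.inv.smul hH).sub measurable_const)).pow_const p
  have hpt : ∀ u, ENNReal.ofReal (‖(ρ u)⁻¹ • G' u - w‖ ^ p * ρ u) ≤
      ENNReal.ofReal (2 ^ p) * (ENNReal.ofReal (‖(ρ u)⁻¹ • G u - w‖ ^ p * ρ u) +
        ENNReal.ofReal (M ^ p * M) * ENNReal.ofReal (‖G' u - G u‖ ^ p)) := by
    intro u
    have e1 := pw hp ((ρ u)⁻¹ • G' u - w) ((ρ u)⁻¹ • G u - w)
    rw [sub_sub_sub_cancel_right, ← smul_sub, add_comm] at e1
    have e2 : ENNReal.ofReal (‖(ρ u)⁻¹ • (G' u - G u)‖ ^ p) * ENNReal.ofReal (ρ u) ≤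
        ENNReal.ofReal (M ^ p * M) * ENNReal.ofReal (‖G' u - G u‖ ^ p) := by
      rw [← ENNReal.ofReal_mul (by positivity), ← ENNReal.ofReal_mul (by positivity)]
      apply ENNReal.ofReal_le_ofReal
      have hi : (ρ u)⁻¹ ≤ M := by
        have := (h2 u).1
        rw [inv_le_comm₀ (hρ0 u) (by linarith)]
        rwa [one_div] at this
      rw [norm_smul, norm_inv, Real.norm_eq_abs, abs_of_pos (hρ0 u),
        Real.mul_rpow (inv_nonneg.2 (hρ0 u).le) (norm_nonneg _)]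
      have hρi : 0 ≤ (ρ u)⁻¹ := inv_nonneg.2 (hρ0 u).le
      have hρM : ρ u ≤ M := (h2 u).2
      calc (ρ u)⁻¹ ^ p * ‖G' u - G u‖ ^ p * ρ u ≤ M ^ p * ‖G' u - G u‖ ^ p * M := by
            have := (hρ0 u).le
            gcongr
        _ = _ := by ring
    calc ENNReal.ofReal (‖(ρ u)⁻¹ • G' u - w‖ ^ p * ρ u)
        = ENNReal.ofReal (‖(ρ u)⁻¹ • G' u - w‖ ^ p) * ENNReal.ofReal (ρ u) :=
          ENNReal.ofReal_mul (by positivity)
      _ ≤ ENNReal.ofReal (2 ^ p) * (ENNReal.ofReal (‖(ρ u)⁻¹ • G u - w‖ ^ p) +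
          ENNReal.ofReal (‖(ρ u)⁻¹ • (G' u - G u)‖ ^ p)) * ENNReal.ofReal (ρ u) :=
          mul_le_mul' e1 le_rfl
      _ = ENNReal.ofReal (2 ^ p) * (ENNReal.ofReal (‖(ρ u)⁻¹ • G u - w‖ ^ p) *
          ENNReal.ofReal (ρ u) +
          ENNReal.ofReal (‖(ρ u)⁻¹ • (G' u - G u)‖ ^ p) * ENNReal.ofReal (ρ u)) := by ring
      _ ≤ _ := by
          rw [← ENNReal.ofReal_mul (by positivity) (p := ‖(ρ u)⁻¹ • G u - w‖ ^ p)]
          gcongr
  calc ∫⁻ u in Icc a b, ENNReal.ofReal (‖(ρ u)⁻¹ • G' u - w‖ ^ p * ρ u)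
      ≤ ∫⁻ u in Icc a b, ENNReal.ofReal (2 ^ p) *
        (ENNReal.ofReal (‖(ρ u)⁻¹ • G u - w‖ ^ p * ρ u) +
        ENNReal.ofReal (M ^ p * M) * ENNReal.ofReal (‖G' u - G u‖ ^ p)) :=
        lintegral_mono fun u => hpt u
    _ = ∫⁻ u in Icc a b, ENNReal.ofReal (2 ^ p) *
        (ENNReal.ofReal (‖(ρ u)⁻¹ • H u - w‖ ^ p * ρ u) +
        ENNReal.ofReal (M ^ p * M) * ENNReal.ofReal (‖G' u - G u‖ ^ p)) := by
        refine setLIntegral_congr_fun measurableSet_Icc fun u hu => ?_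
        rw [hHG u hu]
    _ = ENNReal.ofReal (2 ^ p) *
        ((∫⁻ u in Icc a b, ENNReal.ofReal (‖(ρ u)⁻¹ • H u - w‖ ^ p * ρ u)) +
        ENNReal.ofReal (M ^ p * M) *
          ∫⁻ u in Icc a b, ENNReal.ofReal (‖G' u - G u‖ ^ p)) := by
        rw [lintegral_const_mul' _ _ ENNReal.ofReal_ne_top, lintegral_add_left hm,
          lintegral_const_mul' _ _ ENNReal.ofReal_ne_top]
    _ ≤ ENNReal.ofReal (2 ^ p) * (ENNReal.ofReal ε +
        ENNReal.ofReal (M ^ p * M) * ENNReal.ofReal η) := by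
        gcongr
        refine le_trans (le_of_eq ?_) h6
        refine setLIntegral_congr_fun measurableSet_Icc fun u hu => ?_
        rw [hHG u hu]
    _ = _ := by
        have : 0 < M := by linarith
        rw [← ENNReal.ofReal_mul (by positivity), ← ENNReal.ofReal_add hε (by positivity),
          ← ENNReal.ofReal_mul (by positivity)]

/-! ### The plane -/

theorem measurableSet_Fr (a : V) (ν : ℝ) (J : Finset (Fin 3)) : MeasurableSet (Fr a ν J) := by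
  have : Fr a ν J = ⋃ i ∈ J, {x : V | x i ≤ ν * a i ∨ (1 - ν) * a i ≤ x i} := by
    ext x; simp [Fr]
  rw [this]
  refine Finset.measurableSet_biUnion _ fun i _ => ?_
  exact (measurableSet_le (measurable_pi_apply i) measurable_const).union
    (measurableSet_le measurable_const (measurable_pi_apply i))

/-- the compact core of the plane `x 1 = c` -/
def core1 (ν θ : ℝ) : Set V :=
  Icc ![ν / 8, 0, ν / 8 * (2 * θ)] ![1 - ν / 8, 1, (1 - ν / 8) * (2 * θ)]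

theorem core1_sub {ν θ : ℝ} : Bx (fl θ) ∩ Co (fl θ) (ν / 2) {0, 2} ⊆ core1 ν θ := by
  rintro x ⟨hx, hc⟩
  have h0 := hc 0 (by simp)
  have h2 := hc 2 (by simp)
  have f0 : fl θ 0 = 1 := rfl
  have f1 : fl θ 1 = 1 := rfl
  have f2 : fl θ 2 = 2 * θ := rfl
  have h1 := hx 1
  rw [f0] at h0
  rw [f2] at h2
  rw [f1] at h1
  have e : ν / 2 / 4 = ν / 8 := by ring
  rw [e] at h0 h2
  constructor
  · intro i
    fin_cases i
    · show ν / 8 ≤ x 0
      linarith [h0.1]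
    · exact h1.1.le
    · exact h2.1
  · intro i
    fin_cases i
    · show x 0 ≤ 1 - ν / 8
      linarith [h0.2]
    · exact h1.2.le
    · exact h2.2

theorem core1_mem {ν θ₁ θ c : ℝ} (hν : 0 < ν) (hθ : 0 < θ) (hc : 0 < c) (hc' : c < 2 * θ₁)
    {x : V} (hx : x ∈ core1 ν θ) : Function.update x 1 c ∈ Bx (bm θ₁ θ) := by
  have h0 : ν / 8 ≤ x 0 := hx.1 0
  have h0' : x 0 ≤ 1 - ν / 8 := hx.2 0
  have h2 : ν / 8 * (2 * θ) ≤ x 2 := hx.1 2
  have h2' : x 2 ≤ (1 - ν / 8) * (2 * θ) := hx.2 2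
  have hp : 0 < ν / 8 * (2 * θ) := by positivity
  intro i
  fin_cases i
  · show 0 < Function.update x 1 c 0 ∧ Function.update x 1 c 0 < 1
    rw [Function.update_of_ne (by decide)]
    constructor <;> linarith
  · show 0 < Function.update x 1 c 1 ∧ Function.update x 1 c 1 < 2 * θ₁
    rw [Function.update_self]
    exact ⟨hc, hc'⟩
  · show 0 < Function.update x 1 c 2 ∧ Function.update x 1 c 2 < 2 * θ
    rw [Function.update_of_ne (by decide)]
    constructor <;> linarith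

theorem bm_pos {θ₁ θ₂ : ℝ} (h1 : 0 < θ₁) (h2 : 0 < θ₂) (i : Fin 3) : 0 < bm θ₁ θ₂ i := by
  fin_cases i
  · exact one_pos
  · show 0 < 2 * θ₁
    positivity
  · show 0 < 2 * θ₂
    positivity

theorem Fr_mono {a : V} (ha : ∀ i, 0 < a i) {ν ν' : ℝ} (h : ν ≤ ν') (J : Finset (Fin 3)) :
    Fr a ν J ⊆ Fr a ν' J := by
  rintro x ⟨i, hi, hx⟩
  refine ⟨i, hi, ?_⟩
  have h1 : ν * a i ≤ ν' * a i := mul_le_mul_of_nonneg_right h (ha i).le
  rcases hx with hx | hx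
  · left; linarith
  · right
    have : (1 - ν') * a i ≤ (1 - ν) * a i := mul_le_mul_of_nonneg_right (by linarith) (ha i).le
    linarith

end Vale.Agent.P073.H761
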