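import Vale.Agent.P073.H761.U8C
import Vale.Agent.P073.H235.ConSpec

/-!
# P073: (C4), the weak beam output gives the flat output
-/

namespace Vale.Agent.P073.H761

open Vale.Agent.P073.H235

theorem specC4 : SpecC4 := by
  intro p L hp hL1 hL2 h
  refine specFlat_of_beamC hp hL1 hL2 ?_
  obtain ⟨C, hC, h⟩ := h
  refine ⟨C, hC, fun ν hν hν' θ₂ hθ₂ hθ₂' ν₁ hν₁ hν₁' => ?_⟩
  obtain ⟨θ₀, hθ₀, h⟩ := h ν hν hν' θ₂ hθ₂ hθ₂' ν₁ hν₁ hν₁'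
  refine ⟨θ₀, hθ₀, fun θ₁ hθ₁ hθ₁' ε hε => ?_⟩
  obtain ⟨κ, hκ, h⟩ := h θ₁ hθ₁ hθ₁' ε hε
  refine ⟨κ, hκ, fun Λ f F hN => ?_⟩
  obtain ⟨g, hg⟩ := h Λ f F hN
  exact ⟨g, hg.diffeo, hg.close, hg.bulk, hg.frame, hg.pl, hg.plFrame, hg.line⟩

end Vale.Agent.P073.H761
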