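import Mathlib

/-!
# P073 / H761: a minimax lemma (compact convex set against a convex set of affine functions)
-/

open Set Filter Topology

namespace Vale.Agent.P073.H761

theorem minimax {V W : Type*} [TopologicalSpace V] [AddCommGroup V] [Module ℝ V]
    [AddCommGroup W] [Module ℝ W] {S : Set V} (hS : IsCompact S) (hSc : Convex ℝ S)
    {A : Set W} (hA : Convex ℝ A) (hne : A.Nonempty) (F : W → V → ℝ)
    (hcont : ∀ φ ∈ A, ContinuousOn (F φ) S)
    (haff : ∀ φ ∈ A, ∀ T ∈ S, ∀ T' ∈ S, ∀ a b : ℝ, 0 ≤ a → 0 ≤ b → a + b = 1 →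
      F φ (a • T + b • T') = a * F φ T + b * F φ T')
    (hconv : ∀ T ∈ S, ConvexOn ℝ A fun φ => F φ T) {ε : ℝ}
    (h : ∀ T ∈ S, ∃ φ ∈ A, F φ T < ε) : ∃ φ ∈ A, ∀ T ∈ S, F φ T < ε := by
  classical
  rcases S.eq_empty_or_nonempty with rfl | hSne
  · obtain ⟨φ, hφ⟩ := hne
    exact ⟨φ, hφ, fun T hT => absurd hT (notMem_empty T)⟩
  choose! φ hφA hφ using h
  obtain ⟨t, htS, ht⟩ := hS.elim_nhdsWithin_subcover (fun T => {T' | T' ∈ S → F (φ T) T' < ε})
    (fun T hT => by
      have h1 : Tendsto (F (φ T)) (𝓝[S] T) (𝓝 (F (φ T) T)) := hcont _ (hφA T hT) T hT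
      have h2 : ∀ᶠ T' in 𝓝[S] T, F (φ T) T' < ε := h1 (Iio_mem_nhds (hφ T hT))
      filter_upwards [h2] with T' hT' _ using hT')
  have hfin : ∀ T ∈ S, ∃ i : t, F (φ i) T < ε := fun T hT => by
    obtain ⟨i, hi, hi2⟩ := mem_iUnion₂.1 (ht hT)
    exact ⟨⟨i, hi⟩, hi2 hT⟩
  set Ψ : V → (t → ℝ) := fun T i => F (φ i) T with hΨ
  set C : Set (t → ℝ) := Ψ '' S with hC
  set D : Set (t → ℝ) := {y | ∀ i, ε ≤ y i} with hD
  have hCc : IsCompact C := hS.image_of_continuousOn
    (continuousOn_pi.2 fun i => hcont _ (hφA i (htS i i.2)))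
  have hCv : Convex ℝ C := by
    rintro _ ⟨T, hT, rfl⟩ _ ⟨T', hT', rfl⟩ a b ha hb hab
    refine ⟨a • T + b • T', hSc hT hT' ha hb hab, ?_⟩
    funext i
    simp only [hΨ, Pi.add_apply, Pi.smul_apply, smul_eq_mul]
    exact haff _ (hφA i (htS i i.2)) T hT T' hT' a b ha hb hab
  have hDv : Convex ℝ D := by
    intro y hy z hz a b ha hb hab i
    have h1 := hy i; have h2 := hz i
    simp only [Pi.add_apply, Pi.smul_apply, smul_eq_mul]
    have h3 := mul_le_mul_of_nonneg_left h1 ha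
    have h4 := mul_le_mul_of_nonneg_left h2 hb
    have h5 : ε = a * ε + b * ε := by rw [← add_mul, hab, one_mul]
    linarith
  have hDc : IsClosed D := by
    have : D = ⋂ i, {y : t → ℝ | ε ≤ y i} := by ext y; simp [hD]
    rw [this]
    exact isClosed_iInter fun i => isClosed_le continuous_const (continuous_apply i)
  have hdisj : Disjoint C D := by
    rw [Set.disjoint_left]
    rintro _ ⟨T, hT, rfl⟩ hd
    obtain ⟨i, hi⟩ := hfin T hT
    exact absurd (hd i) (not_le.2 hi)
  obtain ⟨f, u, v, hfu, huv, hfv⟩ := geometric_hahn_banach_compact_closed hCv hCc hDv hDc hdisj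
  set lam : t → ℝ := fun i => f (Pi.single i 1) with hlam
  have hf : ∀ y : t → ℝ, f y = ∑ i, y i * lam i := fun y => by
    have : y = ∑ i, y i • (Pi.single i (1 : ℝ) : t → ℝ) := by
      funext j
      simp [Finset.sum_apply, Pi.single_apply]
    conv_lhs => rw [this]
    simp [map_sum, hlam]
  have hlam0 : ∀ i, 0 ≤ lam i := by
    intro i
    by_contra hneg
    push Not at hneg
    set s : ℝ := max 0 ((v - f (fun _ => ε)) / lam i) with hs
    have hs0 : 0 ≤ s := le_max_left _ _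
    have hmem : (fun _ => ε) + s • (Pi.single i (1 : ℝ) : t → ℝ) ∈ D := by
      intro j
      simp only [Pi.add_apply, Pi.smul_apply, smul_eq_mul]
      have : 0 ≤ s * (Pi.single i (1 : ℝ) : t → ℝ) j := by
        refine mul_nonneg hs0 ?_
        by_cases hij : j = i
        · subst hij; simp
        · simp [hij]
      linarith
    have h1 := hfv _ hmem
    rw [map_add, map_smul, smul_eq_mul] at h1
    have h2 : (v - f (fun _ => ε)) / lam i ≤ s := le_max_right _ _
    have h3 : s * lam i ≤ (v - f (fun _ => ε)) / lam i * lam i :=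
      mul_le_mul_of_nonpos_right h2 hneg.le
    rw [div_mul_cancel₀ _ hneg.ne] at h3
    have : f (Pi.single i 1) = lam i := rfl
    rw [this] at h1
    linarith
  set Lam : ℝ := ∑ i, lam i with hLam
  have hLam0 : 0 < Lam := by
    rcases (Finset.sum_nonneg fun i _ => hlam0 i : 0 ≤ Lam).lt_or_eq with h | h
    · exact h
    exfalso
    have hz : ∀ i, lam i = 0 := fun i =>
      (Finset.sum_eq_zero_iff_of_nonneg (fun i _ => hlam0 i)).1 h.symm i (Finset.mem_univ i)
    obtain ⟨T, hT⟩ := hSne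
    have h1 := hfu _ ⟨T, hT, rfl⟩
    have h2 := hfv (fun _ => ε) (fun i => le_rfl)
    rw [hf] at h1 h2
    simp only [hz, mul_zero, Finset.sum_const_zero] at h1 h2
    linarith
  have hsum1 : ∑ i, lam i / Lam = 1 := by rw [← Finset.sum_div]; exact div_self hLam0.ne'
  have hmemA : ∀ i : t, φ i ∈ A := fun i => hφA i (htS i i.2)
  refine ⟨∑ i, (lam i / Lam) • φ (i : V), hA.sum_mem (fun i _ => div_nonneg (hlam0 i) hLam0.le)
    hsum1 (fun i _ => hmemA i), fun T hT => ?_⟩
  have h1 : F (∑ i, (lam i / Lam) • φ (i : V)) T ≤ ∑ i, (lam i / Lam) * F (φ i) T := by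
    have := (hconv T hT).map_sum_le (t := Finset.univ) (w := fun i : t => lam i / Lam)
      (p := fun i : t => φ (i : V)) (fun i _ => div_nonneg (hlam0 i) hLam0.le) hsum1
      (fun i _ => hmemA i)
    simpa using this
  have h2 : ∑ i, (lam i / Lam) * F (φ i) T = f (Ψ T) / Lam := by
    rw [hf, Finset.sum_div]
    exact Finset.sum_congr rfl fun i _ => by simp only [hΨ]; ring
  have h3 : f (Ψ T) < u := hfu _ ⟨T, hT, rfl⟩
  have h4 : v < f fun _ => ε := hfv _ (fun i => le_rfl)
  have h5 : f (fun _ => ε) = ε * Lam := by rw [hf, hLam, Finset.mul_sum]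
  rw [h5] at h4
  refine h1.trans_lt ?_
  rw [h2, div_lt_iff₀ hLam0]
  linarith

end Vale.Agent.P073.H761
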