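import Vale.Agent.P073.H761.Rep
import Vale.Agent.P073.H761.Minimax

/-!
# P073 / H761: the compact convex class of divergence free cone valued functionals
-/

open MeasureTheory Set Filter Topology
open scoped CompactlySupported ENNReal NNReal ContDiff

namespace Vale.Agent.P073.H761

/-- the coordinate vectors -/
noncomputable abbrev ee (k : Fin 3) : E3 := EuclideanSpace.single k 1

/-- Vector functionals with values in the cone over `K`, divergence free in `ball 0 L`. -/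
structure Cls (K : Set E3) (j : Fin 3) (L : ℝ) (τ : Fin 3 → C_c(E3, ℝ) → ℝ) : Prop where
  lin : ∀ k, IsLin (τ k)
  bnd : ∀ φ, 0 ≤ φ → τ j φ ≤ 2 * L * nrm φ
  pos : ∀ ψ : Fin 3 → C_c(E3, ℝ), (∀ x, ∀ v ∈ K, 0 ≤ ∑ k, ψ k x * v k) → 0 ≤ ∑ k, τ k (ψ k)
  div : ∀ φ : E3 → ℝ, ContDiff ℝ ∞ φ → HasCompactSupport φ → tsupport φ ⊆ Metric.ball 0 L →
    ∀ ψ : Fin 3 → C_c(E3, ℝ), (∀ k x, ψ k x = fderiv ℝ φ x (ee k)) → ∑ k, τ k (ψ k) = 0

/-- absolute value of a compactly supported function -/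
noncomputable def cabs (φ : C_c(E3, ℝ)) : C_c(E3, ℝ) := φ ⊔ (-φ)

theorem cabs_apply (φ : C_c(E3, ℝ)) (x : E3) : cabs φ x = |φ x| := by
  simp only [cabs, CompactlySupportedContinuousMap.sup_apply,
    CompactlySupportedContinuousMap.neg_apply]
  rfl

theorem cabs_nonneg (φ : C_c(E3, ℝ)) : 0 ≤ cabs φ := fun x => by
  rw [cabs_apply]; exact abs_nonneg _

theorem nrm_cabs (φ : C_c(E3, ℝ)) : nrm (cabs φ) = nrm φ := by
  refine le_antisymm (nrm_le (nrm_nonneg _) fun x => ?_) (nrm_le (nrm_nonneg _) fun x => ?_)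
  · rw [cabs_apply, abs_abs]; exact abs_le_nrm φ x
  · have := abs_le_nrm (cabs φ) x
    rwa [cabs_apply, abs_abs] at this

theorem IsLin.neg {Λ : C_c(E3, ℝ) → ℝ} (h : IsLin Λ) (φ) : Λ (-φ) = -Λ φ := by
  have h1 : (-φ : C_c(E3, ℝ)) = (-1 : ℝ) • φ := by ext x; simp
  rw [h1, h.smul]; ring

theorem IsLin.zero {Λ : C_c(E3, ℝ) → ℝ} (h : IsLin Λ) : Λ 0 = 0 := by
  have := h.smul 0 0
  simpa using this

theorem Cls.abs_le {K : Set E3} {j : Fin 3} {L : ℝ} {τ : Fin 3 → C_c(E3, ℝ) → ℝ}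
    (h : Cls K j L τ) (h1 : ∀ v ∈ K, v j = 1) {C : ℝ} (hC : ∀ v ∈ K, ∀ k, |v k| ≤ C)
    (k : Fin 3) (φ : C_c(E3, ℝ)) : |τ k φ| ≤ C * τ j (cabs φ) := by
  have key : ∀ s : ℝ, |s| ≤ 1 → 0 ≤ C * τ j (cabs φ) + s * τ k φ := fun s hs => by
    set ψ : Fin 3 → C_c(E3, ℝ) := fun i =>
      (if i = j then C • cabs φ else 0) + (if i = k then s • φ else 0) with hψ
    have e1 : ∀ x, ∀ v : E3, ∑ i, ψ i x * v i = C * |φ x| * v j + s * φ x * v k := fun x v => by
      have : ∀ i, ψ i x * v i = (if i = j then C * |φ x| * v j else 0) +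
          (if i = k then s * φ x * v k else 0) := fun i => by
        simp only [hψ, CompactlySupportedContinuousMap.add_apply]
        split_ifs with h1 h2 h2
        · subst h1; subst h2; simp [cabs_apply]; ring
        · simp [cabs_apply, h1]
        · simp [h2]
        · simp
      simp_rw [this]
      rw [Finset.sum_add_distrib]
      simp
    have e2 : ∑ i, τ i (ψ i) = C * τ j (cabs φ) + s * τ k φ := by
      have : ∀ i, τ i (ψ i) = (if i = j then C * τ j (cabs φ) else 0) +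
          (if i = k then s * τ k φ else 0) := fun i => by
        simp only [hψ]
        rw [(h.lin i).add]
        split_ifs with h1 h2 h2
        · rw [(h.lin i).smul, (h.lin i).smul, h1, ← h2, h1]
        · rw [(h.lin i).smul, (h.lin i).zero, h1]
        · rw [(h.lin i).smul, (h.lin i).zero, h2]
        · rw [(h.lin i).zero]
      simp_rw [this]
      rw [Finset.sum_add_distrib]
      simp
    rw [← e2]
    refine h.pos ψ fun x v hv => ?_
    rw [e1, h1 v hv, mul_one]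
    have h2 : |s * φ x * v k| ≤ C * |φ x| := by
      rw [abs_mul, abs_mul]
      calc |s| * |φ x| * |v k| ≤ 1 * |φ x| * C := by
            refine mul_le_mul (mul_le_mul_of_nonneg_right hs (abs_nonneg _)) (hC v hv k)
              (abs_nonneg _) (by positivity)
        _ = C * |φ x| := by ring
    have h3 := neg_abs_le (s * φ x * v k)
    linarith
  rw [_root_.abs_le]
  have k1 := key 1 (by simp)
  have k2 := key (-1) (by simp)
  constructor <;> linarith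

theorem isCompact_cls {K : Set E3} {j : Fin 3} {L : ℝ} (h1 : ∀ v ∈ K, v j = 1)
    {C : ℝ} (hC0 : 0 ≤ C) (hC : ∀ v ∈ K, ∀ k, |v k| ≤ C) : IsCompact {τ | Cls K j L τ} := by
  have hsub : {τ | Cls K j L τ} ⊆ Set.pi univ fun _ : Fin 3 => Set.pi univ fun φ : C_c(E3, ℝ) =>
      Icc (-(C * (2 * L * nrm φ))) (C * (2 * L * nrm φ)) := by
    intro τ hτ k _ φ _
    have a1 := hτ.abs_le h1 hC k φ
    have a2 := hτ.bnd (cabs φ) (cabs_nonneg φ)
    rw [nrm_cabs] at a2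
    exact mem_Icc.2 (_root_.abs_le.1 (a1.trans (mul_le_mul_of_nonneg_left a2 hC0)))
  refine (isCompact_univ_pi fun _ => isCompact_univ_pi fun _ => isCompact_Icc).of_isClosed_subset
    ?_ hsub
  have ev : ∀ (k : Fin 3) (φ : C_c(E3, ℝ)),
      Continuous fun τ : Fin 3 → C_c(E3, ℝ) → ℝ => τ k φ := fun k φ =>
    (continuous_apply φ).comp (continuous_apply k)
  have hset : {τ | Cls K j L τ} =
      (⋂ (k : Fin 3) (φ : C_c(E3, ℝ)) (ψ : C_c(E3, ℝ)), {τ | τ k (φ + ψ) = τ k φ + τ k ψ}) ∩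
      (⋂ (k : Fin 3) (c : ℝ) (φ : C_c(E3, ℝ)), {τ | τ k (c • φ) = c * τ k φ}) ∩
      (⋂ (φ : C_c(E3, ℝ)) (_ : 0 ≤ φ), {τ | τ j φ ≤ 2 * L * nrm φ}) ∩
      (⋂ (ψ : Fin 3 → C_c(E3, ℝ)) (_ : ∀ x, ∀ v ∈ K, 0 ≤ ∑ k, ψ k x * v k),
        {τ | 0 ≤ ∑ k, τ k (ψ k)}) ∩
      (⋂ (φ : E3 → ℝ) (_ : ContDiff ℝ ∞ φ) (_ : HasCompactSupport φ)
        (_ : tsupport φ ⊆ Metric.ball 0 L) (ψ : Fin 3 → C_c(E3, ℝ))
        (_ : ∀ k x, ψ k x = fderiv ℝ φ x (ee k)), {τ | ∑ k, τ k (ψ k) = 0}) := by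
    ext τ
    simp only [mem_ofPred_eq, mem_inter_iff, mem_iInter]
    constructor
    · intro h
      exact ⟨⟨⟨⟨fun k φ ψ => (h.lin k).add φ ψ, fun k c φ => (h.lin k).smul c φ⟩, h.bnd⟩, h.pos⟩,
        h.div⟩
    · rintro ⟨⟨⟨⟨a1, a2⟩, a3⟩, a4⟩, a5⟩
      exact ⟨fun k => ⟨a1 k, a2 k⟩, a3, a4, a5⟩
  rw [hset]
  refine ((((isClosed_iInter fun k => isClosed_iInter fun φ => isClosed_iInter fun ψ => ?_).inter
    (isClosed_iInter fun k => isClosed_iInter fun c => isClosed_iInter fun φ => ?_)).inter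
    (isClosed_iInter fun φ => isClosed_iInter fun _ => ?_)).inter
    (isClosed_iInter fun ψ => isClosed_iInter fun _ => ?_)).inter
    (isClosed_iInter fun φ => isClosed_iInter fun _ => isClosed_iInter fun _ =>
      isClosed_iInter fun _ => isClosed_iInter fun ψ => isClosed_iInter fun _ => ?_)
  · exact isClosed_eq (ev _ _) ((ev _ _).add (ev _ _))
  · exact isClosed_eq (ev _ _) (continuous_const.mul (ev _ _))
  · exact isClosed_le (ev _ _) continuous_const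
  · exact isClosed_le continuous_const (continuous_finsetSum _ fun k _ => ev _ _)
  · exact isClosed_eq (continuous_finsetSum _ fun k _ => ev _ _) continuous_const

theorem convex_cls (K : Set E3) (j : Fin 3) (L : ℝ) :
    Convex ℝ {τ | Cls K j L τ} := by
  intro τ hτ τ' hτ' a b ha hb hab
  have hap : ∀ k φ, (a • τ + b • τ') k φ = a * τ k φ + b * τ' k φ := fun k φ => rfl
  have hsum : ∀ ψ : Fin 3 → C_c(E3, ℝ), ∑ k, (a • τ + b • τ') k (ψ k) =
      a * ∑ k, τ k (ψ k) + b * ∑ k, τ' k (ψ k) := fun ψ => by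
    simp_rw [hap, Finset.sum_add_distrib, Finset.mul_sum]
  refine ⟨fun k => ⟨fun φ ψ => ?_, fun c φ => ?_⟩, fun φ hφ => ?_, fun ψ hψ => ?_,
    fun φ h1 h2 h3 ψ hψ => ?_⟩
  · rw [hap, hap, hap, (hτ.lin k).add, (hτ'.lin k).add]; ring
  · rw [hap, hap, (hτ.lin k).smul, (hτ'.lin k).smul]; ring
  · rw [hap]
    have e1 := mul_le_mul_of_nonneg_left (hτ.bnd φ hφ) ha
    have e2 := mul_le_mul_of_nonneg_left (hτ'.bnd φ hφ) hb
    calc a * τ j φ + b * τ' j φ ≤ a * (2 * L * nrm φ) + b * (2 * L * nrm φ) := add_le_add e1 e2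
      _ = (a + b) * (2 * L * nrm φ) := by ring
      _ = 2 * L * nrm φ := by rw [hab, one_mul]
  · rw [hsum]
    exact add_nonneg (mul_nonneg ha (hτ.pos ψ hψ)) (mul_nonneg hb (hτ'.pos ψ hψ))
  · rw [hsum, hτ.div φ h1 h2 h3 ψ hψ, hτ'.div φ h1 h2 h3 ψ hψ]; ring

theorem cls_zero (K : Set E3) (j : Fin 3) {L : ℝ} (hL : 0 ≤ L) :
    Cls K j L (0 : Fin 3 → C_c(E3, ℝ) → ℝ) where
  lin k := ⟨fun _ _ => by simp, fun _ _ => by simp⟩
  bnd φ _ := by simpa using mul_nonneg (mul_nonneg zero_le_two hL) (nrm_nonneg φ)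
  pos ψ _ := by simp
  div φ _ _ _ ψ _ := by simp

end Vale.Agent.P073.H761
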