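import Vale.Agent.P073.H761.Cls

/-!
# P073 / H761: elements of the class are `ξ μ` with `ξ ∈ K` almost everywhere
-/

open MeasureTheory Set Filter Topology
open scoped CompactlySupported ENNReal NNReal ContDiff

namespace Vale.Agent.P073.H761

theorem ae_nonneg_of_cc {μ : Measure E3} [IsFiniteMeasure μ] {h : E3 → ℝ} (hm : Measurable h)
    {C : ℝ} (hC : ∀ x, |h x| ≤ C) (hp : ∀ φ : C_c(E3, ℝ), 0 ≤ φ → 0 ≤ ∫ x, φ x * h x ∂μ) :
    ∀ᵐ x ∂μ, 0 ≤ h x := by
  have hC0 : 0 ≤ C := (abs_nonneg _).trans (hC 0)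
  have hint : Integrable h μ := Integrable.of_bound hm.aestronglyMeasurable C
    (Eventually.of_forall fun x => by simpa using hC x)
  -- integral over compact sets
  have hK : ∀ K : Set E3, IsCompact K → 0 ≤ ∫ x in K, h x ∂μ := by
    intro K hK
    refine le_of_forall_pos_le_add fun ε hε => ?_
    have hε' : 0 < ε / (C + 1) := by positivity
    obtain ⟨U, hKU, hU, hμU⟩ := K.exists_isOpen_lt_add (μ := μ) (measure_ne_top μ K)
      (ENNReal.ofReal_pos.2 hε').ne'
    obtain ⟨φ, hφ1, hφ2, hφ3⟩ := exists_bump hK hU hKU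
    have h0 := hp φ (fun x => (hφ3 x).1)
    have hφh : Integrable (fun x => φ x * h x) μ := by
      refine Integrable.bdd_mul (c := 1) hint φ.continuous.aestronglyMeasurable
        (Eventually.of_forall fun x => ?_)
      rw [Real.norm_eq_abs, abs_of_nonneg (hφ3 x).1]; exact (hφ3 x).2
    have h1 : ∫ x, φ x * h x ∂μ = ∫ x in K, h x ∂μ + ∫ x in Kᶜ, φ x * h x ∂μ := by
      rw [← integral_add_compl hK.measurableSet hφh]
      congr 1
      exact setIntegral_congr_fun hK.measurableSet fun x hx => by simp [hφ1 x hx]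
    have h2 : ∫ x in Kᶜ, φ x * h x ∂μ ≤ ε := by
      have h3 : ∀ x, φ x * h x ≤ U.indicator (fun _ => C) x := fun x => by
        by_cases hx : x ∈ U
        · rw [indicator_of_mem hx]
          calc φ x * h x ≤ φ x * C :=
                mul_le_mul_of_nonneg_left ((le_abs_self _).trans (hC x)) (hφ3 x).1
            _ ≤ 1 * C := mul_le_mul_of_nonneg_right (hφ3 x).2 hC0
            _ = C := one_mul C
        · rw [indicator_of_notMem hx, image_eq_zero_of_notMem_tsupport fun hh => hx (hφ2 hh),
            zero_mul]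
      calc ∫ x in Kᶜ, φ x * h x ∂μ ≤ ∫ x in Kᶜ, U.indicator (fun _ => C) x ∂μ := by
            refine integral_mono hφh.integrableOn ?_ h3
            exact ((integrable_const C).indicator hU.measurableSet).integrableOn
        _ = C * μ.real (U \ K) := by
            rw [integral_indicator hU.measurableSet, Measure.restrict_restrict hU.measurableSet,
              setIntegral_const, smul_eq_mul, mul_comm]
            rfl
        _ ≤ C * (ε / (C + 1)) := by
            refine mul_le_mul_of_nonneg_left ?_ hC0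
            have h4 : μ (U \ K) ≤ ENNReal.ofReal (ε / (C + 1)) := by
              rw [measure_sdiff hKU hK.measurableSet.nullMeasurableSet (measure_ne_top μ K)]
              exact tsub_le_iff_left.2 hμU.le
            exact ENNReal.toReal_le_of_le_ofReal hε'.le h4
        _ ≤ ε := by
            rw [mul_div_assoc', div_le_iff₀ (by positivity)]
            nlinarith
    linarith
  by_contra hcon
  have hS : μ {x | h x < 0} ≠ 0 := by
    intro h0
    exact hcon (by
      filter_upwards [measure_eq_zero_iff_ae_notMem.1 h0] with x hx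
      exact not_lt.1 hx)
  have hSm : MeasurableSet {x | h x < 0} := hm measurableSet_Iio
  obtain ⟨K, hKS, hKc, hKp⟩ := hSm.exists_lt_isCompact (μ := μ) (pos_iff_ne_zero.2 hS)
  have h1 := hK K hKc
  have h2 : ∫ x in K, h x ∂μ = 0 := by
    refine le_antisymm ?_ h1
    exact setIntegral_nonpos hKc.measurableSet fun x hx => le_of_lt (hKS hx)
  have h3 : ∫ x in K, (-h x) ∂μ = 0 := by rw [integral_neg, h2, neg_zero]
  rw [setIntegral_eq_zero_iff_of_nonneg_ae] at h3
  · have h4 : μ K = 0 := by
      have h5 : ∀ᵐ x ∂μ.restrict K, x ∈ K := ae_restrict_mem hKc.measurableSet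
      have h6 : ∀ᵐ x ∂μ.restrict K, False := by
        filter_upwards [h3, h5] with x hx hxK
        have := hKS hxK
        simp only [mem_ofPred_eq] at this
        simp only [Pi.zero_apply] at hx
        linarith
      have h7 := ae_iff.1 h6
      simpa using h7
    exact hKp.ne' h4
  · filter_upwards [ae_restrict_mem hKc.measurableSet] with x hx
    have := hKS hx
    simp only [mem_ofPred_eq] at this
    simp only [Pi.zero_apply]
    linarith
  · exact hint.neg.integrableOn

theorem inner_eq_sum (v w : E3) : ∑ k, v k * w k = inner ℝ w v := by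
  rw [EuclideanSpace.inner_eq_star_dotProduct]
  simp [dotProduct]

/-- Elements of the class are given by a finite measure and a direction field with values in
`K`. -/
theorem Cls.exists_rep {K : Set E3} (hK : IsCompact K) (hKc : Convex ℝ K) {j : Fin 3}
    (h1 : ∀ v ∈ K, v j = 1) {L : ℝ} (hL : 0 ≤ L) {τ : Fin 3 → C_c(E3, ℝ) → ℝ}
    (h : Cls K j L τ) :
    ∃ (μ : Measure E3) (ξ : E3 → E3), IsFiniteMeasure μ ∧ Measurable ξ ∧
      (∃ C : ℝ, ∀ x, ‖ξ x‖ ≤ C) ∧ (∀ᵐ x ∂μ, ξ x ∈ K) ∧
      (∀ k φ, τ k φ = ∫ x, φ x * ξ x k ∂μ) ∧ (∀ x, ξ x j = 1) := by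
  obtain ⟨C, hC0, hC⟩ : ∃ C : ℝ, 0 ≤ C ∧ ∀ v ∈ K, ∀ k, |v k| ≤ C := by
    obtain ⟨C, hC⟩ := hK.isBounded.exists_norm_le
    exact ⟨max C 0, le_max_right _ _, fun v hv k =>
      ((PiLp.norm_apply_le v k).trans (hC v hv)).trans (le_max_left _ _)⟩
  have hjp : ∀ φ, 0 ≤ φ → 0 ≤ τ j φ := fun φ hφ => by
    have := h.pos (fun k => if k = j then φ else 0) fun x v hv => by
      have e : ∀ k, (if k = j then φ else (0 : C_c(E3, ℝ))) x * v k =
          if k = j then φ x * v k else 0 := fun k => by split_ifs <;> simp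
      simp_rw [e]
      simp only [Finset.sum_ite_eq', Finset.mem_univ, if_true]
      rw [h1 v hv, mul_one]; exact hφ x
    have e : ∀ k, τ k (if k = j then φ else (0 : C_c(E3, ℝ))) =
        if k = j then τ k φ else 0 := fun k => by
      split_ifs
      · rfl
      · exact (h.lin k).zero
    simp_rw [e] at this
    simpa using this
  obtain ⟨μ, hμf, -, hμ⟩ := exists_measure (h.lin j) hjp (M := C * (2 * L)) (by positivity)
    fun φ => by
      have a1 := h.abs_le h1 hC j φ
      have a2 := h.bnd (cabs φ) (cabs_nonneg φ)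
      rw [nrm_cabs] at a2
      refine a1.trans ((mul_le_mul_of_nonneg_left a2 hC0).trans (le_of_eq (by ring)))
  have hden : ∀ k, ∃ m : E3 → ℝ, Measurable m ∧ (∀ x, |m x| ≤ C) ∧
      ∀ φ : C_c(E3, ℝ), τ k φ = ∫ x, φ x * m x ∂μ := fun k => by
    refine exists_density (h.lin k) μ hC0 fun φ hφ => ?_
    have a1 := h.abs_le h1 hC k φ
    have e : cabs φ = φ := by
      ext x; rw [cabs_apply, abs_of_nonneg (hφ x)]
    rw [e, hμ φ] at a1
    exact a1
  choose m hmm hmC hm using hden
  set ξ : E3 → E3 := fun x => WithLp.toLp 2 fun k => if k = j then 1 else m k x with hξ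
  have hξk : ∀ x k, ξ x k = if k = j then 1 else m k x := fun x k => rfl
  have hξm : Measurable ξ := by
    refine (PiLp.continuous_toLp 2 _).measurable.comp (measurable_pi_lambda _ fun k => ?_)
    split_ifs
    · exact measurable_const
    · exact hmm k
  have hrep : ∀ k φ, τ k φ = ∫ x, φ x * ξ x k ∂μ := fun k φ => by
    by_cases hk : k = j
    · subst hk
      rw [hμ φ]
      exact integral_congr_ae (Eventually.of_forall fun x => by simp [hξk])
    · rw [hm k φ]
      exact integral_congr_ae (Eventually.of_forall fun x => by simp [hξk, hk])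
  have hbd : ∀ x k, |ξ x k| ≤ max C 1 := fun x k => by
    rw [hξk]
    split_ifs
    · rw [abs_one]; exact le_max_right _ _
    · exact (hmC k x).trans (le_max_left _ _)
  have hξn : ∀ x, ‖ξ x‖ ≤ 3 * max C 1 := fun x => by
    have h0 : ‖ξ x‖ ≤ ∑ k, ‖ξ x k • ee k‖ := by
      have hv : ξ x = ∑ k, (ξ x) k • ee k := by
        conv_lhs => rw [← (EuclideanSpace.basisFun (Fin 3) ℝ).sum_repr (ξ x)]
        simp
      calc ‖ξ x‖ = ‖∑ k, (ξ x) k • ee k‖ := by rw [← hv]
        _ ≤ _ := norm_sum_le _ _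
    refine h0.trans ?_
    calc ∑ k, ‖ξ x k • ee k‖ ≤ ∑ _k : Fin 3, max C 1 := by
          refine Finset.sum_le_sum fun k _ => ?_
          rw [norm_smul, Real.norm_eq_abs, PiLp.norm_single, norm_one, mul_one]
          exact hbd x k
      _ = 3 * max C 1 := by simp
  refine ⟨μ, ξ, hμf, hξm, ⟨_, hξn⟩, ?_, hrep, fun x => by simp [hξk]⟩
  -- the dual cone
  set D : Set E3 := {w | ∀ v ∈ K, 0 ≤ ∑ k, w k * v k} with hD
  have hDae : ∀ w ∈ D, ∀ᵐ x ∂μ, 0 ≤ ∑ k, w k * ξ x k := fun w hw => by
    have hmw : Measurable fun x => ∑ k, w k * ξ x k :=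
      Finset.measurable_sum _ fun k _ => measurable_const.mul
        ((EuclideanSpace.proj (𝕜 := ℝ) (ι := Fin 3) k).continuous.measurable.comp hξm)
    refine ae_nonneg_of_cc hmw (C := ∑ k, |w k| * max C 1) (fun x => ?_) fun φ hφ => ?_
    · refine (Finset.abs_sum_le_sum_abs _ _).trans (Finset.sum_le_sum fun k _ => ?_)
      rw [abs_mul]; exact mul_le_mul_of_nonneg_left (hbd x k) (abs_nonneg _)
    · have := h.pos (fun k => w k • φ) fun x v hv => by
        have e : ∑ k, (w k • φ) x * v k = φ x * ∑ k, w k * v k := by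
          rw [Finset.mul_sum]
          exact Finset.sum_congr rfl fun k _ => by simp; ring
        rw [e]; exact mul_nonneg (hφ x) (hw v hv)
      have hI : ∀ k, Integrable (fun x => (w k • φ) x * ξ x k) μ := fun k => by
        refine Integrable.bdd_mul (c := nrm (w k • φ)) ?_
          (w k • φ).continuous.aestronglyMeasurable (Eventually.of_forall fun x => by
            simpa using abs_le_nrm (w k • φ) x)
        exact Integrable.of_bound ((EuclideanSpace.proj (𝕜 := ℝ) (ι := Fin 3)
          k).continuous.measurable.comp hξm).aestronglyMeasurable (max C 1)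
          (Eventually.of_forall fun x => by simpa using hbd x k)
      have e2 : ∫ x, φ x * ∑ k, w k * ξ x k ∂μ = ∑ k, τ k (w k • φ) := by
        simp_rw [hrep]
        rw [← integral_finsetSum _ fun k _ => hI k]
        refine integral_congr_ae (Eventually.of_forall fun x => ?_)
        simp only
        rw [Finset.mul_sum]
        exact Finset.sum_congr rfl fun k _ => by simp; ring
      rw [e2]; exact this
  obtain ⟨s, hsc, hsd⟩ := TopologicalSpace.exists_countable_dense ↥D
  have hae : ∀ᵐ x ∂μ, ∀ w ∈ s, 0 ≤ ∑ k, (w : E3) k * ξ x k :=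
    (ae_ball_iff hsc).2 fun w _ => hDae w w.2
  filter_upwards [hae] with x hx
  have hall : ∀ w ∈ D, 0 ≤ ∑ k, w k * ξ x k := by
    intro w hw
    have hcl : IsClosed {w : ↥D | 0 ≤ ∑ k, (w : E3) k * ξ x k} := by
      refine isClosed_le continuous_const (continuous_finsetSum _ fun k _ => ?_)
      exact ((EuclideanSpace.proj (𝕜 := ℝ) (ι := Fin 3) k).continuous.comp
        continuous_subtype_val).mul continuous_const
    have hsub : s ⊆ {w : ↥D | 0 ≤ ∑ k, (w : E3) k * ξ x k} := fun w hw => hx w hw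
    have huniv : {w : ↥D | 0 ≤ ∑ k, (w : E3) k * ξ x k} = univ := by
      rw [← univ_subset_iff, ← hsd.closure_eq]
      exact hcl.closure_subset_iff.2 hsub
    have : (⟨w, hw⟩ : ↥D) ∈ {w : ↥D | 0 ≤ ∑ k, (w : E3) k * ξ x k} := by
      rw [huniv]; exact mem_univ _
    exact this
  by_contra hnot
  obtain ⟨f, u, hfu, hfv⟩ := geometric_hahn_banach_point_closed hKc hK.isClosed hnot
  have hfe : ∀ v : E3, f v = ∑ k, f (ee k) * v k := fun v => by
    have hv : v = ∑ k, v k • ee k := by
      conv_lhs => rw [← (EuclideanSpace.basisFun (Fin 3) ℝ).sum_repr v]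
      simp
    conv_lhs => rw [hv, map_sum]
    exact Finset.sum_congr rfl fun k _ => by rw [map_smul, smul_eq_mul, mul_comm]
  set w : E3 := WithLp.toLp 2 fun k => f (ee k) - (if k = j then u else 0) with hw
  have hwk : ∀ k, w k = f (ee k) - (if k = j then u else 0) := fun k => rfl
  have hwv : ∀ v : E3, ∑ k, w k * v k = f v - u * v j := fun v => by
    rw [hfe v]
    simp_rw [hwk, sub_mul, Finset.sum_sub_distrib, ite_mul, zero_mul]
    simp
  have hwD : w ∈ D := fun v hv => by
    rw [hwv, h1 v hv, mul_one]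
    have := hfv v hv; linarith
  have h2 := hall w hwD
  rw [hwv] at h2
  have h3 : ξ x j = 1 := by simp [hξk]
  rw [h3, mul_one] at h2
  linarith

/-- the divergence condition for the representing measure -/
theorem Cls.div_rep {K : Set E3} {j : Fin 3} {L : ℝ} {τ : Fin 3 → C_c(E3, ℝ) → ℝ}
    (h : Cls K j L τ) {μ : Measure E3} [IsFiniteMeasure μ] {ξ : E3 → E3} (hξ : Measurable ξ)
    {C : ℝ} (hC : ∀ x, ‖ξ x‖ ≤ C) (hrep : ∀ k φ, τ k φ = ∫ x, φ x * ξ x k ∂μ)
    {φ : E3 → ℝ} (h1 : ContDiff ℝ ∞ φ) (h2 : HasCompactSupport φ)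
    (h3 : tsupport φ ⊆ Metric.ball 0 L) : ∫ x, fderiv ℝ φ x (ξ x) ∂μ = 0 := by
  have hc : Continuous (fderiv ℝ φ) := h1.continuous_fderiv (by simp)
  set ψ : Fin 3 → C_c(E3, ℝ) := fun k =>
    ⟨⟨fun x => fderiv ℝ φ x (ee k), hc.clm_apply continuous_const⟩,
      (h2.fderiv_apply ℝ (ee k))⟩ with hψ
  have hd := h.div φ h1 h2 h3 ψ fun k x => rfl
  simp_rw [hrep] at hd
  have hI : ∀ k, Integrable (fun x => ψ k x * ξ x k) μ := fun k => by
    refine Integrable.bdd_mul (c := nrm (ψ k)) ?_
      (ψ k).continuous.aestronglyMeasurable (Eventually.of_forall fun x => by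
        simpa using abs_le_nrm (ψ k) x)
    exact Integrable.of_bound ((EuclideanSpace.proj (𝕜 := ℝ) (ι := Fin 3)
      k).continuous.measurable.comp hξ).aestronglyMeasurable C
      (Eventually.of_forall fun x => (PiLp.norm_apply_le (ξ x) k).trans (hC x))
  rw [← integral_finsetSum _ fun k _ => hI k] at hd
  rw [← hd]
  refine integral_congr_ae (Eventually.of_forall fun x => ?_)
  have hv : ξ x = ∑ k, (ξ x) k • ee k := by
    conv_lhs => rw [← (EuclideanSpace.basisFun (Fin 3) ℝ).sum_repr (ξ x)]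
    simp
  simp only
  conv_lhs => rw [hv, map_sum]
  refine Finset.sum_congr rfl fun k _ => ?_
  rw [map_smul, smul_eq_mul, mul_comm]
  rfl

end Vale.Agent.P073.H761
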