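import Vale.Agent.P073.H761.SegB
import Vale.Agent.P073.H880.Fine2
import Vale.Agent.P073.H705.Bij
import Vale.Agent.P073.ConicalStrata2
import Vale.Agent.P073.RED.Red225
import Vale.Agent.P073.H989.DifR

/-!
# P073, block H761, [CONAPP]: conical approximations, from diffeomorphisms to a generic net

`H989.DifApp q R f F` (diffeomorphisms, `L^q` convergence of the derivatives) gives `ConApp q R f F` (conical homeomorphisms, `H880.SpecFine`), and for almost every
origin `v` the statement `ConNet` on the edges and squares of `v`.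
-/

open Set Metric Topology Filter MeasureTheory
open scoped ENNReal NNReal ContDiff

namespace Vale.Agent.P073.H761

open Vale.Agent.P073.AB (Idx pt edge eInt squ cl)
open Vale.Agent.P073.St (V Mat)
open _root_.P073 (ConHomeo ConicalOn ConicalWithinAt)
open _root_.P073.Net (dyc dyo len)
open Vale.Agent.P073.H194
open Vale.Agent.P073.H73 (onSeg)
open Vale.Agent.P073.SQ (ev)

/-- a conical homeomorphism is differentiable almost everywhere -/
theorem ae_diff_con {R Λ : Set V} (hR : IsOpen R) (H : ConHomeo R Λ) :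
    ∀ᵐ x ∂(volume : Measure V), x ∈ R → DifferentiableAt ℝ H.toFun x := by
  have hnull := _root_.P073.measure_singular_eq_zero (volume : Measure V) hR H.conical H.cont
  rw [measure_eq_zero_iff_ae_notMem] at hnull
  filter_upwards [hnull] with x hx hxR
  have htop : _root_.P073.linSpace H.toFun x = ⊤ := by
    by_contra h
    exact hx ⟨hxR, h⟩
  have h1 : ContDiffAt ℝ ∞ H.toFun x :=
    _root_.P073.contDiffAt_of_top (H.conical.conicalAt hR hxR) htop
  exact h1.differentiableAt (by simp)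

/-- **a conical map close in `C¹` to a diffeomorphism** -/
theorem exists_con {R Λ : Set V} (hR : IsOpen R) (hRb : Bornology.IsBounded R) (hΛ : IsOpen Λ)
    (hΛb : Bornology.IsBounded Λ) {φ : V → V} (hφ : St.IsDiffeo R Λ φ) {ε : V → ℝ}
    (hε : ContinuousOn ε R) (hε0 : ∀ x ∈ R, 0 < ε x) :
    ∃ ψ : ConHomeo R Λ, (∀ x ∈ R, ‖ψ.toFun x - φ x‖ ≤ ε x) ∧
      ∀ x ∈ R, ∀ᶠ y in 𝓝 x, ‖(ψ.toFun y - ψ.toFun x) - (φ y - φ x)‖ ≤ ε x * ‖y - x‖ := by
  have hfine : H880.SpecFine := H880.specFine H705.specBij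
  have hho : St.IsHomeo R Λ φ := by
    obtain ⟨k, h1, h2, h3⟩ := hφ
    exact ⟨k, h1, (AB.smooth_of_sm h2).continuousOn, (AB.smooth_of_sm h3).continuousOn⟩
  have hC : ContDiffOn ℝ 1 φ (R \ ∅) := by
    rw [sdiff_empty]
    obtain ⟨k, h1, h2, h3⟩ := hφ
    exact (AB.smooth_of_sm h2).of_le (by simp)
  have hinj : ∀ x ∈ R \ ∅, ∀ v, fderiv ℝ φ x v = 0 → v = 0 := fun x hx v hv =>
    RED.Red225.fderiv_inj hR hφ hx.1 hv
  obtain ⟨g, ⟨k, h1, h2, h3⟩, -, h4, h5, h6⟩ := hfine R Λ ∅ φ ε hR hRb hΛ hΛb (empty_subset _)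
    (by rwa [sdiff_empty]) hho hC hinj (by rwa [sdiff_empty]) (fun x hx => hε0 x hx.1)
  refine ⟨⟨g, k, fun x hx => (h1.1 x hx).1, fun y hy => (h1.2 y hy).1, fun x hx => (h1.1 x hx).2,
    fun y hy => (h1.2 y hy).2, h2, h3, fun x hx => h4 x ⟨hx, fun h => h⟩⟩,
    fun x hx => h5 x ⟨hx, fun h => h⟩, fun x hx => h6 x ⟨hx, fun h => h⟩⟩

/-- the derivatives are close -/
theorem fderiv_close {ψ φ : V → V} {x : V} {ε : ℝ} (hε : 0 ≤ ε) (hψ : DifferentiableAt ℝ ψ x)
    (hφ : DifferentiableAt ℝ φ x)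
    (h : ∀ᶠ y in 𝓝 x, ‖(ψ y - ψ x) - (φ y - φ x)‖ ≤ ε * ‖y - x‖) :
    ‖fderiv ℝ ψ x - fderiv ℝ φ x‖ ≤ ε := by
  have h1 : HasFDerivAt (fun y => ψ y - φ y) (fderiv ℝ ψ x - fderiv ℝ φ x) x :=
    hψ.hasFDerivAt.sub hφ.hasFDerivAt
  refine h1.le_of_lip' hε ?_
  filter_upwards [h] with y hy
  have e : ψ y - φ y - (ψ x - φ x) = (ψ y - ψ x) - (φ y - φ x) := by abel
  rw [e]
  exact hy

theorem enorm_sub_le' {E : Type*} [NormedAddCommGroup E] (a b c : E) :
    ‖a - c‖ₑ ≤ ‖b - c‖ₑ + ‖a - b‖ₑ := by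
  have e : a - c = (b - c) + (a - b) := by abel
  rw [e]
  exact enorm_add_le _ _

/-- **conical approximations from diffeomorphisms** -/
theorem conApp_of_difApp {q : ℝ} (hq : 1 ≤ q) {R : Set V} (hR : IsOpen R)
    (hRb : Bornology.IsBounded R) {f : V → V} {F : V → Mat} (hΛ : IsOpen (f '' R))
    (hΛb : Bornology.IsBounded (f '' R)) (h : H989.DifApp q R f F) : ConApp q R f F := by
  have hq0 : 0 < q := by linarith
  obtain ⟨φ, hd, hφ, hc⟩ := h
  have hRc : (Rᶜ).Nonempty := by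
    rw [nonempty_compl]
    rintro rfl
    exact NormedSpace.unbounded_univ ℝ V hRb
  set ε : ℕ → V → ℝ := fun j x => min (infDist x Rᶜ) 1 / (2 * (j + 1)) with hε
  have hpos : ∀ x ∈ R, 0 < infDist x Rᶜ := fun x hx =>
    (hR.isClosed_compl.notMem_iff_infDist_pos hRc).1 (by simpa using hx)
  have hε0 : ∀ j, ∀ x ∈ R, 0 < ε j x := fun j x hx => by
    have := hpos x hx
    simp only [hε]
    positivity
  have hεc : ∀ j, ContinuousOn (ε j) R := fun j => by
    have : Continuous (ε j) := ((continuous_infDist_pt _).min continuous_const).div_const _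
    exact this.continuousOn
  have hε1 : ∀ j x, ε j x ≤ 1 / (j + 1) := fun j x => by
    simp only [hε]
    rw [div_le_div_iff₀ (by positivity) (by positivity)]
    have h1 : min (infDist x Rᶜ) 1 ≤ 1 := min_le_right _ _
    have h2 : (0:ℝ) ≤ j + 1 := by positivity
    nlinarith
  choose ψ h1 h2 using fun j =>
    exists_con hR hRb hΛ hΛb (hd (2 * j + 1)) (hεc j) (hε0 j)
  refine ⟨ψ, fun j => ?_, ?_⟩
  · have h3 : H989.Bz R (φ (2 * j + 1)) (ψ j).toFun (1 / (2 * (j + 1))) := by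
      refine H989.bz_of_infDist hRb (c := 1 / (2 * (j + 1))) (by positivity) (fun x hx => ?_)
        fun x hx => ?_
      · refine (h1 j x hx).trans ?_
        simp only [hε]
        rw [div_eq_mul_one_div, mul_comm]
        gcongr
        exact min_le_left _ _
      · refine (h1 j x hx).trans ?_
        simp only [hε]
        gcongr
        exact min_le_right _ _
    refine ((hφ (2 * j + 1)).trans h3).mono (le_of_eq ?_)
    push_cast
    have h4 : (0:ℝ) < (j:ℝ) + 1 := by positivity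
    rw [show (2 * (j:ℝ) + 1 + 1) = 2 * (j + 1) by ring]
    rw [← add_div, div_eq_div_iff (by positivity) (by positivity)]
    ring
  · -- the derivatives
    have hvol : volume R ≠ ⊤ := hRb.measure_lt_top.ne
    have hle : ∀ j : ℕ, ∫⁻ x in R, ‖fderiv ℝ (ψ j).toFun x - cl (F x)‖ₑ ^ q ≤
        2 ^ (q - 1) * ((∫⁻ x in R, ‖fderiv ℝ (φ (2 * j + 1)) x - cl (F x)‖ₑ ^ q) +
          ENNReal.ofReal (1 / (j + 1)) ^ q * volume R) := by
      intro j
      calc ∫⁻ x in R, ‖fderiv ℝ (ψ j).toFun x - cl (F x)‖ₑ ^ q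
          ≤ ∫⁻ x in R, 2 ^ (q - 1) * (‖fderiv ℝ (φ (2 * j + 1)) x - cl (F x)‖ₑ ^ q +
              ENNReal.ofReal (1 / (j + 1)) ^ q) := by
            refine lintegral_mono_ae ?_
            rw [ae_restrict_iff' hR.measurableSet]
            filter_upwards [ae_diff_con hR (ψ j)] with x hx hxR
            refine le_trans ?_ (ENNReal.rpow_add_le_mul_rpow_add_rpow _ _ hq)
            gcongr
            have hdφ : DifferentiableAt ℝ (φ (2 * j + 1)) x := by
              obtain ⟨k, a1, a2, a3⟩ := hd (2 * j + 1)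
              exact ((AB.smooth_of_sm a2).differentiableOn (by simp)).differentiableAt
                (hR.mem_nhds hxR)
            have h3 := fderiv_close (hε0 j x hxR).le (hx hxR) hdφ (h2 j x hxR)
            have h4 : ‖fderiv ℝ (ψ j).toFun x - fderiv ℝ (φ (2 * j + 1)) x‖ₑ ≤
                ENNReal.ofReal (1 / (j + 1)) := by
              rw [← ofReal_norm]
              exact ENNReal.ofReal_le_ofReal (h3.trans (hε1 j x))
            exact (enorm_sub_le' _ _ _).trans (add_le_add le_rfl h4)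
        _ = _ := by
            rw [lintegral_const_mul' _ _ (by finiteness), lintegral_add_right _ measurable_const,
              lintegral_const, Measure.restrict_apply_univ]
    have hj : Tendsto (fun j : ℕ => 2 * j + 1) atTop atTop :=
      tendsto_atTop_mono (fun j => by simp only [id]; omega) tendsto_id
    have t1 := hc.comp hj
    have t2 : Tendsto (fun j : ℕ => ENNReal.ofReal (1 / ((j:ℝ) + 1)) ^ q * volume R) atTop
        (𝓝 0) := by
      have t3 : Tendsto (fun j : ℕ => ENNReal.ofReal (1 / ((j:ℝ) + 1))) atTop (𝓝 0) := by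
        have := ENNReal.tendsto_ofReal tendsto_one_div_add_atTop_nhds_zero_nat
        rwa [ENNReal.ofReal_zero] at this
      have t4 := t3.ennrpow_const q
      rw [ENNReal.zero_rpow_of_pos hq0] at t4
      have t5 := ENNReal.Tendsto.mul_const t4 (Or.inr hvol)
      rwa [zero_mul] at t5
    have t6 := ENNReal.Tendsto.const_mul (t1.add t2) (a := (2:ℝ≥0∞) ^ (q - 1))
      (Or.inr (by finiteness))
    rw [add_zero, mul_zero] at t6
    exact tendsto_of_tendsto_of_tendsto_of_le_of_le tendsto_const_nhds t6 (fun _ => zero_le) hle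

/-! ### The net of a generic origin -/

/-- a sequence of conical maps on the edges and squares of the origin `v` -/
structure ConNet (q : ℝ) (v : V) {R Λ : Set V} (φ : ℕ → ConHomeo R Λ) (F : V → Mat) : Prop where
  conv : NetConv q v R (fun j => fderiv ℝ (φ j).toFun) fun x => cl (F x)
  /-- the maps are differentiable at almost all points of the edges -/
  dife : ∀ j (e : Idx × Fin 3), ∀ᵐ t ∂(volume.restrict (Icc (0:ℝ) 1)),
    pt v e.1.1 e.1.2 + t • ((1 / 2 ^ e.1.1 : ℝ) • ev e.2) ∈ R →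
    DifferentiableAt ℝ (φ j).toFun (pt v e.1.1 e.1.2 + t • ((1 / 2 ^ e.1.1 : ℝ) • ev e.2))
  /-- the directional derivatives on the squares -/
  line : ∀ j s, squ v s ⊆ R →
    sInt v s (fun z => ∑ i ∈ Finset.univ.erase s.2, ‖lineDeriv ℝ (φ j).toFun z (ev i)‖ₑ ^ q) ≤
      2 * sInt v s fun z => ‖fderiv ℝ (φ j).toFun z‖ₑ ^ q

theorem line_bound {q : ℝ} (hq : 0 ≤ q) {φ : V → V} {z : V} (hz : DifferentiableAt ℝ φ z)
    (k : Fin 3) : ∑ j ∈ Finset.univ.erase k, ‖lineDeriv ℝ φ z (ev j)‖ₑ ^ q ≤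
      2 * ‖fderiv ℝ φ z‖ₑ ^ q := by
  have h2 : ∀ j ∈ Finset.univ.erase k, ‖lineDeriv ℝ φ z (ev j)‖ₑ ^ q ≤
      ‖fderiv ℝ φ z‖ₑ ^ q := by
    intro j _
    rw [hz.lineDeriv_eq_fderiv]
    gcongr
    have h3 := (fderiv ℝ φ z).le_opNorm (ev j)
    rw [H705.norm_ev, mul_one] at h3
    exact enorm_le_iff_norm_le.2 h3
  refine (Finset.sum_le_card_nsmul _ _ _ h2).trans (le_of_eq ?_)
  rw [Finset.card_erase_of_mem (Finset.mem_univ _)]
  simp

/-- almost every origin is good for one conical map -/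
theorem ae_con_net {q : ℝ} (hq : 0 < q) {R Λ : Set V} (hR : IsOpen R) (φ : ConHomeo R Λ) :
    ∀ᵐ v : V, (∀ e : Idx × Fin 3, ∀ᵐ t ∂(volume.restrict (Icc (0:ℝ) 1)),
      pt v e.1.1 e.1.2 + t • ((1 / 2 ^ e.1.1 : ℝ) • ev e.2) ∈ R →
      DifferentiableAt ℝ φ.toFun (pt v e.1.1 e.1.2 + t • ((1 / 2 ^ e.1.1 : ℝ) • ev e.2))) ∧
      ∀ s, squ v s ⊆ R →
        sInt v s (fun z => ∑ i ∈ Finset.univ.erase s.2, ‖lineDeriv ℝ φ.toFun z (ev i)‖ₑ ^ q) ≤
          2 * sInt v s fun z => ‖fderiv ℝ φ.toFun z‖ₑ ^ q := by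
  have h0 : volume {x | ¬ (x ∈ R → DifferentiableAt ℝ φ.toFun x)} = 0 :=
    ae_iff.1 (ae_diff_con hR φ)
  set N := toMeasurable volume {x | ¬ (x ∈ R → DifferentiableAt ℝ φ.toFun x)} with hN
  have hNm : MeasurableSet N := measurableSet_toMeasurable _ _
  have hN0 : volume N = 0 := by rw [hN, measure_toMeasurable, h0]
  have hNd : ∀ x, x ∉ N → x ∈ R → DifferentiableAt ℝ φ.toFun x := fun x hx => by
    by_contra hcon
    exact hx (subset_toMeasurable _ _ hcon)
  filter_upwards [H83.ae_rep hN0] with v hv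
  refine ⟨fun e => ?_, fun s hs => ?_⟩
  · have h1 := (hv (N.indicator fun _ => 1) 0 fun x hx => indicator_of_notMem hx _).1 e
    have h2 : eInt v e (0 : V → ℝ≥0∞) = 0 := by
      unfold eInt
      simp
    rw [h2] at h1
    unfold eInt at h1
    rw [mul_eq_zero] at h1
    rcases h1 with h1 | h1
    · rw [ENNReal.ofReal_eq_zero] at h1
      have : (0:ℝ) < 1 / 2 ^ e.1.1 := by positivity
      exact absurd h1 (not_le.2 this)
    · have hm : Measurable fun t : ℝ => N.indicator (fun _ => (1:ℝ≥0∞))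
          (pt v e.1.1 e.1.2 + t • ((1 / 2 ^ e.1.1 : ℝ) • ev e.2)) :=
        (measurable_const.indicator hNm).comp (by fun_prop)
      rw [lintegral_eq_zero_iff hm] at h1
      filter_upwards [h1] with t ht
      refine hNd _ fun hcon => ?_
      rw [indicator_of_mem hcon] at ht
      exact one_ne_zero ht
  · have h1 := (hv (fun z => ∑ i ∈ Finset.univ.erase s.2, ‖lineDeriv ℝ φ.toFun z (ev i)‖ₑ ^ q)
      (Nᶜ.indicator fun z => ∑ i ∈ Finset.univ.erase s.2, ‖lineDeriv ℝ φ.toFun z (ev i)‖ₑ ^ q)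
      fun x hx => by rw [indicator_of_mem (show x ∈ Nᶜ from hx)]).2 s
    rw [h1]
    have h2 : ∀ z ∈ squ v s, (Nᶜ.indicator fun z => ∑ i ∈ Finset.univ.erase s.2,
        ‖lineDeriv ℝ φ.toFun z (ev i)‖ₑ ^ q) z ≤ 2 * ‖fderiv ℝ φ.toFun z‖ₑ ^ q := by
      intro z hz
      by_cases hzN : z ∈ N
      · rw [indicator_of_notMem (show z ∉ Nᶜ from fun h => h hzN)]
        exact zero_le
      · rw [indicator_of_mem (show z ∈ Nᶜ from hzN)]
        exact line_bound hq.le (hNd z hzN (hs hz)) s.2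
    refine (sInt_mono h2).trans (le_of_eq ?_)
    unfold sInt
    rw [lintegral_const_mul' _ _ (by norm_num)]
    ring

/-- **[GEN-CONV]** for countably many domains with conical approximations, all clauses -/
theorem ae_conNet {ι : Type*} [Countable ι] {q : ℝ} (hq : 1 ≤ q) {R : ι → Set V} {f : V → V}
    {F : V → Mat} (hR : ∀ i, IsOpen (R i))
    (hF : ∀ i, AEStronglyMeasurable (fun x => cl (F x)) (volume.restrict (R i)))
    (h : ∀ i, ConApp q (R i) f F) : ∃ φ : ∀ i, ℕ → ConHomeo (R i) (f '' R i),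
      (∀ i (j : ℕ), H989.Bz (R i) f (φ i j).toFun (1 / (j + 1))) ∧
      ∀ᵐ v : V, ∀ i, ConNet q v (φ i) F := by
  choose φ hφ hc using h
  obtain ⟨θ, hθ, h1⟩ := exists_genFam (G := fun x => cl (F x))
    (Gk := fun i j => fderiv ℝ (φ i j).toFun) hq (fun i => (hR i).measurableSet) hF
    (fun i k => (measurable_fderiv ℝ _).aestronglyMeasurable) hc
  have h2 : ∀ᵐ v : V, ∀ i j, _ := ae_all_iff.2 fun i => ae_all_iff.2 fun j =>
    ae_con_net (by linarith : 0 < q) (hR i) (φ i (θ i j))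
  refine ⟨fun i j => φ i (θ i j), fun i j => (hφ i (θ i j)).mono ?_, ?_⟩
  · have h2 : (j : ℝ) ≤ θ i j := by exact_mod_cast (hθ i).id_le j
    gcongr
  · filter_upwards [h1, h2] with v hv hv2 i
    exact ⟨hv i, fun j e => (hv2 i j).1 e, fun j s hs => (hv2 i j).2 s hs⟩

/-- a conical map is Lipschitz on the squares -/
theorem exists_lip_squ_con {R Λ : Set V} (hR : IsOpen R) (φ : ConHomeo R Λ) {v : V}
    {s : Idx × Fin 3} (hs : squ v s ⊆ R) : ∃ K : ℝ≥0, LipschitzOnWith K φ.toFun (squ v s) := by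
  refine LocallyLipschitzOn.exists_lipschitzOnWith_of_compact (H83.isCompact_squ' v s) ?_
  intro x hx
  obtain ⟨δ, hδ, hb, M, hM⟩ := _root_.P073.exists_lipschitz_near hR φ.conical φ.cont (hs hx)
  exact ⟨M, ball x δ, mem_nhdsWithin_of_mem_nhds (ball_mem_nhds x hδ), hM⟩

/-- **[SEG-B]** for conical maps -/
theorem ConNet.seg {p q : ℝ} (hM : MorreySeg q) (hq : 2 < q) (hqp : q ≤ p) (hp : 3 ≤ p)
    {Ω R Λ : Set V} (hR : IsOpen R) (hRb : Bornology.IsBounded R) (hRΩ : R ⊆ Ω) {F : V → Mat}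
    {v : V} {nn : ℕ → ℕ}
    (hsup : Tendsto (fun l => supS (nn l) (H696.HF p Ω F) v) atTop (𝓝 0))
    {φ : ℕ → ConHomeo R Λ} (h : ConNet q v φ F) {β : ℝ} (hβ : 0 < β) :
    ∀ᶠ l in atTop, ∀ᶠ j in atTop, ∀ s : Idx × Fin 3, s.1.1 = nn l → squ v s ⊆ R →
      ∀ a ∈ squ v s, ∃ b ∈ intrinsicFrontier ℝ (squ v s),
        len (onSeg (φ j).toFun (a, b)) (Icc 0 1) ≤ ENNReal.ofReal β :=
  seg_b' hM hq hqp hp hRb hRΩ hsup (fun j _ hs => exists_lip_squ_con hR (φ j) hs) h.line
    h.conv hβ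

end Vale.Agent.P073.H761
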