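import Vale.Agent.P073.H761.Cover
import Vale.Agent.P073.H989.Squeeze

/-!
# P073 / H761: covers and stripes in `Fin 3 → ℝ` with the sup norm
-/

open MeasureTheory Set Filter Topology
open scoped ENNReal NNReal ContDiff

namespace Vale.Agent.P073.H761

/-- the slice at height one of the cone around the `j`-th axis of aperture `a` -/
def cone (a : ℝ) (j : Fin 3) : Set E3 := {v | v j = 1 ∧ ∀ k, k ≠ j → |v k| ≤ a}

theorem isCompact_cone (a : ℝ) (j : Fin 3) : IsCompact (cone a j) := by
  refine Metric.isCompact_of_isClosed_isBounded ?_ ?_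
  · have h1 : IsClosed {v : E3 | v j = 1} :=
      isClosed_eq (EuclideanSpace.proj (𝕜 := ℝ) (ι := Fin 3) j).continuous continuous_const
    have h2 : IsClosed {v : E3 | ∀ k, k ≠ j → |v k| ≤ a} := by
      simp only [Set.ofPred_forall]
      refine isClosed_iInter fun k => isClosed_iInter fun _ => ?_
      exact isClosed_le (EuclideanSpace.proj (𝕜 := ℝ) (ι := Fin 3) k).continuous.abs
        continuous_const
    exact h1.inter h2
  · refine isBounded_iff_forall_norm_le.2 ⟨3 * max a 1, fun v hv => ?_⟩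
    have hk : ∀ k, |v k| ≤ max a 1 := fun k => by
      by_cases hkj : k = j
      · subst hkj; rw [hv.1, abs_one]; exact le_max_right _ _
      · exact (hv.2 k hkj).trans (le_max_left _ _)
    have hv' : v = ∑ k, v k • ee k := by
      conv_lhs => rw [← (EuclideanSpace.basisFun (Fin 3) ℝ).sum_repr v]
      simp
    calc ‖v‖ = ‖∑ k, v k • ee k‖ := by rw [← hv']
      _ ≤ ∑ k, ‖v k • ee k‖ := norm_sum_le _ _
      _ ≤ ∑ _k : Fin 3, max a 1 := by
          refine Finset.sum_le_sum fun k _ => ?_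
          rw [norm_smul, Real.norm_eq_abs, PiLp.norm_single, norm_one, mul_one]
          exact hk k
      _ = 3 * max a 1 := by simp

theorem convex_cone (a : ℝ) (j : Fin 3) : Convex ℝ (cone a j) := by
  intro v hv w hw s t hs ht hst
  refine ⟨?_, fun k hk => ?_⟩
  · simp only [PiLp.add_apply, PiLp.smul_apply, smul_eq_mul, hv.1, hw.1]; linarith
  · simp only [PiLp.add_apply, PiLp.smul_apply, smul_eq_mul]
    have h1 := hv.2 k hk
    have h2 := hw.2 k hk
    calc |s * v k + t * w k| ≤ |s * v k| + |t * w k| := abs_add_le _ _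
      _ = s * |v k| + t * |w k| := by rw [abs_mul, abs_mul, abs_of_nonneg hs, abs_of_nonneg ht]
      _ ≤ s * a + t * a := add_le_add (mul_le_mul_of_nonneg_left h1 hs)
          (mul_le_mul_of_nonneg_left h2 ht)
      _ = a := by rw [← add_mul, hst, one_mul]

theorem linearIndependent_cone {a : ℝ} (ha : a < 1 / 2) {v : Fin 3 → E3}
    (hv : ∀ j, v j ∈ cone a j) : LinearIndependent ℝ v := by
  have hdet : (Matrix.of fun j k => v j k).det ≠ 0 := by
    refine det_ne_zero_of_sum_row_lt_diag fun j => ?_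
    simp only [Matrix.of_apply, Real.norm_eq_abs]
    rw [(hv j).1, abs_one]
    calc ∑ k ∈ Finset.univ.erase j, |v j k| ≤ ∑ _k ∈ Finset.univ.erase j, a :=
          Finset.sum_le_sum fun k hk => (hv j).2 k (Finset.ne_of_mem_erase hk)
      _ = 2 * a := by
          rw [Finset.sum_const, Finset.card_erase_of_mem (Finset.mem_univ j)]
          simp
      _ < 1 := by linarith
  have hrow : LinearIndependent ℝ (Matrix.of fun j k => v j k).row :=
    Matrix.linearIndependent_rows_of_det_ne_zero hdet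
  rw [Fintype.linearIndependent_iff] at hrow ⊢
  intro g hg
  refine hrow g ?_
  funext k
  have := congrArg (fun w : E3 => w k) hg
  simpa [Finset.sum_apply, Matrix.row] using this

/-- library type of the ambient space, with the sup norm -/
abbrev V3 := Fin 3 → ℝ

theorem isCurve_toLp {a : ℝ} (ha : 0 ≤ a) {j : Fin 3} {g : ℝ → V3}
    (hg : H989.IsCurve (ContinuousLinearMap.proj (R := ℝ) (φ := fun _ : Fin 3 => ℝ) j)
      (Pi.single j 1) a g) : IsCurve (cone a j) j fun t => WithLp.toLp 2 (g t) := by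
  refine ⟨fun t => hg.1 t, fun s t hst => ⟨?_, fun k hk => ?_⟩⟩
  · have h1 : g t j = t := hg.1 t
    have h2 : g s j = s := hg.1 s
    have h3 : t - s ≠ 0 := sub_ne_zero.2 hst.ne'
    simp only [PiLp.smul_apply, PiLp.sub_apply, smul_eq_mul]
    rw [h1, h2, inv_mul_cancel₀ h3]
  · have h1 := hg.2 s t
    have h2 : ‖(g t - g s - (t - s) • (Pi.single j 1 : V3)) k‖ ≤ a * |t - s| :=
      (norm_le_pi_norm _ k).trans h1
    have h3 : (g t - g s - (t - s) • (Pi.single j 1 : V3)) k = g t k - g s k := by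
      simp [hk]
    rw [h3, Real.norm_eq_abs, abs_of_pos (sub_pos.2 hst)] at h2
    simp only [PiLp.smul_apply, PiLp.sub_apply, smul_eq_mul]
    have h4 : 0 < t - s := sub_pos.2 hst
    rw [abs_mul, abs_inv, abs_of_pos h4, inv_mul_le_iff₀ h4, mul_comm]
    exact h2

/-- Cover theorem in the library type. -/
theorem cover_V (hD : RankThm) {a : ℝ} (ha0 : 0 ≤ a) (ha : a < 1 / 2) {F : Set V3}
    (hF : IsCompact F) (hF0 : volume F = 0) {ε : ℝ} (hε : 0 < ε) :
    ∃ O : Fin 3 → Set V3, (∀ j, IsOpen (O j)) ∧ F ⊆ ⋃ j, O j ∧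
      ∀ j, ∀ g : ℝ → V3,
        H989.IsCurve (ContinuousLinearMap.proj (R := ℝ) (φ := fun _ : Fin 3 => ℝ) j)
          (Pi.single j 1) a g → volume {t | g t ∈ O j} ≤ ENNReal.ofReal ε := by
  have hc : Continuous (WithLp.ofLp : E3 → V3) := PiLp.continuous_ofLp 2 _
  have hc' : Continuous (WithLp.toLp 2 : V3 → E3) := PiLp.continuous_toLp 2 _
  obtain ⟨O, hO, hFO, hcur⟩ := cover_of_rank hD (K := cone a) (isCompact_cone a) (convex_cone a)
    (fun j v hv => hv.1) (fun v hv => linearIndependent_cone ha hv)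
    (F := (WithLp.toLp 2 : V3 → E3) '' F) (hF.image hc') (by
      have h1 := (PiLp.volume_preserving_ofLp (Fin 3)).measure_preimage
        (s := F) hF.measurableSet.nullMeasurableSet
      rw [hF0] at h1
      have h2 : (WithLp.toLp 2 : V3 → E3) '' F = (WithLp.ofLp : E3 → V3) ⁻¹' F := by
        ext x
        constructor
        · rintro ⟨y, hy, rfl⟩; exact hy
        · intro hx; exact ⟨_, hx, rfl⟩
      rw [h2]; exact h1) hε
  refine ⟨fun j => (WithLp.toLp 2 : V3 → E3) ⁻¹' O j, fun j => (hO j).preimage hc', ?_, ?_⟩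
  · intro x hx
    obtain ⟨j, hj⟩ := mem_iUnion.1 (hFO ⟨x, hx, rfl⟩)
    exact mem_iUnion.2 ⟨j, hj⟩
  · intro j g hg
    exact hcur j _ (isCurve_toLp ha0 hg)

/-- A compact null set is the union of three compact sets, each of them inside a packing of
arbitrarily thin stripes transversal to one of the three axes, of small total thickness. -/
theorem stripes_V (hD : RankThm) {a : ℝ} (ha0 : 0 < a) (ha : a < 1 / 2) {F : Set V3}
    (hF : IsCompact F) (hF0 : volume F = 0) {ε η : ℝ} (hε : 0 < ε) (hη : 0 < η) :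
    ∃ G : Fin 3 → Set V3, (∀ j, IsCompact (G j)) ∧ F = ⋃ j, G j ∧
      ∀ j, ∃ (H : ℝ) (m : ℕ) (b : ℕ → V3 → ℝ),
        H989.IsPack (ContinuousLinearMap.proj (R := ℝ) (φ := fun _ : Fin 3 => ℝ) j)
          (Pi.single j 1) a H m b ∧ H ≤ η ∧ (m : ℝ) * H ≤ ε ∧
        G j ⊆ interior (H989.stripe
          (ContinuousLinearMap.proj (R := ℝ) (φ := fun _ : Fin 3 => ℝ) j) H m b) := by
  obtain ⟨O, hO, hFO, hcur⟩ := cover_V hD ha0.le ha hF hF0 hε
  obtain ⟨G, hG, hGO, hGF⟩ := hF.finite_compact_cover Finset.univ O (fun j _ => hO j)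
    (by simpa using hFO)
  refine ⟨G, hG, by simpa using hGF, fun j => ?_⟩
  obtain ⟨H, m, b, h1, h2, h3, h4, h5, h6⟩ := H989.stripes
    (l := ContinuousLinearMap.proj (R := ℝ) (φ := fun _ : Fin 3 => ℝ) j)
    (e := Pi.single j 1) (by simp) ha0 (hO j) (hG j) (hGO j) hε.le hη (hcur j)
  exact ⟨H, m, b, ⟨by simp, ha0, h1, h4, h5⟩, h2, h3, h6⟩

end Vale.Agent.P073.H761
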