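import Vale.Agent.P073.H761.Cls

/-!
# P073 / H761: Lipschitz curves with directions in `K` give elements of the class
-/

open MeasureTheory Set Filter Topology
open scoped CompactlySupported ENNReal NNReal ContDiff

namespace Vale.Agent.P073.H761

/-- graphs over the `j`-th axis with all difference quotients in `K` -/
def IsCurve (K : Set E3) (j : Fin 3) (g : ℝ → E3) : Prop :=
  (∀ t, g t j = t) ∧ ∀ s t, s < t → (t - s)⁻¹ • (g t - g s) ∈ K

theorem IsCurve.norm_le {K : Set E3} {j : Fin 3} {g : ℝ → E3} (h : IsCurve K j g) {C : ℝ}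
    (hC : ∀ v ∈ K, ‖v‖ ≤ C) (s t : ℝ) : ‖g t - g s‖ ≤ C * |t - s| := by
  rcases lt_trichotomy s t with hst | rfl | hst
  · have h1 := hC _ (h.2 s t hst)
    rw [norm_smul, norm_inv, Real.norm_eq_abs] at h1
    have h2 : 0 < |t - s| := abs_pos.2 (sub_ne_zero.2 hst.ne')
    rwa [inv_mul_le_iff₀ h2, mul_comm] at h1
  · simp
  · have h1 := hC _ (h.2 t s hst)
    rw [norm_smul, norm_inv, Real.norm_eq_abs] at h1
    have h2 : 0 < |s - t| := abs_pos.2 (sub_ne_zero.2 hst.ne')
    rw [inv_mul_le_iff₀ h2, mul_comm] at h1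
    rwa [norm_sub_rev, abs_sub_comm]

theorem IsCurve.lipschitz {K : Set E3} {j : Fin 3} {g : ℝ → E3} (h : IsCurve K j g) {C : ℝ}
    (hC0 : 0 ≤ C) (hC : ∀ v ∈ K, ‖v‖ ≤ C) : LipschitzWith (Real.toNNReal C) g := by
  refine LipschitzWith.of_dist_le_mul fun s t => ?_
  rw [dist_eq_norm, Real.dist_eq, Real.coe_toNNReal C hC0]
  exact h.norm_le hC t s

theorem IsCurve.deriv_mem {K : Set E3} (hK : IsClosed K) {j : Fin 3} {g : ℝ → E3}
    (h : IsCurve K j g) {t : ℝ} {v : E3} (hd : HasDerivAt g v t) : v ∈ K := by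
  have h1 : Tendsto (fun s => (s - t)⁻¹ • (g s - g t)) (𝓝[>] t) (𝓝 v) := by
    have := hd.tendsto_slope
    have h2 : Tendsto (slope g t) (𝓝[>] t) (𝓝 v) := this.mono_left
      (nhdsWithin_mono t fun s hs => ne_of_gt hs)
    exact h2.congr fun s => by simp [slope, vsub_eq_sub]
  refine hK.mem_of_tendsto h1 ?_
  filter_upwards [self_mem_nhdsWithin] with s hs using h.2 t s hs

/-- The functional of integration along a curve. -/
noncomputable def crv (g : ℝ → E3) (L : ℝ) (k : Fin 3) (φ : C_c(E3, ℝ)) : ℝ :=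
  ∫ t in (-L)..L, φ (g t) * deriv (fun s => g s k) t

theorem crv_integrable {g : ℝ → E3} {C : ℝ≥0} (hg : LipschitzWith C g) (L : ℝ) (k : Fin 3)
    (φ : C_c(E3, ℝ)) :
    IntervalIntegrable (fun t => φ (g t) * deriv (fun s => g s k) t) volume (-L) L := by
  have hgk : LipschitzWith C fun s => g s k := by
    refine LipschitzWith.of_dist_le_mul fun s t => ?_
    refine le_trans ?_ (hg.dist_le_mul s t)
    rw [dist_eq_norm, dist_eq_norm]
    exact PiLp.norm_apply_le (g s - g t) k
  refine IntervalIntegrable.mono_fun' (g := fun _ => nrm φ * C) intervalIntegrable_const ?_ ?_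
  · exact ((φ.continuous.comp hg.continuous).measurable.mul
      (measurable_deriv _)).aestronglyMeasurable
  · refine Eventually.of_forall fun t => ?_
    simp only [norm_mul]
    exact mul_le_mul (by simpa using abs_le_nrm φ (g t)) (norm_deriv_le_of_lipschitz hgk)
      (norm_nonneg _) (nrm_nonneg φ)

theorem cls_crv {K : Set E3} (hK : IsCompact K) {j : Fin 3} {g : ℝ → E3}
    (h : IsCurve K j g) {L : ℝ} (hL : 0 ≤ L) : Cls K j L (crv g L) := by
  obtain ⟨C, hC0, hC⟩ : ∃ C : ℝ, 0 ≤ C ∧ ∀ v ∈ K, ‖v‖ ≤ C := by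
    obtain ⟨C, hC⟩ := hK.isBounded.exists_norm_le
    exact ⟨max C 0, le_max_right _ _, fun v hv => (hC v hv).trans (le_max_left _ _)⟩
  have hlip := h.lipschitz hC0 hC
  have hle : -L ≤ L := by linarith
  have hder : ∀ t, deriv (fun s => g s j) t = 1 := fun t => by
    have : (fun s => g s j) = fun s => s := funext fun s => h.1 s
    rw [this]; simp
  have hcoord : ∀ {v : E3} {t : ℝ}, HasDerivAt g v t → ∀ k, deriv (fun s => g s k) t = v k :=
    fun {v t} hd k => by
      have := (EuclideanSpace.proj (𝕜 := ℝ) (ι := Fin 3) k).hasFDerivAt.comp_hasDerivAt t hd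
      exact this.deriv
  refine ⟨fun k => ⟨fun φ ψ => ?_, fun c φ => ?_⟩, fun φ hφ => ?_, fun ψ hψ => ?_,
    fun φ h1 h2 h3 ψ hψ => ?_⟩
  · simp only [crv]
    rw [← intervalIntegral.integral_add (crv_integrable hlip L k φ) (crv_integrable hlip L k ψ)]
    exact intervalIntegral.integral_congr fun t _ => by
      simp only [CompactlySupportedContinuousMap.add_apply]; ring
  · simp only [crv]
    rw [← intervalIntegral.integral_const_mul]
    exact intervalIntegral.integral_congr fun t _ => by
      simp only [CompactlySupportedContinuousMap.smul_apply, smul_eq_mul]; ring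
  · simp only [crv, hder, mul_one]
    calc ∫ t in (-L)..L, φ (g t) ≤ ∫ t in (-L)..L, nrm φ := by
          refine intervalIntegral.integral_mono_on hle ?_ intervalIntegrable_const fun t _ =>
            (le_abs_self _).trans (abs_le_nrm φ (g t))
          exact (φ.continuous.comp hlip.continuous).intervalIntegrable _ _
      _ = 2 * L * nrm φ := by rw [intervalIntegral.integral_const, smul_eq_mul]; ring
  · simp only [crv]
    rw [← intervalIntegral.integral_finsetSum fun k _ => crv_integrable hlip L k (ψ k)]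
    refine intervalIntegral.integral_nonneg_of_ae hle ?_
    filter_upwards [hlip.ae_differentiableAt_real] with t ht
    have hv := h.deriv_mem hK.isClosed ht.hasDerivAt
    have := hψ (g t) _ hv
    simpa [hcoord ht.hasDerivAt] using this
  · simp only [crv]
    rw [← intervalIntegral.integral_finsetSum fun k _ => crv_integrable hlip L k (ψ k)]
    -- the composition is Lipschitz
    have hφd : Differentiable ℝ φ := h1.differentiable (by simp)
    obtain ⟨D, hD⟩ : ∃ D : ℝ≥0, LipschitzWith D φ := by
      have hc : HasCompactSupport (fderiv ℝ φ) := h2.fderiv ℝ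
      obtain ⟨B, hB⟩ := (h1.continuous_fderiv (by simp)).bounded_above_of_compact_support hc
      exact ⟨Real.toNNReal B, lipschitzWith_of_nnnorm_fderiv_le hφd fun x => by
        rw [← NNReal.coe_le_coe, coe_nnnorm]
        exact (hB x).trans (Real.le_coe_toNNReal B)⟩
    have hcomp : LipschitzWith (D * Real.toNNReal C) fun t => φ (g t) := hD.comp hlip
    have hac : AbsolutelyContinuousOnInterval (fun t => φ (g t)) (-L) L :=
      (hcomp.lipschitzOnWith (s := uIcc (-L) L)).absolutelyContinuousOnInterval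
    have hftc := hac.integral_deriv_eq_sub
    have hout : ∀ t : ℝ, L ≤ |t| → φ (g t) = 0 := fun t ht => by
      by_contra hne
      have hmem : g t ∈ tsupport φ := subset_tsupport _ hne
      have h4 := h3 hmem
      rw [mem_ball_zero_iff] at h4
      have h5 : |g t j| ≤ ‖g t‖ := PiLp.norm_apply_le (g t) j
      rw [h.1] at h5
      linarith
    rw [hout L (le_abs_self L), hout (-L) (by rw [abs_neg]; exact le_abs_self L), sub_zero] at hftc
    rw [← hftc]
    refine intervalIntegral.integral_congr_ae ?_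
    filter_upwards [hlip.ae_differentiableAt_real] with t ht _
    have hc1 : HasDerivAt (fun t => φ (g t)) (fderiv ℝ φ (g t) (deriv g t)) t :=
      (hφd (g t)).hasFDerivAt.comp_hasDerivAt t ht.hasDerivAt
    rw [hc1.deriv]
    have hv : deriv g t = ∑ k, (deriv g t) k • ee k := by
      conv_lhs => rw [← (EuclideanSpace.basisFun (Fin 3) ℝ).sum_repr (deriv g t)]
      simp
    conv_rhs => rw [hv, map_sum]
    refine Finset.sum_congr rfl fun k _ => ?_
    rw [map_smul, smul_eq_mul, hψ, hcoord ht.hasDerivAt]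
    ring

end Vale.Agent.P073.H761
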