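import Vale.Agent.P073.H761.Rep
import Vale.Agent.P073.H761.Minimax

/-!
# P073 / H761: the minimax lemma for triples of vector functionals
-/

open MeasureTheory Set Filter Topology
open scoped CompactlySupported

namespace Vale.Agent.P073.H761

/-- triples of vector functionals -/
abbrev VV := Fin 3 → Fin 3 → C_c(E3, ℝ) → ℝ

/-- triples of test functions -/
abbrev WW := Fin 3 → C_c(E3, ℝ)

theorem minimaxVW {S : Set VV} {A : Set WW} (hS : IsCompact S) (hSc : Convex ℝ S)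
    (hA : Convex ℝ A) (hne : A.Nonempty) (F : WW → VV → ℝ)
    (k1 : ∀ φ ∈ A, ContinuousOn (F φ) S)
    (k2 : ∀ φ ∈ A, ∀ T ∈ S, ∀ T' ∈ S, ∀ a b : ℝ, 0 ≤ a → 0 ≤ b →
      a + b = 1 → F φ (a • T + b • T') = a * F φ T + b * F φ T')
    (k3 : ∀ T ∈ S, ConvexOn ℝ A fun φ => F φ T) {ε : ℝ}
    (k4 : ∀ T ∈ S, ∃ φ ∈ A, F φ T < ε) : ∃ φ ∈ A, ∀ T ∈ S, F φ T < ε :=
  minimax hS hSc hA hne F k1 k2 k3 k4

end Vale.Agent.P073.H761
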