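import Vale.Agent.P073.H761.ClsRep
import Vale.Agent.P073.H761.Curve
import Vale.Agent.P073.H761.MinimaxVW

/-!
# P073 / H761: the cover theorem for null sets, from the rank theorem for divergence free fields
-/

open MeasureTheory Set Filter Topology
open scoped CompactlySupported ENNReal NNReal ContDiff

namespace Vale.Agent.P073.H761

/-- The rank theorem (De Philippis and Rindler, Alberti and Marchese) in dimension three: on a
Lebesgue null set three divergence free fields are linearly dependent almost everywhere. -/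
def RankThm : Prop :=
  ∀ (Om : Set E3), IsOpen Om → ∀ (ρ : Measure E3), IsFiniteMeasure ρ →
    ∀ ξ : Fin 3 → E3 → E3, (∀ j, Integrable (ξ j) ρ) →
    (∀ j, ∀ φ : E3 → ℝ, ContDiff ℝ ∞ φ → HasCompactSupport φ → tsupport φ ⊆ Om →
      ∫ x, fderiv ℝ φ x (ξ j x) ∂ρ = 0) →
    ∀ N : Set E3, MeasurableSet N → volume N = 0 → N ⊆ Om →
      ∀ᵐ x ∂ρ, x ∈ N → ¬ LinearIndependent ℝ fun j => ξ j x

theorem exists_small {K : Fin 3 → Set E3} (hD : RankThm) (hK : ∀ j, IsCompact (K j))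
    (hKc : ∀ j, Convex ℝ (K j)) (h1 : ∀ j, ∀ v ∈ K j, v j = 1)
    (hind : ∀ v : Fin 3 → E3, (∀ j, v j ∈ K j) → LinearIndependent ℝ v) {F : Set E3}
    (hF : IsCompact F) (hF0 : volume F = 0) {L : ℝ} (hL : 0 ≤ L) (hFL : F ⊆ Metric.ball 0 L)
    {ε : ℝ} (hε : 0 < ε) (T : Fin 3 → Fin 3 → C_c(E3, ℝ) → ℝ) (hT : ∀ j, Cls (K j) j L (T j)) :
    ∃ φ : Fin 3 → C_c(E3, ℝ), ((∀ j, 0 ≤ φ j) ∧ ∀ x ∈ F, 1 ≤ ∑ j, φ j x) ∧
      ∑ j, T j j (φ j) < ε := by
  have hex := fun j => (hT j).exists_rep (hK j) (hKc j) (h1 j) hL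
  choose μ ξ hμf hξm hξC hξK hrep hξ1 using hex
  choose C hC using hξC
  set σ : Measure E3 := ∑ j, μ j with hσ
  have hσf : IsFiniteMeasure σ := by
    refine ⟨?_⟩
    rw [hσ, Measure.finsetSum_apply]
    exact ENNReal.sum_lt_top.2 fun j _ => measure_lt_top (μ j) _
  have hle : ∀ j, μ j ≤ σ := fun j => by
    intro s
    rw [hσ, Measure.finsetSum_apply]
    exact Finset.single_le_sum (f := fun j => μ j s) (fun _ _ => bot_le) (Finset.mem_univ j)
  have hac : ∀ j, μ j ≪ σ := fun j => Measure.absolutelyContinuous_of_le (hle j)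
  have hLD : ∀ j, (μ j).HaveLebesgueDecomposition σ := fun j =>
    Measure.haveLebesgueDecomposition_of_sigmaFinite _ _
  set f : Fin 3 → E3 → ℝ := fun j x => ((μ j).rnDeriv σ x).toReal with hf
  have hfm : ∀ j, Measurable (f j) := fun j => (Measure.measurable_rnDeriv _ _).ennreal_toReal
  have hf0 : ∀ j x, 0 ≤ f j x := fun j x => ENNReal.toReal_nonneg
  have hfi : ∀ j, Integrable (f j) σ := fun j => Measure.integrable_toReal_rnDeriv
  -- the divergence free fields
  have hdiv : ∀ j, ∀ φ : E3 → ℝ, ContDiff ℝ ∞ φ → HasCompactSupport φ →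
      tsupport φ ⊆ Metric.ball 0 L → ∫ x, fderiv ℝ φ x (f j x • ξ j x) ∂σ = 0 := by
    intro j φ a1 a2 a3
    have e1 := (hT j).div_rep (hξm j) (hC j) (hrep j) a1 a2 a3
    rw [← e1, ← integral_rnDeriv_smul (hac j)]
    exact integral_congr_ae (Eventually.of_forall fun x => by simp [hf])
  have hint : ∀ j, Integrable (fun x => f j x • ξ j x) σ := fun j => by
    exact (hfi j).smul_bdd (C j) (hξm j).aestronglyMeasurable
      (Eventually.of_forall fun x => hC j x)
  have hrank := hD (Metric.ball 0 L) Metric.isOpen_ball σ hσf (fun j x => f j x • ξ j x) hint hdiv F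
    hF.measurableSet hF0 hFL
  -- almost everywhere membership
  have hmem : ∀ j, ∀ᵐ x ∂σ, f j x ≠ 0 → ξ j x ∈ K j := fun j => by
    have h2 : σ.withDensity ((μ j).rnDeriv σ) = μ j := Measure.withDensity_rnDeriv_eq _ _ (hac j)
    have h3 := hξK j
    rw [← h2, ae_withDensity_iff (Measure.measurable_rnDeriv _ _)] at h3
    filter_upwards [h3] with x hx hne
    exact hx fun h0 => hne (by simp [hf, h0])
  have hzero : ∀ᵐ x ∂σ, x ∈ F → ∃ j, f j x = 0 := by
    filter_upwards [hrank, ae_all_iff.2 hmem] with x hx1 hx2 hxF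
    by_contra hcon
    push Not at hcon
    refine hx1 hxF ?_
    have hli := hind (fun j => ξ j x) fun j => hx2 j (hcon j)
    have := hli.units_smul fun j => Units.mk0 (f j x) (hcon j)
    exact this
  -- the exceptional sets
  set N : Set E3 := {x | x ∈ F ∧ ∀ j, f j x ≠ 0} with hN
  have hN0 : σ N = 0 := by
    rw [measure_eq_zero_iff_ae_notMem]
    filter_upwards [hzero] with x hx hxN
    obtain ⟨j, hj⟩ := hx hxN.1
    exact hxN.2 j hj
  set Aj : Fin 3 → Set E3 := fun j => {x | x ∈ F ∧ f j x = 0} ∪ N with hAj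
  have hAj0 : ∀ j, μ j (Aj j) = 0 := fun j => by
    refine measure_union_null ?_ (hac j hN0)
    have h2 : σ.withDensity ((μ j).rnDeriv σ) = μ j := Measure.withDensity_rnDeriv_eq _ _ (hac j)
    have hms : MeasurableSet {x | x ∈ F ∧ f j x = 0} :=
      hF.measurableSet.inter (hfm j (measurableSet_singleton 0))
    rw [← h2, withDensity_apply _ hms, lintegral_eq_zero_iff (Measure.measurable_rnDeriv _ _)]
    have hlt : ∀ᵐ x ∂σ, (μ j).rnDeriv σ x < ⊤ := Measure.rnDeriv_lt_top _ _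
    rw [EventuallyEq, ae_restrict_iff' hms]
    filter_upwards [hlt] with x hx hx2
    have := hx2.2
    simp only [hf, ENNReal.toReal_eq_zero_iff] at this
    rcases this with h | h
    · exact h
    · exact absurd h hx.ne
  have hcovA : F ⊆ ⋃ j, Aj j := by
    intro x hx
    by_cases hx2 : ∃ j, f j x = 0
    · obtain ⟨j, hj⟩ := hx2
      exact mem_iUnion.2 ⟨j, Or.inl ⟨hx, hj⟩⟩
    · push Not at hx2
      exact mem_iUnion.2 ⟨0, Or.inr ⟨hx, hx2⟩⟩
  have hε4 : 0 < ε / 4 := by positivity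
  have hU : ∀ j, ∃ U ⊇ Aj j, IsOpen U ∧ μ j U ≤ ENNReal.ofReal (ε / 4) := fun j => by
    obtain ⟨U, a1, a2, a3⟩ := (Aj j).exists_isOpen_le_add (μ j) (ENNReal.ofReal_pos.2 hε4).ne'
    exact ⟨U, a1, a2, by rwa [hAj0 j, zero_add] at a3⟩
  choose U hAU hUo hμU using hU
  obtain ⟨Kc, hKcc, hKcU, hKcF⟩ := hF.finite_compact_cover Finset.univ U (fun j _ => hUo j)
    (by
      refine hcovA.trans ?_
      intro x hx
      obtain ⟨j, hj⟩ := mem_iUnion.1 hx
      exact mem_iUnion₂.2 ⟨j, Finset.mem_univ j, hAU j hj⟩)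
  have hb := fun j => exists_bump (hKcc j) (hUo j) (hKcU j)
  choose φ hφ1 hφ2 hφ3 using hb
  refine ⟨φ, ⟨fun j x => (hφ3 j x).1, fun x hx => ?_⟩, ?_⟩
  · rw [hKcF] at hx
    obtain ⟨j, -, hj⟩ := mem_iUnion₂.1 hx
    calc (1 : ℝ) = φ j x := (hφ1 j x hj).symm
      _ ≤ ∑ j, φ j x := Finset.single_le_sum (f := fun j => φ j x) (fun j _ => (hφ3 j x).1)
          (Finset.mem_univ j)
  · have hle2 : ∀ j, T j j (φ j) ≤ ε / 4 := fun j => by
      rw [hrep j j (φ j)]
      have e1 : ∫ x, φ j x * ξ j x j ∂(μ j) = ∫ x, φ j x ∂(μ j) :=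
        integral_congr_ae (Eventually.of_forall fun x => by simp [hξ1 j x])
      rw [e1]
      calc ∫ x, φ j x ∂(μ j) ≤ ∫ x, (U j).indicator (fun _ => (1 : ℝ)) x ∂(μ j) := by
            refine integral_mono (φ j).integrable
              ((integrable_const _).indicator (hUo j).measurableSet) fun x => ?_
            by_cases hx : x ∈ U j
            · rw [indicator_of_mem hx]; exact (hφ3 j x).2
            · rw [indicator_of_notMem hx,
                image_eq_zero_of_notMem_tsupport fun hh => hx (hφ2 j hh)]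
        _ = (μ j).real (U j) := by
            rw [integral_indicator (hUo j).measurableSet, setIntegral_const, smul_eq_mul, mul_one]
        _ ≤ ε / 4 := ENNReal.toReal_le_of_le_ofReal hε4.le (hμU j)
    calc ∑ j, T j j (φ j) ≤ ∑ _j : Fin 3, ε / 4 := Finset.sum_le_sum fun j _ => hle2 j
      _ = 3 * (ε / 4) := by simp
      _ < ε := by linarith

/-- admissible tuples of test functions -/
def Adm (F : Set E3) : Set WW :=
  {φ | (∀ j, 0 ≤ φ j) ∧ ∀ x ∈ F, 1 ≤ ∑ j, φ j x}

theorem convex_adm (F : Set E3) : Convex ℝ (Adm F) := by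
  intro φ hφ ψ hψ a b ha hb hab
  refine ⟨fun j x => ?_, fun x hx => ?_⟩
  · have e1 : 0 ≤ φ j x := hφ.1 j x
    have e2 : 0 ≤ ψ j x := hψ.1 j x
    have e3 : (a • φ + b • ψ) j x = a * φ j x + b * ψ j x := by simp
    rw [e3]
    exact add_nonneg (mul_nonneg ha e1) (mul_nonneg hb e2)
  · have e1 := hφ.2 x hx
    have e2 := hψ.2 x hx
    have e3 : ∑ j, (a • φ + b • ψ) j x = a * ∑ j, φ j x + b * ∑ j, ψ j x := by
      rw [Finset.mul_sum, Finset.mul_sum, ← Finset.sum_add_distrib]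
      exact Finset.sum_congr rfl fun j _ => by simp
    rw [e3]
    have h3 := mul_le_mul_of_nonneg_left e1 ha
    have h4 := mul_le_mul_of_nonneg_left e2 hb
    linarith

theorem adm_nonempty {F : Set E3} (hF : IsCompact F) : (Adm F).Nonempty := by
  obtain ⟨φ, hφ1, -, hφ3⟩ := exists_bump hF isOpen_univ (subset_univ _)
  refine ⟨fun _ => φ, fun j x => (hφ3 x).1, fun x hx => ?_⟩
  simp [hφ1 x hx]

/-- the pairing -/
noncomputable def pair (φ : WW) (T : VV) : ℝ :=
  ∑ j, T j j (φ j)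

theorem continuous_pair (φ : WW) : Continuous (pair φ) :=
  continuous_finsetSum _ fun j _ => (continuous_apply (φ j)).comp
    ((continuous_apply j).comp (continuous_apply j))

theorem pair_affine (φ : WW) (T T' : VV) (a b : ℝ) :
    pair φ (a • T + b • T') = a * pair φ T + b * pair φ T' := by
  simp only [pair, Pi.add_apply, Pi.smul_apply, smul_eq_mul]
  rw [Finset.sum_add_distrib, Finset.mul_sum, Finset.mul_sum]

theorem pair_affine' {T : VV} (hT : ∀ j, IsLin (T j j))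
    (φ ψ : WW) (a b : ℝ) :
    pair (a • φ + b • ψ) T = a * pair φ T + b * pair ψ T := by
  simp only [pair]
  rw [Finset.mul_sum, Finset.mul_sum, ← Finset.sum_add_distrib]
  refine Finset.sum_congr rfl fun j _ => ?_
  simp only [Pi.add_apply, Pi.smul_apply]
  rw [(hT j).add, (hT j).smul, (hT j).smul]

/-- product of the three classes -/
def ClsSet (K : Fin 3 → Set E3) (L : ℝ) : Set VV :=
  {T | ∀ j, Cls (K j) j L (T j)}

theorem clsSet_eq (K : Fin 3 → Set E3) (L : ℝ) :
    ClsSet K L = Set.pi univ fun j : Fin 3 => {τ | Cls (K j) j L τ} := by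
  ext T; simp [ClsSet]

theorem isCompact_clsSet {K : Fin 3 → Set E3} (hK : ∀ j, IsCompact (K j))
    (h1 : ∀ j, ∀ v ∈ K j, v j = 1) (L : ℝ) : IsCompact (ClsSet K L) := by
  rw [clsSet_eq]
  refine isCompact_univ_pi fun j => ?_
  obtain ⟨C, hC⟩ := (hK j).isBounded.exists_norm_le
  exact isCompact_cls (h1 j) (le_max_right C 0) fun v hv k =>
    ((PiLp.norm_apply_le v k).trans (hC v hv)).trans (le_max_left _ _)

theorem convex_clsSet (K : Fin 3 → Set E3) (L : ℝ) : Convex ℝ (ClsSet K L) := by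
  rw [clsSet_eq]
  exact convex_pi fun j _ => convex_cls (K j) j L

theorem convexOn_pair {T : VV} (hT : ∀ j, IsLin (T j j))
    (F : Set E3) : ConvexOn ℝ (Adm F) fun φ => pair φ T := by
  refine ⟨convex_adm F, fun φ _ ψ _ a b _ _ _ => le_of_eq ?_⟩
  simp only [smul_eq_mul]
  exact pair_affine' hT φ ψ a b

theorem exists_uniform (hD : RankThm) {K : Fin 3 → Set E3} (hK : ∀ j, IsCompact (K j))
    (hKc : ∀ j, Convex ℝ (K j)) (h1 : ∀ j, ∀ v ∈ K j, v j = 1)
    (hind : ∀ v : Fin 3 → E3, (∀ j, v j ∈ K j) → LinearIndependent ℝ v) {F : Set E3}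
    (hF : IsCompact F) (hF0 : volume F = 0) {L : ℝ} (hL0 : 0 ≤ L) (hFL : F ⊆ Metric.ball 0 L)
    {ε : ℝ} (hε : 0 < ε) : ∃ φ ∈ Adm F, ∀ T ∈ ClsSet K L, pair φ T < ε := by
  have k1 : ∀ φ ∈ Adm F, ContinuousOn (pair φ) (ClsSet K L) := fun φ _ =>
    (continuous_pair φ).continuousOn
  have k2 : ∀ φ ∈ Adm F, ∀ T ∈ ClsSet K L, ∀ T' ∈ ClsSet K L, ∀ a b : ℝ, 0 ≤ a → 0 ≤ b →
      a + b = 1 → pair φ (a • T + b • T') = a * pair φ T + b * pair φ T' :=
    fun φ _ T _ T' _ a b _ _ _ => pair_affine φ T T' a b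
  have k3 : ∀ T ∈ ClsSet K L, ConvexOn ℝ (Adm F) fun φ => pair φ T := fun T hT =>
    convexOn_pair (fun j => (hT j).lin j) F
  have k4 : ∀ T ∈ ClsSet K L, ∃ φ ∈ Adm F, pair φ T < ε := fun T hT => by
    obtain ⟨φ, a1, a2⟩ := exists_small hD hK hKc h1 hind hF hF0 hL0 hFL hε T hT
    exact ⟨φ, a1, a2⟩
  exact minimaxVW (isCompact_clsSet hK h1 L) (convex_clsSet K L) (convex_adm F) (adm_nonempty hF)
    pair k1 k2 k3 k4

theorem curve_small {K : Set E3} (hK : IsCompact K) {j : Fin 3} {L : ℝ} (hL0 : 0 ≤ L)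
    {φ : C_c(E3, ℝ)} (hφ0 : 0 ≤ φ) {g : ℝ → E3} (hg : IsCurve K j g) {ε c : ℝ} (hc : 0 < c)
    (h2 : crv g L j φ ≤ c * ε) :
    volume {t | g t ∈ {x | c < φ x} ∩ Metric.ball 0 L} ≤ ENNReal.ofReal ε := by
  have hder : ∀ t, deriv (fun s => g s j) t = 1 := fun t => by
    have : (fun s => g s j) = fun s => s := funext fun s => hg.1 s
    rw [this]; simp
  simp only [crv, hder, mul_one] at h2
  rw [intervalIntegral.integral_of_le (by linarith)] at h2
  obtain ⟨C, hC0, hC⟩ : ∃ C : ℝ, 0 ≤ C ∧ ∀ v ∈ K, ‖v‖ ≤ C := by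
    obtain ⟨C, hC⟩ := hK.isBounded.exists_norm_le
    exact ⟨max C 0, le_max_right _ _, fun v hv => (hC v hv).trans (le_max_left _ _)⟩
  have hgc := (hg.lipschitz hC0 hC).continuous
  have hφg : Continuous fun t => φ (g t) := φ.continuous.comp hgc
  have hint : Integrable (fun t => φ (g t)) (volume.restrict (Ioc (-L) L)) :=
    hφg.integrableOn_Ioc
  have hmark := mul_meas_ge_le_integral_of_nonneg (μ := volume.restrict (Ioc (-L) L))
    (f := fun t => φ (g t)) (Eventually.of_forall fun t => hφ0 (g t)) hint c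
  have hsub : {t | g t ∈ {x | c < φ x} ∩ Metric.ball 0 L} ⊆
      {t | c ≤ φ (g t)} ∩ Ioc (-L) L := by
    rintro t ⟨ht1, ht2⟩
    have ht1' : c < φ (g t) := ht1
    refine ⟨ht1'.le, ?_⟩
    rw [mem_ball_zero_iff] at ht2
    have h5 : |g t j| ≤ ‖g t‖ := PiLp.norm_apply_le (g t) j
    rw [hg.1] at h5
    have h6 := abs_lt.1 (h5.trans_lt ht2)
    exact ⟨h6.1, h6.2.le⟩
  have hms : MeasurableSet {t | c ≤ φ (g t)} :=
    (isClosed_le continuous_const hφg).measurableSet
  calc volume {t | g t ∈ {x | c < φ x} ∩ Metric.ball 0 L}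
      ≤ volume ({t | c ≤ φ (g t)} ∩ Ioc (-L) L) := measure_mono hsub
    _ = (volume.restrict (Ioc (-L) L)) {t | c ≤ φ (g t)} :=
        (Measure.restrict_apply hms).symm
    _ = ENNReal.ofReal ((volume.restrict (Ioc (-L) L)).real {t | c ≤ φ (g t)}) := by
        rw [measureReal_def, ENNReal.ofReal_toReal (measure_ne_top _ _)]
    _ ≤ ENNReal.ofReal ε := by
        refine ENNReal.ofReal_le_ofReal ?_
        have := hmark.trans h2
        exact le_of_mul_le_mul_left this hc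

/-- The cover theorem (conditional on the rank theorem). -/
theorem cover_of_rank (hD : RankThm) {K : Fin 3 → Set E3} (hK : ∀ j, IsCompact (K j))
    (hKc : ∀ j, Convex ℝ (K j)) (h1 : ∀ j, ∀ v ∈ K j, v j = 1)
    (hind : ∀ v : Fin 3 → E3, (∀ j, v j ∈ K j) → LinearIndependent ℝ v) {F : Set E3}
    (hF : IsCompact F) (hF0 : volume F = 0) {ε : ℝ} (hε : 0 < ε) :
    ∃ O : Fin 3 → Set E3, (∀ j, IsOpen (O j)) ∧ F ⊆ ⋃ j, O j ∧
      ∀ j, ∀ g : ℝ → E3, IsCurve (K j) j g → volume {t | g t ∈ O j} ≤ ENNReal.ofReal ε := by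
  obtain ⟨L, hL0, hFL⟩ : ∃ L : ℝ, 0 ≤ L ∧ F ⊆ Metric.ball 0 L := by
    obtain ⟨L, hL⟩ := hF.isBounded.subset_ball (0 : E3)
    exact ⟨max L 0, le_max_right _ _, hL.trans (Metric.ball_subset_ball (le_max_left _ _))⟩
  obtain ⟨φ, hφA, hφ⟩ := exists_uniform hD hK hKc h1 hind hF hF0 hL0 hFL
    (show 0 < 1 / 4 * ε by positivity)
  refine ⟨fun j => {x | 1 / 4 < φ j x} ∩ Metric.ball 0 L, fun j =>
    ((isOpen_lt continuous_const (φ j).continuous).inter Metric.isOpen_ball), ?_, ?_⟩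
  · intro x hx
    have h2 := hφA.2 x hx
    by_contra hcon
    simp only [mem_iUnion, not_exists] at hcon
    have h3 : ∀ j, φ j x ≤ 1 / 4 := fun j => by
      by_contra h4
      exact hcon j ⟨not_le.1 h4, hFL hx⟩
    have h4 : ∑ j, φ j x ≤ ∑ _j : Fin 3, (1 / 4 : ℝ) := Finset.sum_le_sum fun j _ => h3 j
    simp at h4
    linarith
  · intro j g hg
    have hcls := cls_crv (hK j) hg hL0
    have h2 := hφ (fun i => if i = j then crv g L else 0) <| by
      intro i
      by_cases hij : i = j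
      · subst hij; simpa using hcls
      · simpa [hij] using cls_zero (K i) i hL0
    have h3 : pair φ (fun i => if i = j then crv g L else 0) = crv g L j (φ j) := by
      simp only [pair]
      rw [Finset.sum_eq_single j]
      · simp
      · intro i _ hij; simp [hij]
      · simp
    rw [h3] at h2
    exact curve_small (hK j) hL0 (hφA.1 j) hg (by norm_num) h2.le

end Vale.Agent.P073.H761
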