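import Vale.Agent.P073.H83.AeRep
import Vale.Agent.P073.H194.Local
import Vale.Agent.P073.H194.Hold

/-!
# P073, block H761, [GEN-CONV]: convergence on the dyadic edges and squares of a generic origin

If `∫ H k → 0`, then for a subsequence and for almost every origin `v` the integrals of `H k` over
all dyadic edges and squares tend to zero (Fubini for every edge and every square).
-/

open Set Metric Topology Filter MeasureTheory
open scoped ENNReal

namespace Vale.Agent.P073.H761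

open Vale.Agent.P073.AB (Idx pt edge eInt)
open Vale.Agent.P073.St (V)
open _root_.P073.Net (dyc dyo)
open Vale.Agent.P073.H194
open Vale.Agent.P073.H83
open Vale.Agent.P073.SQ (ev)

/-! ### Fubini -/

theorem eInt_shift (e : Idx × Fin 3) {H : V → ℝ≥0∞} (hH : Measurable H) (v : V) :
    eInt v e H = ∫⁻ t in Ico ((e.1.2 e.2 : ℝ) / 2 ^ e.1.1) ((e.1.2 e.2 + 1) / 2 ^ e.1.1),
      H (v + Function.update (fun i => (e.1.2 i : ℝ) / 2 ^ e.1.1) e.2 t) := by
  obtain ⟨⟨n, w⟩, k⟩ := e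
  rw [eInt_hc v n w k hH]
  refine lintegral_congr fun t => ?_
  congr 1
  funext i
  by_cases hi : i = k
  · subst hi; simp
  · simp [Function.update_of_ne hi, pt]

theorem measurable_shift (e : Idx × Fin 3) {H : V → ℝ≥0∞} (hH : Measurable H) :
    Measurable fun p : V × ℝ =>
      H (p.1 + Function.update (fun i => (e.1.2 i : ℝ) / 2 ^ e.1.1) e.2 p.2) := by
  refine hH.comp (measurable_fst.add ?_)
  exact (measurable_update (fun i => (e.1.2 i : ℝ) / 2 ^ e.1.1)).comp measurable_snd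

theorem measurable_eInt (e : Idx × Fin 3) {H : V → ℝ≥0∞} (hH : Measurable H) :
    Measurable fun v => eInt v e H := by
  simp_rw [eInt_shift e hH]
  exact (measurable_shift e hH).lintegral_prod_right'

/-- **Fubini** for an edge -/
theorem lintegral_eInt (e : Idx × Fin 3) {H : V → ℝ≥0∞} (hH : Measurable H) :
    ∫⁻ v : V, eInt v e H = volume (Ico ((e.1.2 e.2 : ℝ) / 2 ^ e.1.1)
      ((e.1.2 e.2 + 1) / 2 ^ e.1.1)) * ∫⁻ x, H x := by
  simp_rw [eInt_shift e hH]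
  rw [lintegral_lintegral_swap (measurable_shift e hH).aemeasurable]
  have h2 : ∀ t : ℝ, ∫⁻ v : V, H (v + Function.update (fun i => (e.1.2 i : ℝ) / 2 ^ e.1.1) e.2 t) =
      ∫⁻ x, H x := fun t => lintegral_add_right_eq_self H _
  simp only [h2]
  rw [lintegral_const, Measure.restrict_apply_univ, mul_comm]

/-- **Fubini** for a square -/
theorem lintegral_sInt (s : Idx × Fin 3) {H : V → ℝ≥0∞} (hH : Measurable H) :
    ∫⁻ v : V, sInt v s H = 2 ^ s.1.1 * (volume (hc s.1) * ∫⁻ x, H x) := by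
  simp_rw [sInt_hc]
  rw [lintegral_const_mul' _ _ (by simp),
    lintegral_ps hH (φ := fun y => Function.update y s.2 ((s.1.2 s.2 : ℝ) / 2 ^ s.1.1))
      (by fun_prop) s.1]

theorem edge_pt_mem (v : V) (e : Idx × Fin 3) {t : ℝ} (ht : t ∈ Icc (0:ℝ) 1) :
    pt v e.1.1 e.1.2 + t • ((1 / 2 ^ e.1.1 : ℝ) • ev e.2) ∈ edge v e := by
  unfold edge
  rw [segment_eq_image']
  exact ⟨t, ht, by simp⟩

/-! ### Summable functionals tend to zero -/

theorem ae_tendsto_of_tsum {Y : ℕ → V → ℝ≥0∞} (hY : ∀ k, Measurable (Y k))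
    (hs : ∑' k, ∫⁻ v : V, Y k v ≠ ⊤) : ∀ᵐ v : V, Tendsto (fun k => Y k v) atTop (𝓝 0) := by
  have h1 : ∫⁻ v : V, ∑' k, Y k v ≠ ⊤ := by
    rwa [lintegral_tsum fun k => (hY k).aemeasurable]
  have h2 : ∀ᵐ v : V, ∑' k, Y k v < ⊤ :=
    ae_lt_top (Measurable.tsum hY) h1
  filter_upwards [h2] with v hv
  exact ENNReal.tendsto_atTop_zero_of_tsum_ne_top hv.ne

/-- a subsequence with summable integrals -/
theorem exists_subseq_tsum {a : ℕ → ℝ≥0∞} (h0 : Tendsto a atTop (𝓝 0)) :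
    ∃ φ : ℕ → ℕ, StrictMono φ ∧ ∀ k, a (φ k) ≤ ENNReal.ofReal ((1 / 2) ^ k) := by
  have h1 : ∀ k : ℕ, ∀ᶠ n in atTop, a n ≤ ENNReal.ofReal ((1 / 2) ^ k) := fun k =>
    h0.eventually_le_const (by positivity)
  obtain ⟨φ, hφ, h2⟩ := extraction_forall_of_eventually h1
  exact ⟨φ, hφ, h2⟩

theorem tsum_half_ne_top : ∑' k : ℕ, ENNReal.ofReal ((1 / 2) ^ k) ≠ ⊤ := by
  rw [← ENNReal.ofReal_tsum_of_nonneg (fun k => by positivity)
    (summable_geometric_of_lt_one (by norm_num) (by norm_num))]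
  exact ENNReal.ofReal_ne_top

/-- measurable functions with summable integrals -/
theorem ae_conv_of_tsum {H : ℕ → V → ℝ≥0∞} (hm : ∀ k, Measurable (H k))
    (hs : ∑' k, ∫⁻ x, H k x ≠ ⊤) :
    ∀ᵐ v : V, (∀ e, Tendsto (fun k => eInt v e (H k)) atTop (𝓝 0)) ∧
      ∀ s, Tendsto (fun k => sInt v s (H k)) atTop (𝓝 0) := by
  have h1 : ∀ᵐ v : V, ∀ e, Tendsto (fun k => eInt v e (H k)) atTop (𝓝 0) := by
    refine ae_all_iff.2 fun e => ae_tendsto_of_tsum (fun k => measurable_eInt e (hm k)) ?_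
    simp_rw [lintegral_eInt e (hm _)]
    rw [ENNReal.tsum_mul_left]
    exact ENNReal.mul_ne_top (by simp [Real.volume_Ico]) hs
  have h2 : ∀ᵐ v : V, ∀ s, Tendsto (fun k => sInt v s (H k)) atTop (𝓝 0) := by
    refine ae_all_iff.2 fun s => ae_tendsto_of_tsum (fun k => measurable_sInt s (hm k)) ?_
    simp_rw [lintegral_sInt s (hm _)]
    rw [ENNReal.tsum_mul_left, ENNReal.tsum_mul_left]
    refine ENNReal.mul_ne_top (by simp) (ENNReal.mul_ne_top ?_ hs)
    have h3 : hc s.1 ⊆ Icc (fun i => (s.1.2 i : ℝ) / 2 ^ s.1.1)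
        (fun i => ((s.1.2 i : ℝ) + 1) / 2 ^ s.1.1) := by
      intro y hy
      exact ⟨fun i => (hy i (mem_univ i)).1, fun i => (hy i (mem_univ i)).2.le⟩
    exact ((measure_mono h3).trans_lt isCompact_Icc.measure_lt_top).ne
  filter_upwards [h1, h2] with v a b using ⟨a, b⟩

/-- almost everywhere measurable functions with summable integrals -/
theorem ae_conv_of_tsum' {H : ℕ → V → ℝ≥0∞} (hm : ∀ k, AEMeasurable (H k))
    (hs : ∑' k, ∫⁻ x, H k x ≠ ⊤) :
    ∀ᵐ v : V, (∀ e, Tendsto (fun k => eInt v e (H k)) atTop (𝓝 0)) ∧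
      ∀ s, Tendsto (fun k => sInt v s (H k)) atTop (𝓝 0) := by
  have hmm : ∀ k, Measurable ((hm k).mk (H k)) := fun k => (hm k).measurable_mk
  have hHH : ∀ k, H k =ᵐ[volume] (hm k).mk (H k) := fun k => (hm k).ae_eq_mk
  have h1 := ae_conv_of_tsum hmm (by
    have e : ∀ k, ∫⁻ x, (hm k).mk (H k) x = ∫⁻ x, H k x := fun k =>
      (lintegral_congr_ae (hHH k)).symm
    simp_rw [e]
    exact hs)
  have h2 : ∀ᵐ v : V, ∀ k, ∀ A A' : V → ℝ≥0∞,
      (∀ x, x ∉ {x | ¬ H k x = (hm k).mk (H k) x} → A x = A' x) →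
      (∀ e, eInt v e A = eInt v e A') ∧ ∀ s, sInt v s A = sInt v s A' :=
    ae_all_iff.2 fun k => ae_rep (ae_iff.1 (hHH k))
  filter_upwards [h1, h2] with v hv hv2
  have h3 : ∀ k, (∀ e, eInt v e (H k) = eInt v e ((hm k).mk (H k))) ∧
      ∀ s, sInt v s (H k) = sInt v s ((hm k).mk (H k)) := fun k =>
    hv2 k _ _ fun x hx => not_not.1 hx
  refine ⟨fun e => ?_, fun s => ?_⟩
  · simp_rw [(h3 _).1 e]
    exact hv.1 e
  · simp_rw [(h3 _).2 s]
    exact hv.2 s

/-- **[GEN-CONV]** if `∫ H k → 0`, then for a subsequence and for almost every origin the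
integrals over all dyadic edges and squares tend to zero -/
theorem exists_genConv {H : ℕ → V → ℝ≥0∞} (hm : ∀ k, AEMeasurable (H k))
    (h0 : Tendsto (fun k => ∫⁻ x, H k x) atTop (𝓝 0)) :
    ∃ φ : ℕ → ℕ, StrictMono φ ∧ ∀ᵐ v : V,
      (∀ e, Tendsto (fun k => eInt v e (H (φ k))) atTop (𝓝 0)) ∧
      ∀ s, Tendsto (fun k => sInt v s (H (φ k))) atTop (𝓝 0) := by
  obtain ⟨φ, hφ, h1⟩ := exists_subseq_tsum h0
  refine ⟨φ, hφ, ae_conv_of_tsum' (fun k => hm (φ k)) ?_⟩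
  exact ne_top_of_le_ne_top tsum_half_ne_top (ENNReal.tsum_le_tsum h1)

/-! ### Fields of matrices -/

section field

variable {E : Type*} [NormedAddCommGroup E]

/-- **[GEN-CONV]** for fields `G k → G` in `L^q(Ω)`: exponent `q` on the squares, exponents `q` and
`1` on the edges -/
theorem exists_genConv_field {q : ℝ} (hq : 1 ≤ q) {Ω : Set V} (hΩ : MeasurableSet Ω)
    {G : V → E} {Gk : ℕ → V → E} (hm : ∀ k, AEStronglyMeasurable (fun x => Gk k x - G x)
      (volume.restrict Ω))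
    (h0 : Tendsto (fun k => ∫⁻ x in Ω, ‖Gk k x - G x‖ₑ ^ q) atTop (𝓝 0)) :
    ∃ φ : ℕ → ℕ, StrictMono φ ∧ ∀ᵐ v : V,
      (∀ e, edge v e ⊆ Ω →
        Tendsto (fun k => eInt v e fun x => ‖Gk (φ k) x - G x‖ₑ ^ q) atTop (𝓝 0) ∧
        Tendsto (fun k => eInt v e fun x => ‖Gk (φ k) x - G x‖ₑ) atTop (𝓝 0)) ∧
      ∀ s, AB.squ v s ⊆ Ω →
        Tendsto (fun k => sInt v s fun x => ‖Gk (φ k) x - G x‖ₑ ^ q) atTop (𝓝 0) := by
  set H : ℕ → V → ℝ≥0∞ := fun k => Ω.indicator fun x => ‖Gk k x - G x‖ₑ ^ q with hH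
  have hHm : ∀ k, AEMeasurable (H k) := fun k => by
    rw [hH]
    exact (aemeasurable_indicator_iff hΩ).2 ((hm k).enorm.pow_const q)
  have hH0 : Tendsto (fun k => ∫⁻ x, H k x) atTop (𝓝 0) := by
    simp_rw [hH, lintegral_indicator hΩ]
    exact h0
  obtain ⟨φ, hφ, h1⟩ := exists_genConv hHm hH0
  refine ⟨φ, hφ, ?_⟩
  filter_upwards [h1] with v hv
  have hE : ∀ e, edge v e ⊆ Ω → ∀ k, eInt v e (H (φ k)) =
      eInt v e fun x => ‖Gk (φ k) x - G x‖ₑ ^ q := by
    intro e he k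
    refine H194.eInt_congr fun t ht => ?_
    rw [hH]
    exact indicator_of_mem (he (edge_pt_mem v e ht)) _
  refine ⟨fun e he => ?_, fun s hs => ?_⟩
  · have h2 : Tendsto (fun k => eInt v e fun x => ‖Gk (φ k) x - G x‖ₑ ^ q) atTop (𝓝 0) := by
      have h3 := hv.1 e
      simp_rw [hE e he] at h3
      exact h3
    refine ⟨h2, ?_⟩
    -- the exponent one
    have hq0 : 0 < q := by linarith
    have h4 : ∀ k, (eInt v e fun x => ‖Gk (φ k) x - G x‖ₑ) ≤
        (ENNReal.ofReal ((1 / 2 ^ e.1.1) ^ (q - 1)) *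
          eInt v e fun x => ‖Gk (φ k) x - G x‖ₑ ^ q) ^ (1 / q) := by
      intro k
      rw [one_div q, ENNReal.le_rpow_inv_iff hq0]
      exact H194.eInt_rpow_le hq v e _
    have h5 : Tendsto (fun k => (ENNReal.ofReal ((1 / 2 ^ e.1.1) ^ (q - 1)) *
        eInt v e fun x => ‖Gk (φ k) x - G x‖ₑ ^ q) ^ (1 / q)) atTop (𝓝 0) := by
      have h6 := ENNReal.Tendsto.const_mul (a := ENNReal.ofReal ((1 / 2 ^ e.1.1) ^ (q - 1))) h2
        (Or.inr ENNReal.ofReal_ne_top)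
      rw [mul_zero] at h6
      have h7 := h6.ennrpow_const (1 / q)
      rwa [ENNReal.zero_rpow_of_pos (by positivity)] at h7
    exact tendsto_of_tendsto_of_tendsto_of_le_of_le tendsto_const_nhds h5 (fun _ => zero_le) h4
  · have h3 := hv.2 s
    have h4 : ∀ k, sInt v s (H (φ k)) = sInt v s fun x => ‖Gk (φ k) x - G x‖ₑ ^ q := by
      intro k
      refine H194.sInt_congr fun x hx => ?_
      rw [hH]
      exact indicator_of_mem (hs hx) _
    simp_rw [h4] at h3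
    exact h3

end field

end Vale.Agent.P073.H761
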