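import Vale.Agent.P073.H761.GenConv
import Vale.Agent.P073.H83.Gen

/-!
# P073, block H761, [FACE-SUP]: the largest face integral

`supS l H v` is the supremum of `2^(-l) ∫_F H` over ALL dyadic squares `F` of generation `l` of the
origin `v`. For integrable `H` its mean over the origins tends to zero.
-/

open Set Metric Topology Filter MeasureTheory
open scoped ENNReal

namespace Vale.Agent.P073.H761

open Vale.Agent.P073.AB (Idx pt edge eInt)
open Vale.Agent.P073.St (V)
open _root_.P073.Net (dyc dyo)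
open Vale.Agent.P073.H194
open Vale.Agent.P073.H83
open Vale.Agent.P073.H739 (posn measurable_posn avg3)
open Vale.Agent.P073.SQ (ev)

/-- the supremum of `2^(-l) ∫_F H` over the squares of generation `l` -/
noncomputable def supS (l : ℕ) (H : V → ℝ≥0∞) (v : V) : ℝ≥0∞ :=
  ⨆ s : {s : Idx × Fin 3 // s.1.1 = l}, ENNReal.ofReal (1 / 2 ^ l) * sInt v s.1 H

theorem measurable_supS (l : ℕ) {H : V → ℝ≥0∞} (hH : Measurable H) : Measurable (supS l H) := by
  unfold supS
  exact Measurable.iSup fun s => (measurable_sInt _ hH).const_mul _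

theorem le_supS {l : ℕ} {s : Idx × Fin 3} (hs : s.1.1 = l) (H : V → ℝ≥0∞) (v : V) :
    ENNReal.ofReal (1 / 2 ^ l) * sInt v s H ≤ supS l H v :=
  le_iSup (fun s : {s : Idx × Fin 3 // s.1.1 = l} => ENNReal.ofReal (1 / 2 ^ l) * sInt v s.1 H)
    ⟨s, hs⟩

/-- the sum over all squares of generation `l` and direction `k` -/
noncomputable def plS (l : ℕ) (H : V → ℝ≥0∞) (k : Fin 3) (v : V) : ℝ≥0∞ :=
  ∫⁻ y : V, H (v + Function.update y k (la false l (y k)))

/-- the same in terms of one coordinate of the origin -/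
noncomputable def plT (l : ℕ) (H : V → ℝ≥0∞) (k : Fin 3) (t : ℝ) : ℝ≥0∞ :=
  ∫⁻ y : V, H (Function.update y k (posn l 0 t (y k)))

theorem measurable_plT (l : ℕ) {H : V → ℝ≥0∞} (hH : Measurable H) (k : Fin 3) :
    Measurable (plT l H k) := by
  have hj : Measurable fun p : ℝ × V => H (Function.update p.2 k (posn l 0 p.1 (p.2 k))) := by
    refine hH.comp ?_
    refine measurable_pi_lambda _ fun i => ?_
    by_cases hi : i = k
    · subst hi
      simp only [Function.update_self]
      exact (measurable_posn l _).comp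
        (measurable_fst.prodMk ((measurable_pi_apply i).comp measurable_snd))
    · simp only [Function.update_of_ne hi]
      exact (measurable_pi_apply i).comp measurable_snd
  exact hj.lintegral_prod_right'

theorem plS_eq (l : ℕ) (H : V → ℝ≥0∞) (k : Fin 3) (v : V) : plS l H k v = plT l H k (v k) := by
  have h2 := lintegral_add_left_eq_self (μ := (volume : Measure V))
    (fun y => H (Function.update y k (posn l 0 (v k) (y k)))) v
  rw [plT, ← h2, plS]
  refine lintegral_congr fun y => ?_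
  congr 1
  funext i
  by_cases hi : i = k
  · subst hi
    simp [posn, la]
  · simp [Function.update_of_ne hi]

/-- the mean over the origins -/
theorem lintegral_plS_le (l : ℕ) {H : V → ℝ≥0∞} (hH : Measurable H) (k : Fin 3) :
    ∫⁻ v in Icc (0:V) 1, plS l H k v ≤ 3 * ∫⁻ y, H y := by
  simp_rw [plS_eq]
  rw [lintegral_eval k (measurable_plT l hH k)]
  exact avg3 l k le_rfl zero_le_one hH

theorem sq_le_plS {l : ℕ} {s : Idx × Fin 3} (hs : s.1.1 = l) (H : V → ℝ≥0∞) (v : V) :
    ENNReal.ofReal (1 / 2 ^ l) * sInt v s H ≤ plS l H s.2 v := by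
  obtain ⟨⟨n, w⟩, k⟩ := s
  simp only at hs
  subst hs
  rw [sInt_hc]
  have h1 : ENNReal.ofReal (1 / 2 ^ n) * (2:ℝ≥0∞) ^ n = 1 := by
    have h2 : (2:ℝ≥0∞) ^ n = ENNReal.ofReal (2 ^ n) := by
      rw [ENNReal.ofReal_pow (by norm_num)]; norm_num
    rw [h2, ← ENNReal.ofReal_mul (by positivity)]
    rw [show (1 / 2 ^ n * 2 ^ n : ℝ) = 1 by field_simp]
    exact ENNReal.ofReal_one
  simp only
  rw [← mul_assoc, h1, one_mul]
  calc ∫⁻ y in hc (n, w), H (v + Function.update y k ((w k : ℝ) / 2 ^ n))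
      = ∫⁻ y in hc (n, w), H (v + Function.update y k (la false n (y k))) := by
        refine setLIntegral_congr_fun (measurableSet_hc _) fun y hy => ?_
        have h3 := floor_of_mem (mem_hc.1 hy k).1 (mem_hc.1 hy k).2
        simp only [la, h3]
        simp
    _ ≤ plS n H k v := setLIntegral_le_lintegral _ _

theorem supS_le {l : ℕ} {H H₂ : V → ℝ≥0∞} {c : ℝ≥0∞} (h : ∀ x, H x ≤ c + H₂ x) (v : V) :
    supS l H v ≤ c * ENNReal.ofReal ((1 / 2 ^ l) ^ 3) + ∑ k, plS l H₂ k v := by
  refine iSup_le fun ⟨s, hs⟩ => ?_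
  have h1 : ENNReal.ofReal (1 / 2 ^ l) * sInt v s H ≤
      ENNReal.ofReal (1 / 2 ^ l) * sInt v s (fun _ => c) +
        ENNReal.ofReal (1 / 2 ^ l) * sInt v s H₂ := by
    rw [← mul_add]
    gcongr
    rw [sInt_hc, sInt_hc, sInt_hc, ← mul_add]
    gcongr
    rw [← lintegral_add_left measurable_const]
    exact lintegral_mono fun y => h _
  refine h1.trans (add_le_add ?_ ((sq_le_plS hs H₂ v).trans
    (Finset.single_le_sum (f := fun k => plS l H₂ k v) (fun _ _ => zero_le) (Finset.mem_univ _))))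
  rw [sInt_hc, hs, lintegral_const, Measure.restrict_apply_univ, volume_hc, hs]
  have h2 : (2:ℝ≥0∞) ^ l = ENNReal.ofReal (2 ^ l) := by
    rw [ENNReal.ofReal_pow (by norm_num)]; norm_num
  rw [h2, ← mul_assoc, ← ENNReal.ofReal_mul (by positivity),
    show (1 / 2 ^ l * 2 ^ l : ℝ) = 1 by field_simp, ENNReal.ofReal_one, one_mul]

/-- the truncated part has small integral -/
theorem tendsto_trunc {H : V → ℝ≥0∞} (hH : Measurable H) (hfin : ∫⁻ x, H x ≠ ⊤) :
    Tendsto (fun n : ℕ => ∫⁻ x, H x - n) atTop (𝓝 0) := by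
  have h0 : (∫⁻ _x : V, (0:ℝ≥0∞)) = 0 := lintegral_zero
  rw [← h0]
  refine tendsto_lintegral_of_dominated_convergence H (fun n => hH.sub_const _)
    (fun n => Eventually.of_forall fun x => tsub_le_self) hfin ?_
  filter_upwards [ae_lt_top hH hfin] with x hx
  obtain ⟨m, hm⟩ := ENNReal.exists_nat_gt hx.ne
  refine tendsto_const_nhds.congr' ?_
  filter_upwards [eventually_ge_atTop m] with n hn
  symm
  rw [tsub_eq_zero_iff_le]
  exact hm.le.trans (by exact_mod_cast hn)

/-- **[FACE-SUP]** the mean over the origins of the largest face integral tends to zero -/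
theorem tendsto_supS {H : V → ℝ≥0∞} (hH : Measurable H) (hfin : ∫⁻ x, H x ≠ ⊤) :
    Tendsto (fun l => ∫⁻ v in Icc (0:V) 1, supS l H v) atTop (𝓝 0) := by
  rw [ENNReal.tendsto_atTop_zero]
  intro ε hε
  -- the truncation
  have h1 : Tendsto (fun n : ℕ => 9 * ∫⁻ x, H x - n) atTop (𝓝 0) := by
    have := ENNReal.Tendsto.const_mul (tendsto_trunc hH hfin) (a := 9) (Or.inr (by norm_num))
    rwa [mul_zero] at this
  have hε2 : 0 < ε / 2 := ENNReal.half_pos hε.ne'
  obtain ⟨n, hn⟩ := (h1.eventually_le_const hε2).exists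
  -- the bounded part
  have h2 : Tendsto (fun l : ℕ => (n:ℝ≥0∞) * ENNReal.ofReal ((1 / 2 ^ l) ^ 3)) atTop (𝓝 0) := by
    have h4 : Tendsto (fun n : ℕ => (1 / 2 ^ n : ℝ)) atTop (𝓝 0) := by
      have := tendsto_pow_atTop_nhds_zero_of_lt_one (r := (1 / 2 : ℝ)) (by norm_num) (by norm_num)
      simpa [one_div_pow] using this
    have h5 : Tendsto (fun n : ℕ => ((1 / 2 ^ n : ℝ)) ^ 3) atTop (𝓝 0) := by simpa using h4.pow 3
    have h6 := ENNReal.tendsto_ofReal h5
    rw [ENNReal.ofReal_zero] at h6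
    have h7 := ENNReal.Tendsto.const_mul h6 (a := (n:ℝ≥0∞)) (Or.inr (by simp))
    rwa [mul_zero] at h7
  obtain ⟨N, hN⟩ := eventually_atTop.1 (h2.eventually_le_const hε2)
  refine ⟨N, fun l hl => ?_⟩
  set H₂ : V → ℝ≥0∞ := fun x => H x - n with hH₂
  have hH₂m : Measurable H₂ := hH.sub_const _
  have hplm : ∀ k, Measurable fun v => plS l H₂ k v := by
    intro k
    simp_rw [plS_eq]
    exact (measurable_plT l hH₂m k).comp (measurable_pi_apply k)
  calc ∫⁻ v in Icc (0:V) 1, supS l H v
      ≤ ∫⁻ v in Icc (0:V) 1, (((n:ℝ≥0∞) * ENNReal.ofReal ((1 / 2 ^ l) ^ 3)) +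
          ∑ k, plS l H₂ k v) :=
        lintegral_mono fun v => supS_le (fun x => le_add_tsub) v
    _ = (∫⁻ _v in Icc (0:V) 1, ((n:ℝ≥0∞) * ENNReal.ofReal ((1 / 2 ^ l) ^ 3))) +
          ∑ k, ∫⁻ v in Icc (0:V) 1, plS l H₂ k v := by
        rw [lintegral_add_left measurable_const, lintegral_finsetSum _ fun k _ => hplm k]
    _ ≤ ε / 2 + ε / 2 := by
        refine add_le_add ?_ ?_
        · rw [lintegral_const, Measure.restrict_apply_univ]
          have h8 : volume (Icc (0:V) 1) = 1 := by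
            rw [Real.volume_Icc_pi]
            simp
          rw [h8, mul_one]
          exact hN l hl
        · calc ∑ k, ∫⁻ v in Icc (0:V) 1, plS l H₂ k v ≤ ∑ _k : Fin 3, 3 * ∫⁻ y, H₂ y :=
                Finset.sum_le_sum fun k _ => lintegral_plS_le l hH₂m k
            _ = 9 * ∫⁻ y, H₂ y := by
                simp only [Finset.sum_const, Finset.card_univ, Fintype.card_fin, nsmul_eq_mul]
                rw [← mul_assoc]
                norm_num
            _ ≤ ε / 2 := hn
    _ = ε := ENNReal.add_halves ε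

/-- the same for almost everywhere equal functions: for almost every origin all face integrals
agree -/
theorem ae_supS_congr {H H' : V → ℝ≥0∞} (h : H =ᵐ[volume] H') :
    ∀ᵐ v : V, ∀ l, supS l H v = supS l H' v := by
  filter_upwards [ae_rep (ae_iff.1 h)] with v hv l
  unfold supS
  have h1 := (hv H H' fun x hx => not_not.1 hx).2
  simp_rw [h1]

/-- uniform smallness of all faces along the generations -/
theorem eventually_sInt_le {v : V} {nn : ℕ → ℕ} {H : V → ℝ≥0∞}
    (h : Tendsto (fun l => supS (nn l) H v) atTop (𝓝 0)) {ε : ℝ≥0∞} (hε : 0 < ε) :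
    ∀ᶠ l in atTop, ∀ s : Idx × Fin 3, s.1.1 = nn l →
      ENNReal.ofReal (1 / 2 ^ nn l) * sInt v s H ≤ ε := by
  filter_upwards [h.eventually_le_const hε] with l hl s hs
  exact (le_supS hs H v).trans hl

end Vale.Agent.P073.H761
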