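import Vale.Agent.P073.H761.GenX
import Vale.Agent.P073.H989.Hyb1
import Vale.Agent.P073.H83.SobCon
import Vale.Agent.P073.H73.CloseAll

/-!
# P073, block H761: `GenX` is generic, without hypotheses
-/

open Set Metric Topology Filter MeasureTheory
open scoped ENNReal NNReal

namespace Vale.Agent.P073.H761

open Vale.Agent.P073.AB (Idx cl RatGood)
open Vale.Agent.P073.St (V Mat)
open _root_.P073 (ConHomeo)
open Vale.Agent.P073.H304 (hyb1 fmat)
open Vale.Agent.P073.H989 (ratBoxes Bz)

/-- the single hybrids are good for almost all origins -/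
theorem specRatHyb {q : ℝ} (hq : 1 ≤ q) : SpecRatHyb q := by
  intro Ω Λ f F hΩ hΛ hf hF R hR φ hb hE
  have hΩb : Bornology.IsBounded Ω := PK.isBounded_of_domain hΩ
  have hΩv : volume Ω ≠ ⊤ := hΩb.measure_lt_top.ne
  have hdom := H989.domain_of_ratBoxes hR
  have hRΩ : R ⊆ Ω := subset_closure.trans (H989.closure_sub_of_ratBoxes hR)
  have hdom' := H989.domain_image hΛ hf hdom hRΩ
  have hfc : ContinuousOn f Ω := by
    obtain ⟨k, -, h, -⟩ := hf
    exact h
  have hΦ : St.IsSobolev q R φ.toFun (fmat φ.toFun) :=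
    H83.isSobolev_con hq hdom.1 (PK.isBounded_of_domain hdom) (PK.isBounded_of_domain hdom') φ hE
  refine H989.ae_rat_hyb1_of hq hΩ.1 hΩv hR hF hfc hΦ φ.cont hb ?_ ?_ ?_ ?_
  · intro x hx
    simp [hyb1, hx]
  · intro x hx
    simp [hyb1, hx.2]
  · intro x hx
    simp [hyb1, hx]
  · intro x hx
    simp [hyb1, hx.2]

/-- **[GenX] is generic** -/
theorem gxOk' {p : ℝ} (hp : 3 ≤ p) : H234.GX.GXOk p (GenX p) :=
  gxOk (q := 5 / 2) hp (by norm_num) (by norm_num)
    (H73.closeA' (by norm_num) (by norm_num)) (specRatHyb (by norm_num))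

end Vale.Agent.P073.H761
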