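import Vale.Agent.P073.H940.ThmD
import Vale.Agent.P073.H761.Cone

/-!
# The cover theorem and the stripes theorem, unconditionally

`H940.dpr` (theorem D) gives `RankThm`; hence the cover theorem for compact null sets of `ℝ³`
by three cone families, and the stripes theorem.
-/

open MeasureTheory Set Filter Topology
open scoped ContDiff ENNReal

namespace Vale.Agent.P073.H761

theorem rankThm : RankThm := by
  intro Om hOm ρ hρ ξ hξ hdiv N hN hN0 hNOm
  haveI := hρ
  exact H940.dpr (d := 3) (by norm_num) hOm ρ ξ (fun _ _ => 0) hξ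
    (fun _ => integrable_zero _ _ _) (fun j φ h1 h2 h3 => by
      simpa using hdiv j φ h1 h2 h3) hN hN0 hNOm

/-- **Cover theorem**: general (adapted) cones. -/
theorem cover {K : Fin 3 → Set E3} (hK : ∀ j, IsCompact (K j))
    (hKc : ∀ j, Convex ℝ (K j)) (h1 : ∀ j, ∀ v ∈ K j, v j = 1)
    (hind : ∀ v : Fin 3 → E3, (∀ j, v j ∈ K j) → LinearIndependent ℝ v) {F : Set E3}
    (hF : IsCompact F) (hF0 : volume F = 0) {ε : ℝ} (hε : 0 < ε) :
    ∃ O : Fin 3 → Set E3, (∀ j, IsOpen (O j)) ∧ F ⊆ ⋃ j, O j ∧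
      ∀ j, ∀ g : ℝ → E3, IsCurve (K j) j g → volume {t | g t ∈ O j} ≤ ENNReal.ofReal ε :=
  cover_of_rank rankThm hK hKc h1 hind hF hF0 hε

/-- **Cover theorem** in `ℝ³` with the sup norm, narrow cones around the axes. -/
theorem cover3 {a : ℝ} (ha0 : 0 ≤ a) (ha : a < 1 / 2) {F : Set V3}
    (hF : IsCompact F) (hF0 : volume F = 0) {ε : ℝ} (hε : 0 < ε) :
    ∃ O : Fin 3 → Set V3, (∀ j, IsOpen (O j)) ∧ F ⊆ ⋃ j, O j ∧
      ∀ j, ∀ g : ℝ → V3,
        H989.IsCurve (ContinuousLinearMap.proj (R := ℝ) (φ := fun _ : Fin 3 => ℝ) j)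
          (Pi.single j 1) a g → volume {t | g t ∈ O j} ≤ ENNReal.ofReal ε :=
  cover_V rankThm ha0 ha hF hF0 hε

/-- **Stripes theorem**: a compact null set is a union of three compact sets, each in the interior
of finitely many disjoint Lipschitz stripes of small total thickness. -/
theorem stripes {a : ℝ} (ha0 : 0 < a) (ha : a < 1 / 2) {F : Set V3}
    (hF : IsCompact F) (hF0 : volume F = 0) {ε η : ℝ} (hε : 0 < ε) (hη : 0 < η) :
    ∃ G : Fin 3 → Set V3, (∀ j, IsCompact (G j)) ∧ F = ⋃ j, G j ∧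
      ∀ j, ∃ (H : ℝ) (m : ℕ) (b : ℕ → V3 → ℝ),
        H989.IsPack (ContinuousLinearMap.proj (R := ℝ) (φ := fun _ : Fin 3 => ℝ) j)
          (Pi.single j 1) a H m b ∧ H ≤ η ∧ (m : ℝ) * H ≤ ε ∧
        G j ⊆ interior (H989.stripe
          (ContinuousLinearMap.proj (R := ℝ) (φ := fun _ : Fin 3 => ℝ) j) H m b) :=
  stripes_V rankThm ha0 ha hF hF0 hε hη

end Vale.Agent.P073.H761
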