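import Mathlib

/-!
# P073 / H761: representation of dominated functionals on compactly supported functions

`exists_measure`: a positive functional on `C_c(E,ℝ)` bounded by `M ‖φ‖` is given by a finite
measure.  `exists_density`: a functional dominated by a finite measure has a bounded density.
-/

open MeasureTheory Set Filter Topology
open scoped CompactlySupported ENNReal NNReal

namespace Vale.Agent.P073.H761

/-- the ambient space -/
abbrev E3 := EuclideanSpace ℝ (Fin 3)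

/-- the sup norm of a compactly supported function -/
noncomputable def nrm (φ : C_c(E3, ℝ)) : ℝ := ‖φ.toBoundedContinuousFunction‖

theorem nrm_nonneg (φ : C_c(E3, ℝ)) : 0 ≤ nrm φ := norm_nonneg _

theorem abs_le_nrm (φ : C_c(E3, ℝ)) (x : E3) : |φ x| ≤ nrm φ :=
  φ.toBoundedContinuousFunction.norm_coe_le_norm x

theorem nrm_le {φ : C_c(E3, ℝ)} {C : ℝ} (hC : 0 ≤ C) (h : ∀ x, |φ x| ≤ C) : nrm φ ≤ C :=
  (BoundedContinuousFunction.norm_le hC).2 h

theorem exists_bump {K U : Set E3} (hK : IsCompact K) (hU : IsOpen U) (hKU : K ⊆ U) :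
    ∃ f : C_c(E3, ℝ), (∀ x ∈ K, f x = 1) ∧ tsupport (⇑f) ⊆ U ∧ ∀ x, 0 ≤ f x ∧ f x ≤ 1 := by
  obtain ⟨f, hf1, hf2, hf3, hf4⟩ := exists_continuousMap_one_of_isCompact_subset_isOpen hK hU hKU
  exact ⟨⟨f, hasCompactSupport_def.mpr hf2⟩, fun x hx => hf1 hx, hf3, fun x => hf4 x⟩

/-- A linear functional -/
structure IsLin (Λ : C_c(E3, ℝ) → ℝ) : Prop where
  add : ∀ φ ψ, Λ (φ + ψ) = Λ φ + Λ ψ
  smul : ∀ (c : ℝ) φ, Λ (c • φ) = c * Λ φ

/-- the positive linear map -/
noncomputable def mkPos (Λ : C_c(E3, ℝ) → ℝ) (h : IsLin Λ) (hp : ∀ φ, 0 ≤ φ → 0 ≤ Λ φ) :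
    C_c(E3, ℝ) →ₚ[ℝ] ℝ :=
  PositiveLinearMap.mk₀
    { toFun := Λ
      map_add' := h.add
      map_smul' := fun c φ => by simpa using h.smul c φ } hp

theorem mkPos_apply (Λ : C_c(E3, ℝ) → ℝ) (h : IsLin Λ) (hp : ∀ φ, 0 ≤ φ → 0 ≤ Λ φ)
    (φ : C_c(E3, ℝ)) : mkPos Λ h hp φ = Λ φ := rfl

/-- Riesz for bounded positive functionals. -/
theorem exists_measure {Λ : C_c(E3, ℝ) → ℝ} (h : IsLin Λ) (hp : ∀ φ, 0 ≤ φ → 0 ≤ Λ φ)
    {M : ℝ} (hM : 0 ≤ M) (hb : ∀ φ, |Λ φ| ≤ M * nrm φ) :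
    ∃ μ : Measure E3, IsFiniteMeasure μ ∧ μ univ ≤ ENNReal.ofReal M ∧
      ∀ φ : C_c(E3, ℝ), Λ φ = ∫ x, φ x ∂μ := by
  set μ := RealRMK.rieszMeasure (mkPos Λ h hp) with hμ
  have hle : μ univ ≤ ENNReal.ofReal M := by
    have hU : (univ : Set E3) = ⋃ n : ℕ, Metric.closedBall (0 : E3) n := by
      symm
      rw [eq_univ_iff_forall]
      intro x
      obtain ⟨n, hn⟩ := exists_nat_ge ‖x‖
      exact mem_iUnion.2 ⟨n, by simpa using hn⟩
    have hmono : Monotone fun n : ℕ => Metric.closedBall (0 : E3) n := fun a b hab =>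
      Metric.closedBall_subset_closedBall (by exact_mod_cast hab)
    rw [hU, hmono.measure_iUnion]
    refine iSup_le fun n => ?_
    obtain ⟨f, hf1, -, hf3⟩ := exists_bump (isCompact_closedBall (0 : E3) (n : ℝ)) isOpen_univ
      (subset_univ _)
    refine (RealRMK.rieszMeasure_le_of_eq_one (mkPos Λ h hp) (fun x => (hf3 x).1)
      (isCompact_closedBall _ _) hf1).trans (ENNReal.ofReal_le_ofReal ?_)
    rw [mkPos_apply]
    calc Λ f ≤ |Λ f| := le_abs_self _
      _ ≤ M * nrm f := hb f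
      _ ≤ M * 1 := by
        refine mul_le_mul_of_nonneg_left (nrm_le zero_le_one fun x => ?_) hM
        rw [abs_of_nonneg (hf3 x).1]; exact (hf3 x).2
      _ = M := mul_one M
  refine ⟨μ, ⟨lt_of_le_of_lt hle ENNReal.ofReal_lt_top⟩, hle, fun φ => ?_⟩
  rw [hμ, RealRMK.integral_rieszMeasure, mkPos_apply]

/-- Functionals dominated by a finite measure have a bounded density. -/
theorem exists_density {Λ : C_c(E3, ℝ) → ℝ} (h : IsLin Λ) (μ : Measure E3) [IsFiniteMeasure μ]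
    {c : ℝ} (hc : 0 ≤ c) (hd : ∀ φ : C_c(E3, ℝ), 0 ≤ φ → |Λ φ| ≤ c * ∫ x, φ x ∂μ) :
    ∃ m : E3 → ℝ, Measurable m ∧ (∀ x, |m x| ≤ c) ∧ ∀ φ : C_c(E3, ℝ), Λ φ = ∫ x, φ x * m x ∂μ := by
  -- the two positive functionals
  have hadd : ∀ φ ψ : C_c(E3, ℝ), ∫ x, (φ + ψ) x ∂μ = ∫ x, φ x ∂μ + ∫ x, ψ x ∂μ := fun φ ψ => by
    simpa using integral_add φ.integrable ψ.integrable
  have hsmul : ∀ (a : ℝ) (φ : C_c(E3, ℝ)), ∫ x, (a • φ) x ∂μ = a * ∫ x, φ x ∂μ := fun a φ => by
    simpa using integral_const_mul (μ := μ) a (fun x => φ x)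
  have hl1 : IsLin fun φ : C_c(E3, ℝ) => c * ∫ x, φ x ∂μ + Λ φ :=
    ⟨fun φ ψ => by
      rw [hadd, h.add]; ring,
     fun a φ => by
      rw [hsmul, h.smul]; ring⟩
  have hl2 : IsLin fun φ : C_c(E3, ℝ) => c * ∫ x, φ x ∂μ - Λ φ :=
    ⟨fun φ ψ => by
      rw [hadd, h.add]; ring,
     fun a φ => by
      rw [hsmul, h.smul]; ring⟩
  have hp1 : ∀ φ : C_c(E3, ℝ), 0 ≤ φ → 0 ≤ c * ∫ x, φ x ∂μ + Λ φ := fun φ hφ => by
    have := hd φ hφ; have := neg_abs_le (Λ φ); linarith
  have hp2 : ∀ φ : C_c(E3, ℝ), 0 ≤ φ → 0 ≤ c * ∫ x, φ x ∂μ - Λ φ := fun φ hφ => by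
    have := hd φ hφ; have := le_abs_self (Λ φ); linarith
  have habs : ∀ φ : C_c(E3, ℝ), |∫ x, φ x ∂μ| ≤ μ.real univ * nrm φ := fun φ => by
    have := norm_integral_le_of_norm_le_const (μ := μ) (f := fun x => φ x) (C := nrm φ)
      (Eventually.of_forall fun x => by simpa using abs_le_nrm φ x)
    rw [Real.norm_eq_abs] at this
    linarith [mul_comm (nrm φ) (μ.real univ)]
  set M := 3 * c * μ.real univ with hMdef
  have hM : 0 ≤ M := by positivity
  -- absolute value bound of `Λ` through positive and negative parts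
  have hΛ : ∀ φ : C_c(E3, ℝ), |Λ φ| ≤ 2 * c * μ.real univ * nrm φ := fun φ => by
    have hsplit : φ = (φ ⊔ 0) + (-1 : ℝ) • ((-φ) ⊔ 0) := by
      ext x
      have : φ x = max (φ x) 0 - max (-φ x) 0 := by
        rcases le_total 0 (φ x) with h | h
        · rw [max_eq_left h, max_eq_right (by linarith)]; ring
        · rw [max_eq_right h, max_eq_left (by linarith)]; ring
      simp only [CompactlySupportedContinuousMap.add_apply,
        CompactlySupportedContinuousMap.smul_apply, CompactlySupportedContinuousMap.sup_apply,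
        CompactlySupportedContinuousMap.neg_apply, CompactlySupportedContinuousMap.zero_apply,
        smul_eq_mul]
      linarith
    have hpos1 : (0 : C_c(E3, ℝ)) ≤ φ ⊔ 0 := le_sup_right
    have hpos2 : (0 : C_c(E3, ℝ)) ≤ (-φ) ⊔ 0 := le_sup_right
    have key : ∀ ψ : C_c(E3, ℝ), (∀ x, |ψ x| ≤ |φ x|) → 0 ≤ ψ →
        |Λ ψ| ≤ c * (μ.real univ * nrm φ) := fun ψ h1 h2 => by
      refine (hd ψ h2).trans (mul_le_mul_of_nonneg_left ?_ hc)
      refine (le_abs_self _).trans ((habs ψ).trans ?_)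
      exact mul_le_mul_of_nonneg_left
        (nrm_le (nrm_nonneg φ) fun x => (h1 x).trans (abs_le_nrm φ x)) (by positivity)
    have k1 := key (φ ⊔ 0) (fun x => by
      simp only [CompactlySupportedContinuousMap.sup_apply,
        CompactlySupportedContinuousMap.zero_apply]
      rcases le_total 0 (φ x) with h | h
      · rw [max_eq_left h]
      · rw [max_eq_right h]; simp) hpos1
    have k2 := key ((-φ) ⊔ 0) (fun x => by
      simp only [CompactlySupportedContinuousMap.sup_apply,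
        CompactlySupportedContinuousMap.zero_apply, CompactlySupportedContinuousMap.neg_apply]
      rcases le_total 0 (φ x) with h | h
      · rw [max_eq_right (by linarith)]; simp
      · rw [max_eq_left (by linarith)]; simp) hpos2
    have : Λ φ = Λ (φ ⊔ 0) - Λ ((-φ) ⊔ 0) := by
      conv_lhs => rw [hsplit]
      rw [h.add, h.smul]; ring
    rw [this]
    have := abs_sub (Λ (φ ⊔ 0)) (Λ ((-φ) ⊔ 0))
    linarith
  have hb1 : ∀ φ : C_c(E3, ℝ), |c * ∫ x, φ x ∂μ + Λ φ| ≤ M * nrm φ := fun φ => by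
    have h1 := abs_add_le (c * ∫ x, φ x ∂μ) (Λ φ)
    have h2 : |c * ∫ x, φ x ∂μ| ≤ c * (μ.real univ * nrm φ) := by
      rw [abs_mul, abs_of_nonneg hc]; exact mul_le_mul_of_nonneg_left (habs φ) hc
    have h3 := hΛ φ
    rw [hMdef]; linarith
  have hb2 : ∀ φ : C_c(E3, ℝ), |c * ∫ x, φ x ∂μ - Λ φ| ≤ M * nrm φ := fun φ => by
    have h1 := abs_sub (c * ∫ x, φ x ∂μ) (Λ φ)
    have h2 : |c * ∫ x, φ x ∂μ| ≤ c * (μ.real univ * nrm φ) := by
      rw [abs_mul, abs_of_nonneg hc]; exact mul_le_mul_of_nonneg_left (habs φ) hc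
    have h3 := hΛ φ
    rw [hMdef]; linarith
  obtain ⟨ν₁, hf1, -, hi1'⟩ := exists_measure hl1 hp1 hM hb1
  obtain ⟨ν₂, hf2, -, hi2'⟩ := exists_measure hl2 hp2 hM hb2
  have hi1 : ∀ φ : C_c(E3, ℝ), ∫ x, φ x ∂ν₁ = c * ∫ x, φ x ∂μ + Λ φ := fun φ => (hi1' φ).symm
  have hi2 : ∀ φ : C_c(E3, ℝ), ∫ x, φ x ∂ν₂ = c * ∫ x, φ x ∂μ - Λ φ := fun φ => (hi2' φ).symm
  have hsum : ν₁ + ν₂ = (ENNReal.ofReal (2 * c)) • μ := by
    have : IsFiniteMeasure (ENNReal.ofReal (2 * c) • μ) := Measure.smul_finite μ ENNReal.ofReal_ne_top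
    refine Measure.ext_of_integral_eq_on_compactlySupported fun φ => ?_
    rw [integral_add_measure φ.integrable φ.integrable, integral_smul_measure, hi1, hi2,
      ENNReal.toReal_ofReal (by positivity), smul_eq_mul]
    ring
  have hle : ν₁ ≤ (ENNReal.ofReal (2 * c)) • μ := by
    rw [← hsum]; exact Measure.le_add_right le_rfl
  have hac : ν₁ ≪ μ := by
    refine Measure.absolutelyContinuous_of_le_smul hle
  have hfin1 : IsFiniteMeasure ν₁ := hf1
  have hld : ν₁.HaveLebesgueDecomposition μ :=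
    Measure.haveLebesgueDecomposition_of_sigmaFinite ν₁ μ
  -- density
  set g := ν₁.rnDeriv μ with hg
  have hgle : ∀ᵐ x ∂μ, g x ≤ ENNReal.ofReal (2 * c) := by
    refine ae_le_of_forall_setLIntegral_le_of_sigmaFinite (Measure.measurable_rnDeriv _ _) fun s hs hsf => ?_
    rw [hg, Measure.setLIntegral_rnDeriv hac, setLIntegral_const]
    simpa using hle s
  set m : E3 → ℝ := fun x => max (-c) (min c ((g x).toReal - c)) with hm
  have hgm : Measurable g := Measure.measurable_rnDeriv _ _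
  have hmm : Measurable m := by
    exact measurable_const.max (measurable_const.min ((hgm.ennreal_toReal).sub_const c))
  refine ⟨m, hmm, fun x => ?_, fun φ => ?_⟩
  · rw [abs_le]
    exact ⟨le_max_left _ _, max_le (by linarith) (min_le_left _ _)⟩
  · have hmae : ∀ᵐ x ∂μ, m x = (g x).toReal - c := by
      filter_upwards [hgle] with x hx
      have h1 : (g x).toReal ≤ 2 * c := by
        have := ENNReal.toReal_mono ENNReal.ofReal_ne_top hx
        rwa [ENNReal.toReal_ofReal (by positivity)] at this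
      have h2 : 0 ≤ (g x).toReal := ENNReal.toReal_nonneg
      simp only [hm]
      rw [min_eq_right (by linarith), max_eq_right (by linarith)]
    have hint1 : ∫ x, φ x ∂ν₁ = ∫ x, φ x * (g x).toReal ∂μ := by
      rw [← integral_rnDeriv_smul hac (f := fun x => φ x)]
      exact integral_congr_ae (Eventually.of_forall fun x => by simp [hg, mul_comm])
    have hI1 : Integrable (fun x => φ x * (g x).toReal) μ := by
      refine Integrable.bdd_mul (c := nrm φ) Measure.integrable_toReal_rnDeriv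
        φ.continuous.aestronglyMeasurable (Eventually.of_forall fun x => ?_)
      simpa using abs_le_nrm φ x
    have hI2 : Integrable (fun x => φ x * c) μ := φ.integrable.mul_const c
    have e1 : ∫ x, φ x * m x ∂μ = ∫ x, φ x * (g x).toReal ∂μ - ∫ x, φ x * c ∂μ := by
      rw [← integral_sub hI1 hI2]
      refine integral_congr_ae ?_
      filter_upwards [hmae] with x hx
      rw [hx]; ring
    rw [e1, ← hint1, hi1, integral_mul_const]
    ring

end Vale.Agent.P073.H761
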