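import Vale.Agent.P073.H236.Stage3b

/-!
# P073, H761, [SHARP-END], part 1: one-dimensional facts

Variation over disjoint parameter intervals; the staircase between the flats.
-/

open Set Metric Topology Filter
open scoped ENNReal

namespace P073.H761.SE

open P073 P073.H236

/-- the variation is at least the sum of the jumps over disjoint parameter intervals -/
theorem sum_edist_le {α : Type*} (f : ℝ → ℝ) (l r : α → ℝ) {a : ℝ} (X : Finset α) :
    (∀ x ∈ X, a ≤ l x ∧ l x < r x) → (∀ x ∈ X, ∀ y ∈ X, x ≠ y → r x ≤ l y ∨ r y ≤ l x) →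
    ∀ t, a ≤ t → (∀ x ∈ X, r x ≤ t) →
      ∑ x ∈ X, edist (f (l x)) (f (r x)) ≤ eVariationOn f (Icc a t) := by
  classical
  induction X using Finset.induction_on_max_value l with
  | empty => intro _ _ t _ _; simp
  | insert y X hy hmax IH =>
    intro h0 hd t hat ht
    have h0y := h0 y (Finset.mem_insert_self _ _)
    have hty := ht y (Finset.mem_insert_self _ _)
    rw [Finset.sum_insert hy, add_comm]
    have h1 : ∀ x ∈ X, r x ≤ l y := by
      intro x hx
      have hne : x ≠ y := fun h => hy (h ▸ hx)
      rcases hd x (Finset.mem_insert_of_mem hx) y (Finset.mem_insert_self _ _) hne with h | h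
      · exact h
      · have := hmax x hx
        linarith
    have h2 := IH (fun x hx => h0 x (Finset.mem_insert_of_mem hx))
      (fun x hx y hy => hd x (Finset.mem_insert_of_mem hx) y (Finset.mem_insert_of_mem hy))
      (l y) h0y.1 h1
    have h3 : edist (f (l y)) (f (r y)) ≤ eVariationOn f (Icc (l y) t) :=
      eVariationOn.edist_le f ⟨le_rfl, h0y.2.le.trans hty⟩ ⟨h0y.2.le, hty⟩
    have h4 := eVariationOn.Icc_add_Icc f (s := univ) h0y.1 (h0y.2.le.trans hty) (mem_univ _)
    simp only [univ_inter] at h4
    rw [← h4]
    exact add_le_add h2 h3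

/-- sum over the coordinates -/
theorem card_le_sum_variation {α : Type*} {m : ℕ} (u : ℝ → Fin m → ℝ) (l r : α → ℝ)
    (X : Finset α) (cd : α → Fin m) {w : ℝ} (h0 : ∀ x ∈ X, 0 ≤ l x ∧ l x < r x)
    (h1 : ∀ x ∈ X, r x ≤ 1) (hd : ∀ x ∈ X, ∀ y ∈ X, x ≠ y → r x ≤ l y ∨ r y ≤ l x)
    (hw : ∀ x ∈ X, w ≤ |u (l x) (cd x) - u (r x) (cd x)|) :
    (X.card : ℝ≥0∞) * ENNReal.ofReal w ≤ ∑ j, eVariationOn (fun t => u t j) (Icc 0 1) := by
  classical
  have h2 : ∀ j, ∑ x ∈ X with cd x = j, edist (u (l x) j) (u (r x) j) ≤
      eVariationOn (fun t => u t j) (Icc 0 1) := fun j =>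
    sum_edist_le (fun t => u t j) l r (X.filter fun x => cd x = j)
      (fun x hx => h0 x (Finset.mem_filter.1 hx).1)
      (fun x hx y hy => hd x (Finset.mem_filter.1 hx).1 y (Finset.mem_filter.1 hy).1)
      1 zero_le_one fun x hx => h1 x (Finset.mem_filter.1 hx).1
  refine le_trans ?_ (Finset.sum_le_sum fun j _ => h2 j)
  have e : ∑ j, ∑ x ∈ X with cd x = j, edist (u (l x) j) (u (r x) j) =
      ∑ x ∈ X, edist (u (l x) (cd x)) (u (r x) (cd x)) := by
    rw [← Finset.sum_fiberwise X cd fun x => edist (u (l x) (cd x)) (u (r x) (cd x))]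
    refine Finset.sum_congr rfl fun j _ => Finset.sum_congr rfl fun x hx => ?_
    rw [(Finset.mem_filter.1 hx).2]
  rw [e, ← nsmul_eq_mul, ← Finset.sum_const]
  refine Finset.sum_le_sum fun x hx => ?_
  rw [edist_dist, Real.dist_eq]
  exact ENNReal.ofReal_le_ofReal (hw x hx)

section

variable {N : ℕ} {a : ℕ → ℝ} {c al be e t t' : ℝ}

/-- between the flats the staircase is near the uniform positions -/
theorem sm_gap (h : Lvs N a c al be) (he : 0 < e) (heo : 2 * e < stp N al be)
    (ht : t ∈ Icc al be) (hoff : ∀ k < N, ¬ |t - a k| ≤ c) :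
    |sm N a c al be al (stp N al be) e t -
      (al + ((Finset.range N).filter fun k => a k < t).card * stp N al be)| ≤ e := by
  have hT := Tgt.full h.pos he heo
  have hc := h.c0
  have hm := (sm_strictMono h hT).monotone
  have hN' : (N : ℝ) ≠ 0 := by have := h.pos; positivity
  have hNs : (N : ℝ) * stp N al be = be - al := by unfold stp; rw [mul_div_cancel₀ _ hN']
  set n := ((Finset.range N).filter fun k => a k < t).card with hn
  -- the levels below `t` are the first `n` ones
  have hfil : ∀ k < N, a k < t → ∀ i ≤ k, i ∈ (Finset.range N).filter fun k => a k < t := by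
    intro k hk hkt i hi
    refine Finset.mem_filter.2 ⟨Finset.mem_range.2 (by omega), ?_⟩
    rcases hi.lt_or_eq with h1 | h1
    · exact (h.strictMono h1 hk).trans hkt
    · rw [h1]; exact hkt
  have hup : ∀ k < N, a k < t → k + 1 ≤ n := by
    intro k hk hkt
    have : Finset.range (k + 1) ⊆ (Finset.range N).filter fun k => a k < t := fun i hi =>
      hfil k hk hkt i (by have := Finset.mem_range.1 hi; omega)
    have := Finset.card_le_card this
    rwa [Finset.card_range] at this
  have hnN : n ≤ N := by
    have := Finset.card_filter_le (Finset.range N) fun k => a k < t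
    rwa [Finset.card_range] at this
  have hlow : ∀ k < n, a k < t := by
    intro k hk
    by_contra hcon
    have : (Finset.range N).filter (fun k => a k < t) ⊆ Finset.range k := by
      intro i hi
      obtain ⟨hi1, hi2⟩ := Finset.mem_filter.1 hi
      rw [Finset.mem_range] at hi1 ⊢
      by_contra hik
      rcases (not_lt.1 hik).lt_or_eq with h1 | h1
      · exact absurd ((h.strictMono h1 hi1).trans hi2) hcon
      · rw [h1] at hcon; exact hcon hi2
    have := Finset.card_le_card this
    rw [Finset.card_range, ← hn] at this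
    omega
  rw [abs_le]
  constructor
  · rcases Nat.eq_zero_or_pos n with h0 | h0
    · have h1 := hm ht.1
      rw [sm_out h (Or.inl le_rfl)] at h1
      rw [h0, Nat.cast_zero, zero_mul]
      linarith
    · have hk : n - 1 < N := by omega
      have h1 := hlow (n - 1) (by omega)
      have h2 : a (n - 1) + c < t := by
        by_contra hcon
        exact hoff _ hk (by rw [abs_le]; constructor <;> linarith)
      have h3 := hm h2.le
      have e2 : sm N a c al be al (stp N al be) e (a (n - 1) + c) =
          al + ((n - 1 : ℕ) + 1) * stp N al be - e := by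
        rw [sm_flat h hk (by rw [abs_le]; constructor <;> linarith)]
        field_simp
        ring
      rw [e2, show ((n - 1 : ℕ) : ℝ) + 1 = n by rw [Nat.cast_sub h0]; simp] at h3
      linarith
  · rcases hnN.lt_or_eq with h0 | h0
    · have h1 : ¬ a n < t := fun hcon => by have := hup n h0 hcon; omega
      have h2 : t < a n - c := by
        by_contra hcon
        exact hoff _ h0 (by rw [abs_le]; constructor <;> linarith)
      have h3 := hm h2.le
      have e1 : sm N a c al be al (stp N al be) e (a n - c) = al + n * stp N al be + e := by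
        rw [sm_flat h h0 (by rw [abs_le]; constructor <;> linarith)]
        ring
      rw [e1] at h3
      linarith
    · have h1 := hm ht.2
      rw [sm_out h (Or.inr le_rfl)] at h1
      rw [h0, hNs]
      linarith

/-- **displacement of the staircase** -/
theorem sm_sub_le (h : Lvs N a c al be) (he : 0 < e) (heo : 2 * e < stp N al be)
    (ht : t ∈ Icc al be) (ht' : t' ∈ Icc al be) (hoff : ∀ k < N, ¬ |t - a k| ≤ c)
    (hoff' : ∀ k < N, ¬ |t' - a k| ≤ c) :
    sm N a c al be al (stp N al be) e t' - sm N a c al be al (stp N al be) e t ≤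
      stp N al be * ((Finset.range N).filter fun k => t < a k ∧ a k < t').card + 2 * e := by
  have h1 := abs_le.1 (sm_gap h he heo ht hoff)
  have h2 := abs_le.1 (sm_gap h he heo ht' hoff')
  have hs : 0 < stp N al be := by linarith
  have h3 : ((Finset.range N).filter fun k => a k < t').card ≤
      ((Finset.range N).filter fun k => a k < t).card +
        ((Finset.range N).filter fun k => t < a k ∧ a k < t').card := by
    rw [← Finset.card_union_add_card_inter]
    refine le_trans (Finset.card_le_card ?_) (Nat.le_add_right _ _)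
    intro k hk
    obtain ⟨hk1, hk2⟩ := Finset.mem_filter.1 hk
    rw [Finset.mem_union, Finset.mem_filter, Finset.mem_filter]
    rcases lt_trichotomy (a k) t with h4 | h4 | h4
    · exact Or.inl ⟨hk1, h4⟩
    · exact absurd (by rw [h4, sub_self, abs_zero]; exact h.c0.le)
        (hoff k (Finset.mem_range.1 hk1))
    · exact Or.inr ⟨hk1, h4, hk2⟩
  have h4 : ((((Finset.range N).filter fun k => a k < t').card : ℕ) : ℝ) ≤
      ((Finset.range N).filter fun k => a k < t).card +
        ((Finset.range N).filter fun k => t < a k ∧ a k < t').card := by exact_mod_cast h3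
  have h5 := mul_le_mul_of_nonneg_right h4 hs.le
  linarith [h1.1, h2.2]

/-- **one flat**: the staircase moves by `om - 2 e` -/
theorem sm_flat_sub (h : Lvs N a c al be) {k : ℕ} (hk : k < N) :
    |sm N a c al be al (stp N al be) e (a k - c) - sm N a c al be al (stp N al be) e (a k + c)| ≥
      stp N al be - 2 * e := by
  have hc := h.c0
  have e1 : sm N a c al be al (stp N al be) e (a k - c) = al + k * stp N al be + e := by
    rw [sm_flat h hk (by rw [abs_le]; constructor <;> linarith)]
    ring
  have e2 : sm N a c al be al (stp N al be) e (a k + c) = al + (k + 1) * stp N al be - e := by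
    rw [sm_flat h hk (by rw [abs_le]; constructor <;> linarith)]
    field_simp
    ring
  rw [e1, e2, ge_iff_le]
  refine le_trans (le_of_eq ?_) (neg_le_abs _)
  ring

end

end P073.H761.SE
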