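import Vale.Agent.P073.H761.SEnd9

/-!
# P073, H761, [SHARP-END], part 10: displacement and total variation on a side in a plate
-/

open Set Metric Topology Filter
open scoped ENNReal

namespace P073.H761.SE

open P073 P073.Net P073.PA691 P073.H236 P073.H579 P073.H345 P073.H142 P073.FW31
open Vale.Agent.P073.St (V)
open Vale.Agent.P073.H73 (sqr onSeg)
open Vale.Agent.P073.H471 Vale.Agent.P073.H267

/-- variation of several functions which are bounded together by the increments of `G` -/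
theorem sum_eVar_le {m : ℕ} {u : Fin m → ℝ → ℝ} {G : ℝ → ℝ}
    (h : ∀ r ∈ Icc (0:ℝ) 1, ∀ r' ∈ Icc (0:ℝ) 1, r ≤ r' → ∑ j, |u j r' - u j r| ≤ G r' - G r) :
    ∑ j, eVariationOn (u j) (Icc 0 1) ≤ ENNReal.ofReal (G 1 - G 0) := by
  have h1 : ∀ j, eVariationOn (u j) (Icc 0 1) =
      H880.cvar (fun s t => ENNReal.ofReal |u j t - u j s|) 0 1 := fun j =>
    H880.eVariationOn_eq_cvar
  simp only [h1]
  refine (H880.sum_cvar_le Finset.univ (fun j _ => H880.tri_abs (u j)) zero_le_one).trans ?_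
  refine H880.cvar_le_of_le (μ := fun s t => ENNReal.ofReal (G t - G s)) zero_le_one ?_ ?_
  · intro r hr r' hr' hrr
    show ∑ j, ENNReal.ofReal |u j r' - u j r| ≤ ENNReal.ofReal (G r' - G r)
    rw [← ENNReal.ofReal_sum_of_nonneg fun j _ => abs_nonneg _]
    exact ENNReal.ofReal_le_ofReal (h r hr r' hr' hrr)
  · intro r hr r' hr' r'' hr'' h1 h2
    have h3 : 0 ≤ G r' - G r := (Finset.sum_nonneg fun j _ => abs_nonneg _).trans (h r hr r' hr' h1)
    have h4 : 0 ≤ G r'' - G r' :=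
      (Finset.sum_nonneg fun j _ => abs_nonneg _).trans (h r' hr' r'' hr'' h2)
    rw [← ENNReal.ofReal_add h3 h4]
    exact ENNReal.ofReal_le_ofReal (by linarith)

variable {Ω Λ : Set V} {v : V} {K : BoxCx Λ v} {S : Rad K} {W : Wid K S} {B : Boxes W}
  {G : Geo B} {s : K.S} {R : Fac K} {Φ : ConHomeo Λ Λ} {μ : ℝ}
  {L : PLev G} {F : Bool → BFam 3 K.S Λ} {T : Bool → ConHomeo Λ Λ} {om0 e0 θ : ℝ}
  {y y' : V}

theorem sum_mx_le (G : Geo B) (s : K.S) (y y' : V) : ∑ j, mx G s j y y' ≤ sd G s y y' := by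
  rw [← Finset.sum_erase_add _ _ (Finset.mem_univ (K.nrm s))]
  have h0 : mx G s (K.nrm s) y y' = 0 := if_pos rfl
  rw [h0, add_zero]
  refine Finset.sum_le_sum fun j hj => (mx_le G s j y y').trans (le_of_eq ?_)
  exact if_neg (Finset.ne_of_mem_erase hj)

theorem sum_abs_le (G : Geo B) (s : K.S) {y y' z z' : V} {c : ℝ}
    (h : ∀ j, z' j - z j ≤ mx G s j y y' + c ∧ z j - z' j ≤ mx G s j y' y + c) :
    ∑ j, |z' j - z j| ≤ sd G s y y' + 3 * c := by
  have h1 : ∀ j, |z' j - z j| ≤ (if j = K.nrm s then 0 else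
      |cw (wlo G s) (whi G s) j y' - cw (wlo G s) (whi G s) j y|) + c := by
    intro j
    obtain ⟨h2, h3⟩ := h j
    have h4 := mx_le G s j y y'
    have h5 := mx_le G s j y' y
    rw [abs_sub_comm (cw _ _ _ y)] at h5
    rw [abs_le]
    constructor <;> linarith
  refine (Finset.sum_le_sum fun j _ => h1 j).trans ?_
  rw [Finset.sum_add_distrib, ← Finset.sum_erase_add _ _ (Finset.mem_univ (K.nrm s)), if_pos rfl,
    add_zero, Finset.sum_const, Finset.card_univ, Fintype.card_fin, nsmul_eq_mul]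
  refine add_le_add (le_of_eq (Finset.sum_congr rfl fun j hj => ?_)) (le_of_eq (by norm_num))
  exact if_neg (Finset.ne_of_mem_erase hj)

namespace PlD

variable (H : PlD L F T s om0 e0 θ)
variable {α : Type*} {A : α → Set V} {N t : α → ℝ} {h3 : V → V} {k : α} {p q : V} {Lam : ℝ}
  {ι : Type*} {X : Finset ι} {s2 s3 : ι → ℝ}

include H

/-- **displacement** of the final map on a side -/
theorem disp_le (HΦ : IsSoft1 B μ R Φ) (hμ : 0 ≤ μ)
    (HS : Small W R (fun x => PS.map T (h3 x)) A N t) (hX : segment ℝ p q ⊆ A k)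
    (hf : ContinuousOn (fun x => PS.map T (h3 x)) (segment ℝ p q))
    (hpos : ∀ x ∈ segment ℝ p q, h3 x ∈ G.PB (7 / 8) s ∧
      |h3 x (K.nrm s) - K.slo s (K.nrm s)| < B.τ s)
    (hLam : ∀ x ∈ segment ℝ p q, ∀ y ∈ segment ℝ p q, ‖h3 x - h3 y‖ ≤ Lam * ‖x - y‖)
    (ht : 0 ≤ t k)
    (hR : ∀ r ∈ Icc (0:ℝ) 1, ∀ r' ∈ Icc (0:ℝ) 1, r ≤ r' →
      bandD (L.lv s) (L.loP s) (L.hiP s) (L.omP s) (h3 (AffineMap.lineMap p q r))
        (h3 (AffineMap.lineMap p q r')) ≤
      om0 * (∑ x ∈ X, ramp (s2 x) (s3 x) r') - om0 * ∑ x ∈ X, ramp (s2 x) (s3 x) r)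
    {i : Fin 3} (hi : i ≠ K.nrm s) :
    Φ.toFun (PS.map T (h3 q)) i - Φ.toFun (PS.map T (h3 p)) i ≤
      (cw (wlo G s) (whi G s) i (PS.map T (h3 q)) -
        cw (wlo G s) (whi G s) i (PS.map T (h3 p))) / 2 + (1 / 2 + μ) * (om0 * X.card) +
        ((1 + 2 * μ) * (θ * Lam) + t k) * ‖q - p‖ := by
  have hom := H.om0_pos
  have key := glob
    (D := fun r r' => Φ.toFun (PS.map T (h3 (AffineMap.lineMap p q r'))) i -
      Φ.toFun (PS.map T (h3 (AffineMap.lineMap p q r))) i)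
    (G := fun r => cw (wlo G s) (whi G s) i (PS.map T (h3 (AffineMap.lineMap p q r))) / 2 +
      (1 / 2 + μ) * (om0 * ∑ x ∈ X, ramp (s2 x) (s3 x) r) +
      ((1 + 2 * μ) * (θ * Lam) + t k) * ‖q - p‖ * r)
    (fun a b c => by linarith)
    (fun r hr => by
      filter_upwards [H.side_loc HΦ hμ HS hX hf hpos hLam ht hR hr] with r' h1
      have main : ∀ u u' : ℝ, u ≤ u' →
          sd G s (PS.map T (h3 (AffineMap.lineMap p q u)))
            (PS.map T (h3 (AffineMap.lineMap p q u'))) ≤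
            om0 * (∑ x ∈ X, ramp (s2 x) (s3 x) u') - om0 * (∑ x ∈ X, ramp (s2 x) (s3 x) u) +
              2 * (θ * Lam * ‖q - p‖) * (u' - u) →
          Φ.toFun (PS.map T (h3 (AffineMap.lineMap p q u'))) i -
              Φ.toFun (PS.map T (h3 (AffineMap.lineMap p q u))) i ≤
            mx G s i (PS.map T (h3 (AffineMap.lineMap p q u)))
              (PS.map T (h3 (AffineMap.lineMap p q u'))) +
            μ * sd G s (PS.map T (h3 (AffineMap.lineMap p q u)))
              (PS.map T (h3 (AffineMap.lineMap p q u'))) + t k * ‖q - p‖ * (u' - u) →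
          Φ.toFun (PS.map T (h3 (AffineMap.lineMap p q u'))) i -
              Φ.toFun (PS.map T (h3 (AffineMap.lineMap p q u))) i ≤
            (cw (wlo G s) (whi G s) i (PS.map T (h3 (AffineMap.lineMap p q u'))) / 2 +
              (1 / 2 + μ) * (om0 * ∑ x ∈ X, ramp (s2 x) (s3 x) u') +
              ((1 + 2 * μ) * (θ * Lam) + t k) * ‖q - p‖ * u') -
            (cw (wlo G s) (whi G s) i (PS.map T (h3 (AffineMap.lineMap p q u))) / 2 +
              (1 / 2 + μ) * (om0 * ∑ x ∈ X, ramp (s2 x) (s3 x) u) +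
              ((1 + 2 * μ) * (θ * Lam) + t k) * ‖q - p‖ * u) := by
        intro u u' huu h2 h4
        have h5 := term_le_sd G s (PS.map T (h3 (AffineMap.lineMap p q u)))
          (PS.map T (h3 (AffineMap.lineMap p q u'))) hi
        have h6 : mx G s i (PS.map T (h3 (AffineMap.lineMap p q u)))
              (PS.map T (h3 (AffineMap.lineMap p q u'))) ≤
            (cw (wlo G s) (whi G s) i (PS.map T (h3 (AffineMap.lineMap p q u'))) -
              cw (wlo G s) (whi G s) i (PS.map T (h3 (AffineMap.lineMap p q u)))) / 2 +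
            sd G s (PS.map T (h3 (AffineMap.lineMap p q u)))
              (PS.map T (h3 (AffineMap.lineMap p q u'))) / 2 := by
          unfold mx
          rw [if_neg hi]
          have h7 := abs_le.1 h5
          refine max_le ?_ ?_ <;> linarith
        have h7 : (1 / 2 + μ) * sd G s (PS.map T (h3 (AffineMap.lineMap p q u)))
              (PS.map T (h3 (AffineMap.lineMap p q u'))) ≤
            (1 / 2 + μ) * (om0 * (∑ x ∈ X, ramp (s2 x) (s3 x) u') -
              om0 * (∑ x ∈ X, ramp (s2 x) (s3 x) u) + 2 * (θ * Lam * ‖q - p‖) * (u' - u)) :=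
          mul_le_mul_of_nonneg_left h2 (by linarith)
        have e : ((1 + 2 * μ) * (θ * Lam) + t k) * ‖q - p‖ * u' -
            ((1 + 2 * μ) * (θ * Lam) + t k) * ‖q - p‖ * u =
            (1 / 2 + μ) * (2 * (θ * Lam * ‖q - p‖) * (u' - u)) + t k * ‖q - p‖ * (u' - u) := by
          ring
        linarith
      exact ⟨fun hle => main r r' hle (h1.1 hle).1 ((h1.1 hle).2 i).1,
        fun hle => main r' r hle (h1.2 hle).1 ((h1.2 hle).2 i).1⟩)
    (show (0:ℝ) ∈ Icc (0:ℝ) 1 from ⟨le_rfl, zero_le_one⟩)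
    (show (1:ℝ) ∈ Icc (0:ℝ) 1 from ⟨zero_le_one, le_rfl⟩) zero_le_one
  simp only [AffineMap.lineMap_apply_one, AffineMap.lineMap_apply_zero, mul_one, mul_zero,
    add_zero] at key
  have h8 := sum_ramp_le (s2 := s2) (s3 := s3) (X := X) hom.le (t := 0) (t' := 1)
  have h9 : (1 / 2 + μ) * (om0 * (∑ x ∈ X, ramp (s2 x) (s3 x) 1) -
      om0 * ∑ x ∈ X, ramp (s2 x) (s3 x) 0) ≤ (1 / 2 + μ) * (om0 * X.card) :=
    mul_le_mul_of_nonneg_left h8 (by linarith)
  linarith

/-- **total variation** of the final map on an edge in a plate -/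
theorem tv_le (HΦ : IsSoft1 B μ R Φ) (hμ : 0 ≤ μ)
    (HS : Small W R (fun x => PS.map T (h3 x)) A N t) (hX : segment ℝ p q ⊆ A k)
    (hf : ContinuousOn (fun x => PS.map T (h3 x)) (segment ℝ p q))
    (hpos : ∀ x ∈ segment ℝ p q, h3 x ∈ G.PB (7 / 8) s ∧
      |h3 x (K.nrm s) - K.slo s (K.nrm s)| < B.τ s)
    (hLam : ∀ x ∈ segment ℝ p q, ∀ y ∈ segment ℝ p q, ‖h3 x - h3 y‖ ≤ Lam * ‖x - y‖)
    (ht : 0 ≤ t k)
    (hR : ∀ r ∈ Icc (0:ℝ) 1, ∀ r' ∈ Icc (0:ℝ) 1, r ≤ r' →
      bandD (L.lv s) (L.loP s) (L.hiP s) (L.omP s) (h3 (AffineMap.lineMap p q r))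
        (h3 (AffineMap.lineMap p q r')) ≤
      om0 * (∑ x ∈ X, ramp (s2 x) (s3 x) r') - om0 * ∑ x ∈ X, ramp (s2 x) (s3 x) r) :
    Vale.Agent.P073.H239.tv (fun x => Φ.toFun (PS.map T (h3 x))) (p, q) Finset.univ ≤
      ENNReal.ofReal ((1 + 3 * μ) * (om0 * X.card) +
        ((1 + 3 * μ) * (2 * (θ * Lam)) + 3 * t k) * ‖q - p‖) := by
  have hom := H.om0_pos
  have hon : ∀ r : ℝ, onSeg (fun x => Φ.toFun (PS.map T (h3 x))) (p, q) r =
      Φ.toFun (PS.map T (h3 (AffineMap.lineMap p q r))) := by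
    intro r
    show Φ.toFun (PS.map T (h3 (p + r • (q - p)))) = _
    rw [AffineMap.lineMap_apply_module', add_comm]
  unfold Vale.Agent.P073.H239.tv
  simp only [hon]
  have h8 := sum_ramp_le (s2 := s2) (s3 := s3) (X := X) hom.le (t := 0) (t' := 1)
  refine (sum_eVar_le (u := fun j r => Φ.toFun (PS.map T (h3 (AffineMap.lineMap p q r))) j)
    (G := fun r => (1 + 3 * μ) * (om0 * ∑ x ∈ X, ramp (s2 x) (s3 x) r) +
      ((1 + 3 * μ) * (2 * (θ * Lam)) + 3 * t k) * ‖q - p‖ * r) ?_).trans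
    (ENNReal.ofReal_le_ofReal ?_)
  · intro r hr r' hr' hrr
    refine glob
      (D := fun r r' => ∑ j, |Φ.toFun (PS.map T (h3 (AffineMap.lineMap p q r'))) j -
        Φ.toFun (PS.map T (h3 (AffineMap.lineMap p q r))) j|)
      (G := fun r => (1 + 3 * μ) * (om0 * ∑ x ∈ X, ramp (s2 x) (s3 x) r) +
        ((1 + 3 * μ) * (2 * (θ * Lam)) + 3 * t k) * ‖q - p‖ * r) ?_ ?_ hr hr' hrr
    · intro a b c
      rw [← Finset.sum_add_distrib]
      refine Finset.sum_le_sum fun j _ => ?_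
      have := abs_sub_le (Φ.toFun (PS.map T (h3 (AffineMap.lineMap p q c))) j)
        (Φ.toFun (PS.map T (h3 (AffineMap.lineMap p q b))) j)
        (Φ.toFun (PS.map T (h3 (AffineMap.lineMap p q a))) j)
      linarith
    · intro r hr
      filter_upwards [H.side_loc HΦ hμ HS hX hf hpos hLam ht hR hr] with r' h1
      have main : ∀ u u' : ℝ, u ≤ u' →
          (sd G s (PS.map T (h3 (AffineMap.lineMap p q u)))
            (PS.map T (h3 (AffineMap.lineMap p q u'))) ≤
            om0 * (∑ x ∈ X, ramp (s2 x) (s3 x) u') - om0 * (∑ x ∈ X, ramp (s2 x) (s3 x) u) +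
              2 * (θ * Lam * ‖q - p‖) * (u' - u)) →
          (∀ j, Φ.toFun (PS.map T (h3 (AffineMap.lineMap p q u'))) j -
              Φ.toFun (PS.map T (h3 (AffineMap.lineMap p q u))) j ≤
            mx G s j (PS.map T (h3 (AffineMap.lineMap p q u)))
              (PS.map T (h3 (AffineMap.lineMap p q u'))) +
            μ * sd G s (PS.map T (h3 (AffineMap.lineMap p q u)))
              (PS.map T (h3 (AffineMap.lineMap p q u'))) + t k * ‖q - p‖ * (u' - u) ∧
            Φ.toFun (PS.map T (h3 (AffineMap.lineMap p q u))) j -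
              Φ.toFun (PS.map T (h3 (AffineMap.lineMap p q u'))) j ≤
            mx G s j (PS.map T (h3 (AffineMap.lineMap p q u')))
              (PS.map T (h3 (AffineMap.lineMap p q u))) +
            μ * sd G s (PS.map T (h3 (AffineMap.lineMap p q u)))
              (PS.map T (h3 (AffineMap.lineMap p q u'))) + t k * ‖q - p‖ * (u' - u)) →
          ∑ j, |Φ.toFun (PS.map T (h3 (AffineMap.lineMap p q u'))) j -
              Φ.toFun (PS.map T (h3 (AffineMap.lineMap p q u))) j| ≤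
            ((1 + 3 * μ) * (om0 * ∑ x ∈ X, ramp (s2 x) (s3 x) u') +
              ((1 + 3 * μ) * (2 * (θ * Lam)) + 3 * t k) * ‖q - p‖ * u') -
            ((1 + 3 * μ) * (om0 * ∑ x ∈ X, ramp (s2 x) (s3 x) u) +
              ((1 + 3 * μ) * (2 * (θ * Lam)) + 3 * t k) * ‖q - p‖ * u) := by
        intro u u' huu h2 h4
        have h5 := sum_abs_le G s
          (c := μ * sd G s (PS.map T (h3 (AffineMap.lineMap p q u)))
              (PS.map T (h3 (AffineMap.lineMap p q u'))) + t k * ‖q - p‖ * (u' - u))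
          (y := PS.map T (h3 (AffineMap.lineMap p q u)))
          (y' := PS.map T (h3 (AffineMap.lineMap p q u')))
          (z := Φ.toFun (PS.map T (h3 (AffineMap.lineMap p q u))))
          (z' := Φ.toFun (PS.map T (h3 (AffineMap.lineMap p q u'))))
          (fun j => ⟨by rw [← add_assoc]; exact (h4 j).1, by rw [← add_assoc]; exact (h4 j).2⟩)
        have h7 : (1 + 3 * μ) * sd G s (PS.map T (h3 (AffineMap.lineMap p q u)))
              (PS.map T (h3 (AffineMap.lineMap p q u'))) ≤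
            (1 + 3 * μ) * (om0 * (∑ x ∈ X, ramp (s2 x) (s3 x) u') -
              om0 * (∑ x ∈ X, ramp (s2 x) (s3 x) u) + 2 * (θ * Lam * ‖q - p‖) * (u' - u)) :=
          mul_le_mul_of_nonneg_left h2 (by linarith)
        linarith
      refine ⟨fun hle => main r r' hle (h1.1 hle).1 (h1.1 hle).2,
        fun hle => main r' r hle (h1.2 hle).1 fun j => ?_⟩
      obtain ⟨h2, h4⟩ := (h1.2 hle).2 j
      exact ⟨h2, h4⟩
  · have h9 : (1 + 3 * μ) * (om0 * (∑ x ∈ X, ramp (s2 x) (s3 x) 1) -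
        om0 * ∑ x ∈ X, ramp (s2 x) (s3 x) 0) ≤ (1 + 3 * μ) * (om0 * X.card) :=
      mul_le_mul_of_nonneg_left h8 (by linarith)
    linarith

end PlD

end P073.H761.SE
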