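import Vale.Agent.P073.H761.SEnd10
import Vale.Agent.P073.H31.FFin
import Vale.Agent.P073.H669.PCnt
import Vale.Agent.P073.H142.PCone6

/-!
# P073, H761, [SHARP-END], part 11: deep faces, numbers, counts

`deep_face`: a deep face is not changed by round T and all its edges are own edges of its plate.
`FNum`: the numbers of the sharp faces.  `cnt_card`: number of crossing points of a side.
-/

open Set Metric Topology Filter MeasureTheory
open scoped ENNReal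

namespace P073.H761.SE

open P073 P073.Net P073.PA691 P073.H236 P073.H579 P073.H345 P073.H142 P073.FW31
open Vale.Agent.P073.St (V)
open Vale.Agent.P073.SQ (ev cube)
open Vale.Agent.P073.H73 (Mesh sqr onSeg)
open Vale.Agent.P073.H193 (Edges edges)
open Vale.Agent.P073.H304 (IsEdge)
open Vale.Agent.P073.H471 Vale.Agent.P073.H267
open Vale.Agent.P073.H669 (PLv)
open Vale.Agent.P073.H239 (faceI Deep)
open Vale.Agent.P073.H805 (ROut)

theorem face_nonempty {Ω : Set V} (M : Mesh Ω) (k : M.κ) : (M.F k).Nonempty := by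
  obtain ⟨φ, -⟩ := (M.fat k).chart
  exact ⟨_, φ.mapsTo (show ((0:ℝ), (0:ℝ)) ∈ Vale.Agent.P073.H73.usq from
    ⟨⟨le_rfl, zero_le_one⟩, ⟨le_rfl, zero_le_one⟩⟩)⟩

/-- **a deep face** -/
theorem deep_face {η₀ : ℝ} {Ω Λ : Set V} {w : V} {ρ : V → ℝ} {M : Mesh Ω}
    {h h1 : ConHomeo Ω Λ} {Pr : Set M.ι} {K : BoxCx Λ w} (D : KIn η₀ w ρ M h Pr)
    (C : Cells ρ w K) {E : Edges M} {ω : TBx K → ℝ} {O : M.κ → V} {LaT : E.ε → ℝ}
    {Lf : M.κ → E.ε → ℝ} {Lam1 : M.κ → ℝ} {sl : TBx K → Finset (ℝ × ℝ)}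
    (HT : T3Out (D.G C) M E h h1 ω O LaT Lf Lam1 sl) {k : M.κ}
    {J₀ : Set (ℕ × (Fin 3 → ℤ))} {m : ℕ} {z : Fin 3 → ℤ} {l : Fin 3} {η : ℝ} (hη : η₀ ≤ η)
    (H : Deep η (δN η₀) w ρ J₀ (Finset.univ.erase l) m z (h.toFun '' M.F k)) :
    ∃ s : K.S, K.nrm s = l ∧ EqOn h1.toFun h.toFun (M.F k) ∧ AkP (D.G C) M h1 univ s k ∧
      ∀ e, E.seg e ⊆ M.F k → OwnE E (AkP (D.G C) M h1 univ) e := by
  obtain ⟨s, hs, -, -, -, H⟩ := D.deep_plate C hη H
  have hκ : 0 ≤ κN η₀ / 2 ^ m := by have := κN_pos D.pos; positivity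
  have hoff : EqOn h1.toFun h.toFun (M.F k) := HT.off k fun x hx b =>
    (H _ (mem_image_of_mem _ hx)).2.2.2.1 _ (mem_closedBall_self hκ) b
  have hPB : ∀ x ∈ M.F k, h1.toFun x ∈ (D.G C).PB 1 s := fun x hx => by
    rw [hoff hx]
    exact Vale.Agent.P073.H805.PB_mono (by norm_num) s
      ((H _ (mem_image_of_mem _ hx)).2.1 (mem_closedBall_self hκ))
  obtain ⟨x₀, hx₀⟩ := face_nonempty M k
  refine ⟨s, hs, hoff, ⟨mem_univ _, x₀, hx₀, hPB x₀ hx₀⟩, fun e he l' hl' => ?_⟩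
  have ha : E.a e ∈ E.seg e := left_mem_segment ℝ _ _
  exact ⟨s, mem_univ _, E.a e, hl' ha, hPB _ (he ha)⟩

/-- **the numbers of the sharp faces**; `m`, `K`, `e`, `β`, `ρ`: the sharp face maps; `r`: error of
the sides; `ν`: the soft errors -/
structure FNum (p μ r m K e β ρ ν : ℝ) : Prop where
  m0 : 0 < m
  m1 : m < 1 / 4
  K0 : 0 < K
  ρ0 : 0 < ρ
  ρ1 : ρ ≤ 1 / 2
  ν0 : 0 < ν
  ν_le : ν ≤ ρ / 64
  r0 : 0 < r
  r_le : r ≤ ρ / 32
  sf : SpecSharpFace m K e β ρ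
  face : ∀ (a : V) (l : Fin 3) (σ : ℝ), 0 < σ → ∀ (L : Fin 3 → Finset ℝ)
    (lo hi om : Fin 3 → ℝ → ℝ) (μs τ ε : ℝ), 0 ≤ μs → μs ≤ ν → 0 ≤ τ → τ ≤ 4 * ν → 0 ≤ ε →
    ∀ h3 g : V → V, ShFace a l σ L lo hi om K e β h3 → BandEst a l σ L lo hi om μs τ h3 g →
      Sides a l σ r g → faceI p g a l σ ≤ ENNReal.ofReal ((μ + ε) * σ ^ 3)

/-- **the numbers exist**: `m`, `K` (hence the constants of the cone inequality) after `μ`, then
`r`, `ν` -/
theorem exists_fnum {p : ℝ} (hp : 1 ≤ p) {μ : ℝ} (hμ : 0 < μ) :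
    ∃ m K e β ρ r ν : ℝ, FNum p μ r m K e β ρ ν := by
  obtain ⟨e, he0, he1, r₀, hr0, hr1, H⟩ := exists_face hp hμ
  obtain ⟨m, hm0, hm1, K, hK, HS⟩ := sharpFace he0
  obtain ⟨β, hβ, μ₀, hμ₀, H⟩ := H K hK
  obtain ⟨ρ, hρ0, hρ1, HS⟩ := HS β hβ
  have hν : 0 < min (μ₀ / 4) (ρ / 64) := lt_min (by positivity) (by positivity)
  refine ⟨m, K, e, β, ρ, min r₀ (ρ / 32), min (μ₀ / 4) (ρ / 64), hm0, hm1, hK, hρ0, hρ1,
    hν, min_le_right _ _, lt_min hr0 (by positivity), min_le_right _ _, HS, ?_⟩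
  intro a l σ hσ L lo hi om μs τ ε h1 h2 h3 h4 h5 f g hf hg hs
  have h6 : min (μ₀ / 4) (ρ / 64) ≤ μ₀ / 4 := min_le_left _ _
  exact H a l σ hσ L lo hi om _ μs τ ε (le_min hr0.le (by positivity)) (min_le_left _ _) h1
    (by linarith) h3 (by linarith) h5 f g hf hg hs

/-- reversal of a segment -/
theorem tv_swap (h : V → V) (x y : V) (A : Finset (Fin 3)) :
    Vale.Agent.P073.H239.tv h (y, x) A = Vale.Agent.P073.H239.tv h (x, y) A := by
  unfold Vale.Agent.P073.H239.tv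
  refine Finset.sum_congr rfl fun j _ => ?_
  have e1 : (fun t => onSeg h (y, x) t j) = (fun t => onSeg h (x, y) t j) ∘ fun t : ℝ => 1 - t := by
    funext t
    have e2 : y + t • (x - y) = x + (1 - t) • (y - x) := by
      rw [sub_smul, one_smul, smul_sub, smul_sub]
      abel
    show h (y + t • (x - y)) j = h (x + (1 - t) • (y - x)) j
    rw [e2]
  have hanti : AntitoneOn (fun t : ℝ => 1 - t) (Icc 0 1) := fun a _ b _ hab => by
    show 1 - b ≤ 1 - a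
    linarith
  rw [e1, eVariationOn.comp_eq_of_antitoneOn _ _ hanti]
  congr 1
  ext t
  constructor
  · rintro ⟨u, hu, rfl⟩
    exact ⟨by linarith [hu.2], by linarith [hu.1]⟩
  · intro ht
    exact ⟨1 - t, ⟨by linarith [ht.2], by linarith [ht.1]⟩, by simp⟩

variable {Ω Λ : Set V} {v : V} {K : BoxCx Λ v} {S : Rad K} {W : Wid K S} {B : Boxes W}
  {G : Geo B} {M : Mesh Ω} {h h1 h2 : ConHomeo Ω Λ} {Pr : Set M.ι}
  {sl : TBx K → Finset (ℝ × ℝ)} {η : ℝ} {τ : Type*} {A : τ → Set V} {Cs : Set ℝ}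
  {εE : (edges M).ε → ℝ} {μ δ : K.S → ℝ}

/-- **the number of crossing points of a side** -/
theorem cnt_card (L : PLv G (edges M) h1 Pr sl η A Cs εE μ δ)
    (O : ROut G M h1 h2 Pr univ L.lev.lv (edges M)) {s : K.S} {k : M.κ}
    (hk : AkP G M h1 univ s k) (hoff : EqOn h1.toFun h.toFun (M.F k)) {c : ℝ} (hc0 : 0 ≤ c)
    (hc1 : c ≤ 1) (hη : η ≤ c / 16) (hμ : ∀ β, μ s ≤ c / 4 * Vale.Agent.P073.H669.wl G s β)
    (hεE : ∀ e, 4 * εE e ≤ c * ‖(edges M).b e - (edges M).a e‖) {x y : V}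
    (he : IsEdge M (x, y)) (hxy : segment ℝ x y ⊆ M.F k) {r : ℝ} (hr : 0 ≤ r)
    (htv : Vale.Agent.P073.H239.tv h.toFun (x, y) (Finset.univ.erase (K.nrm s)) ≤
      ENNReal.ofReal ((1 + r) * ‖y - x‖)) (Y : Finset V)
    (hY : ∀ z ∈ Y, CrsPt x y h2.toFun (L.lev.lv s) z) :
    L.om s false * Y.card ≤ ((1 + c) * (1 + r) + c) * ‖y - x‖ := by
  obtain ⟨e, hseg, htve, hnorm⟩ : ∃ e : (edges M).ε, (edges M).seg e = segment ℝ x y ∧
      Vale.Agent.P073.H239.tv h.toFun ((edges M).a e, (edges M).b e)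
        (Finset.univ.erase (K.nrm s)) =
      Vale.Agent.P073.H239.tv h.toFun (x, y) (Finset.univ.erase (K.nrm s)) ∧
      ‖(edges M).b e - (edges M).a e‖ = ‖y - x‖ := by
    rcases P073.H950.isEdge_iff.1 he with h3 | h3
    · exact ⟨⟨(x, y), h3⟩, rfl, rfl, rfl⟩
    · exact ⟨⟨(y, x), h3⟩, segment_symm ℝ y x, tv_swap _ _ _ _, norm_sub_rev _ _⟩
  have hea : EAct (edges M) (AkP G M h1 univ) s e := ⟨k, hk, by rw [hseg]; exact hxy⟩
  obtain ⟨hfin, hcnt⟩ := L.cnt_side O hea (hoff.mono (by rw [hseg]; exact hxy)) hc0 hc1 hη hμ false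
  rw [htve] at hcnt
  have hsub : (Y : Set V) ⊆ {z | z ∈ (edges M).seg e ∧ ∃ l, h2.toFun z l ∈ L.lev.lv s l} := by
    intro z hz
    obtain ⟨h4, h5⟩ := hY z hz
    exact ⟨by rw [hseg]; exact h4, h5⟩
  have hcard : Y.card ≤ {z | z ∈ (edges M).seg e ∧ ∃ l, h2.toFun z l ∈ L.lev.lv s l}.ncard := by
    rw [← Set.ncard_coe_finset]
    exact Set.ncard_le_ncard hsub hfin
  have hn := norm_nonneg (y - x)
  have h6 : ENNReal.ofReal (L.om s false * Y.card) ≤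
      ENNReal.ofReal (((1 + c) * (1 + r) + c) * ‖y - x‖) := by
    have hom : 0 ≤ L.om s false := by
      rw [← L.om_eq_omP s false 0]
      exact (L.lev.omP_pos _ _ _).le
    have e2 : ENNReal.ofReal (((1 + c) * (1 + r) + c) * ‖y - x‖) =
        ENNReal.ofReal (1 + c) * ENNReal.ofReal ((1 + r) * ‖y - x‖) +
          ENNReal.ofReal (c * ‖y - x‖) := by
      rw [← ENNReal.ofReal_mul (by linarith), ← ENNReal.ofReal_add (by positivity) (by positivity)]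
      congr 1
      ring
    rw [ENNReal.ofReal_mul hom, ENNReal.ofReal_natCast, e2]
    refine (mul_le_mul' le_rfl (by exact_mod_cast hcard)).trans (hcnt.trans ?_)
    refine add_le_add (mul_le_mul' le_rfl htv) (ENNReal.ofReal_le_ofReal ?_)
    rw [← hnorm]
    exact hεE e
  exact (ENNReal.ofReal_le_ofReal_iff (by positivity)).1 h6

end P073.H761.SE
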