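import Vale.Agent.P073.H761.SEnd12

/-!
# P073, H761, [SHARP-END], part 13: `face_of` with the numbers `FNum`
-/

open Set Metric Topology Filter MeasureTheory
open scoped ENNReal

namespace P073.H761.SE

open P073 P073.Net P073.PA691 P073.H236 P073.H579 P073.H345 P073.H142 P073.FW31
open Vale.Agent.P073.St (V)
open Vale.Agent.P073.SQ (ev cube)
open Vale.Agent.P073.H73 (Mesh sqr onSeg)
open Vale.Agent.P073.H193 (Edges edges)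
open Vale.Agent.P073.H304 (IsEdge)
open Vale.Agent.P073.H471 Vale.Agent.P073.H267
open Vale.Agent.P073.H669 (PLv wl)
open Vale.Agent.P073.H239 (faceI Deep)

theorem Sides.mono {a : V} {l : Fin 3} {σ r r' : ℝ} {g : V → V} (hσ : 0 < σ) (hr : r ≤ r')
    (H : Sides a l σ r g) : Sides a l σ r' g := by
  intro i hi x hx hx' hxj
  obtain ⟨h1, h2⟩ := H i hi x hx hx' hxj
  exact ⟨le_trans (mul_le_mul_of_nonneg_right (by linarith) (by linarith)) h1,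
    h2.trans (ENNReal.ofReal_le_ofReal (mul_le_mul_of_nonneg_right (by linarith) (by linarith)))⟩

theorem FNum.faceC {p μ r m K e β ρ ν : ℝ} (FN : FNum p μ r m K e β ρ ν) :
    FaceC p μ r K e β ν := fun a l σ hσ L lo hi om r' μs τ ε _ hr1 h1 h2 h3 h4 h5 f g hf hg hs =>
  FN.face a l σ hσ L lo hi om μs τ ε h1 h2 h3 (by linarith [FN.ν0]) h5 f g hf hg
    (Sides.mono hσ hr1 hs)

variable {η₀ : ℝ} {Ω Λ : Set V} {w : V} {ρ : V → ℝ} {M : Mesh Ω} {h h1 h2 h3 : ConHomeo Ω Λ}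
  {Pr : Set M.ι} {K : BoxCx Λ w} {ω : TBx K → ℝ} {O : M.κ → V} {LaT : (edges M).ε → ℝ}
  {Lf : M.κ → (edges M).ε → ℝ} {Lam1 : M.κ → ℝ} {sl sl' : TBx K → Finset (ℝ × ℝ)}
  {η : ℝ} {τ : Type*} {A : τ → Set V} {Cs : Set ℝ} {εE : (edges M).ε → ℝ} {μ' δ : K.S → ℝ}
  {κ₀ κ₁ : V → V} {La We mu : (edges M).ε → ℝ} {O' : M.κ → V} {r0 Rr : M.κ → ℝ} {Y : Set M.κ}

/-- **the field `face` of `SharpOut`**, with the numbers of `FNum` and of 267's skeleton -/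
theorem FNum.face_of {p μ r ms Kc ec βc ρc ν : ℝ} (FN : FNum p μ r ms Kc ec βc ρc ν)
    (D : KIn η₀ w ρ M h Pr) (C : Cells ρ w K)
    (HT : T3Out (D.G C) M (edges M) h h1 ω O LaT Lf Lam1 sl)
    (L : PLv (D.G C) (edges M) h1 Pr sl' η A Cs εE μ' δ)
    (RP : RPOut (D.G C) M (edges M) Pr L.lev h1 κ₀ κ₁ h2
      (GEP (edges M) h2 (AkP (D.G C) M h1 univ) L.lev.kP L.lev.lv L.lev.loP L.lev.hiP
        L.lev.omP La mu)
      (GFY (edges M) h2 (AkP (D.G C) M h1 univ) L.lev.lv L.lev.loP L.lev.hiP L.lev.omP La We O' r0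
        Rr Y Kc ec βc ρc) h3)
    {μs c η₁ : ℝ} (hη : η₀ ≤ η₁) (hc0 : 0 ≤ c) (hc1 : c ≤ ν) (hηc : η ≤ c / 16)
    (hμ' : ∀ s β, μ' s ≤ c / 4 * wl (D.G C) s β)
    (hεE : ∀ e, εE e ≤ c / 16 * ‖(edges M).b e - (edges M).a e‖) {dmax : K.S → ℝ}
    (hδ : ∀ s, δ s ≤ dmax s)
    (hdk : ∀ s k, (h1.toFun '' M.F k ∩ PK (D.G C) s).Nonempty →
      ∀ (a : V) (l : Fin 3) (σ : ℝ), 0 < σ → M.F k = sqr a l σ → dmax s ≤ ν * σ)
    (hμs : 0 ≤ μs) (hμs1 : μs ≤ ν) {εk : M.κ → ℝ} (hε : ∀ k, 0 < εk k) :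
    ∃ e₁ : K.S → ℝ, (∀ s, 0 < e₁ s) ∧
    ∀ (eS : K.S → ℝ) (he0 : ∀ s, 0 < eS s) (he8 : ∀ s, eS s ≤ δ s / 8), (∀ s, eS s ≤ e₁ s) →
    ∀ Sm : Bool → ConHomeo Λ Λ, (∀ β, (L.bfam eS he0 he8 β).IsS (Sm β)) →
    ∃ t₀ : M.κ → ℝ, (∀ k, 0 < t₀ k) ∧ ∀ (R : Fac K) (N t : M.κ → ℝ) (Φ : ConHomeo Λ Λ),
      (∀ k, 0 < t k) → (∀ k, t k ≤ t₀ k) →
      Small (D.W C) R (lastMap h3 Sm).toFun M.F N t → IsSoft1 (D.B C) μs R Φ →
      ∀ k ∈ Y, ∀ (a : V) (l : Fin 3) (σ : ℝ), 0 < σ → M.F k = sqr a l σ →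
      ∀ m z, Deep η₁ (δN η₀) w ρ univ (Finset.univ.erase l) m z (h.toFun '' M.F k) →
      (∀ i, i ≠ l → ∀ x : V, x ∈ sqr a l σ → x + (2 * σ) • ev i ∈ sqr a l σ →
        (∀ j, j ≠ i → j ≠ l → |x j - a j| = σ) →
        IsEdge M (x, x + (2 * σ) • ev i) ∧
        (1 - r) * (2 * σ) ≤ ((lastMap h3 Sm).trans Φ).toFun (x + (2 * σ) • ev i) i -
          ((lastMap h3 Sm).trans Φ).toFun x i ∧
        Vale.Agent.P073.H239.tv ((lastMap h3 Sm).trans Φ).toFun (x, x + (2 * σ) • ev i)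
          Finset.univ ≤ ENNReal.ofReal ((1 + r) * (2 * σ)) ∧
        Vale.Agent.P073.H239.tv h.toFun (x, x + (2 * σ) • ev i) (Finset.univ.erase l) ≤
          ENNReal.ofReal ((1 + r) * (2 * σ))) →
      faceI p ((lastMap h3 Sm).trans Φ).toFun a l σ ≤ ENNReal.ofReal ((μ + εk k) * σ ^ 3) := by
  have hν := FN.ν0
  have hνρ := FN.ν_le
  have hρ := FN.ρ0
  refine SE.face_of D C HT L RP FN.faceC hη hρ FN.ρ1 hν FN.r0.le le_rfl
    (by linarith [FN.r_le]) hc0 (by linarith) hηc hμ' (fun e => ?_) (fun s k a l σ hσ hF hk => ?_)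
    hμs hμs1 (by linarith) hε
  · have h4 := hεE e
    have h5 := mul_nonneg hc0 (norm_nonneg ((edges M).b e - (edges M).a e))
    linarith
  · refine (hδ s).trans ((hdk s k hk a l σ hσ hF).trans ?_)
    exact mul_le_mul_of_nonneg_right (by linarith) hσ.le

end P073.H761.SE
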