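import Vale.Agent.P073.H761.SEnd1
import Vale.Agent.P073.H345.PBox

/-!
# P073, H761, [SHARP-END], part 2: the two staircases of a plate

`Fl2 F S b y`: the point `y` is in the full zone of the box `b` of the first family, and its image in
the full zone of the box `b` of the second family. Then `S true ∘ S false` is a product map.
-/

open Set Metric Topology Filter

namespace P073.H761.SE

open P073 P073.H236 P073.H579

variable {ι : Type*} {Λ : Set (Fin 3 → ℝ)} {F : Bool → BFam 3 ι Λ} {S : Bool → ConHomeo Λ Λ}
  {b : ι} {y y' : Fin 3 → ℝ}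

/-- the full zone of both boxes -/
def Fl2 (F : Bool → BFam 3 ι Λ) (S : Bool → ConHomeo Λ Λ) (b : ι) (y : Fin 3 → ℝ) : Prop :=
  (F false).FullK b y ∧ (F true).FullK b ((S false).toFun y)

/-- the two staircases -/
noncomputable def S2 (S : Bool → ConHomeo Λ Λ) : ConHomeo Λ Λ := (S false).trans (S true)

theorem S2_false (hS : ∀ β, (F β).IsS (S β)) (hj : ((F false).B b).j ≠ ((F true).B b).j)
    (h : Fl2 F S b y) : (S2 S).toFun y ((F false).B b).j =
      (F false).σ b (y ((F false).B b).j) := by
  show (S true).toFun ((S false).toFun y) _ = _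
  rw [(hS true).full h.2, Function.update_of_ne hj, (hS false).full h.1, Function.update_self]

theorem S2_true (hS : ∀ β, (F β).IsS (S β)) (hj : ((F false).B b).j ≠ ((F true).B b).j)
    (h : Fl2 F S b y) : (S2 S).toFun y ((F true).B b).j =
      (F true).σ b (y ((F true).B b).j) := by
  show (S true).toFun ((S false).toFun y) _ = _
  rw [(hS true).full h.2, Function.update_self, (hS false).full h.1,
    Function.update_of_ne hj.symm]

theorem S2_ne (hS : ∀ β, (F β).IsS (S β)) (h : Fl2 F S b y) {l : Fin 3}
    (hl : ∀ β, l ≠ ((F β).B b).j) : (S2 S).toFun y l = y l := by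
  show (S true).toFun ((S false).toFun y) _ = _
  rw [(hS true).full h.2, Function.update_of_ne (hl true), (hS false).full h.1,
    Function.update_of_ne (hl false)]

/-- the coordinate `β` -/
theorem S2_apply (hS : ∀ β, (F β).IsS (S β)) (hj : ((F false).B b).j ≠ ((F true).B b).j)
    (h : Fl2 F S b y) (β : Bool) : (S2 S).toFun y ((F β).B b).j =
      (F β).σ b (y ((F β).B b).j) := by
  cases β
  · exact S2_false hS hj h
  · exact S2_true hS hj h

theorem Fl2.win (hj : ((F false).B b).j ≠ ((F true).B b).j) (hS : ∀ β, (F β).IsS (S β))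
    (h : Fl2 F S b y) (β : Bool) : y ((F β).B b).j ∈ Icc ((F β).B b).al ((F β).B b).be := by
  cases β
  · exact h.1.1
  · have h1 := h.2.1
    rw [(hS false).full h.1, Function.update_of_ne hj.symm] at h1
    exact h1

/-- **the tangential coordinates**: the flats count, the rest is small -/
theorem S2_sub_le (hS : ∀ β, (F β).IsS (S β)) (hj : ((F false).B b).j ≠ ((F true).B b).j)
    (h : Fl2 F S b y) (h' : Fl2 F S b y') (β : Bool) :
    |(S2 S).toFun y ((F β).B b).j - (S2 S).toFun y' ((F β).B b).j| ≤
      (∑ k ∈ Finset.range ((F β).B b).N, (F β).om b / (2 * ((F β).B b).c) *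
        |fl ((F β).B b).c (((F β).B b).a k) (y ((F β).B b).j) -
          fl ((F β).B b).c (((F β).B b).a k) (y' ((F β).B b).j)|) +
      (F β).e b / ((F β).B b).c * |y ((F β).B b).j - y' ((F β).B b).j| := by
  rw [S2_apply hS hj h, S2_apply hS hj h']
  refine (abs_sm_sub_le_win ((F β).B b).lvs ((F β).he b) ((F β).heo b)
    (h.win hj hS β) (h'.win hj hS β)).trans ?_
  have hc := ((F β).B b).lvs.c0
  have he := (F β).he b
  rw [Finset.mul_sum]
  gcongr with k _
  show stp _ _ _ - 2 * (F β).e b ≤ (F β).om b
  unfold BFam.om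
  linarith

end P073.H761.SE
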