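import Vale.Agent.P073.H761.SEnd2
import Vale.Agent.P073.H155.Own
import Vale.Agent.P073.H239.Sharp

/-!
# P073, H761, [SHARP-END], part 3: a side of a sharp face

`PlS`: the data of a plate (two families of staircases, levels, one weight `om0`).
`PlS.lip`: the tangential coordinates of `S2 y`; `PlS.tv_side`: the variation on a side counts the
crossing points; `PlS.disp_side`: the displacement counts the levels.
-/

open Set Metric Topology Filter
open scoped ENNReal

namespace P073.H761.SE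

open P073 P073.H236 P073.H579

/-- the part of `bandD` in the coordinate `j` -/
noncomputable def bJ (L : Fin 3 → Finset ℝ) (lo hi om : Fin 3 → ℝ → ℝ) (j : Fin 3)
    (y y' : Fin 3 → ℝ) : ℝ :=
  ∑ c ∈ L j, om j c / (hi j c - lo j c) *
    |rho (lo j) (hi j) c (y j) - rho (lo j) (hi j) c (y' j)|

theorem fin3_cases : ∀ l j j0 j1 : Fin 3, j ≠ l → j0 ≠ j1 → j0 ≠ l → j1 ≠ l →
    j = j0 ∨ j = j1 := by decide

/-- the data of a plate with normal `l` -/
structure PlS {ι : Type*} {Λ : Set (Fin 3 → ℝ)} (F : Bool → BFam 3 ι Λ)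
    (S : Bool → ConHomeo Λ Λ) (b : ι) (l : Fin 3) (kk : Fin 3 → ℝ → ℝ) (L : Fin 3 → Finset ℝ)
    (lo hi om : Fin 3 → ℝ → ℝ) (om0 e0 θ : ℝ) : Prop where
  hS : ∀ β, (F β).IsS (S β)
  jne : ((F false).B b).j ≠ ((F true).B b).j
  jl : ∀ β, ((F β).B b).j ≠ l
  ins : ∀ j, Ins1 (kk j) (L j : Set ℝ) (lo j) (hi j)
  L0 : L l = ∅
  Lb : ∀ β, L ((F β).B b).j = ((F β).B b).lvs.L
  lob : ∀ β t, lo ((F β).B b).j t = t - ((F β).B b).c
  hib : ∀ β t, hi ((F β).B b).j t = t + ((F β).B b).c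
  omj : ∀ β t, om ((F β).B b).j t = om0
  omb : ∀ β, (F β).om b = om0
  eb : ∀ β, (F β).e b ≤ e0
  eth : ∀ β, (F β).e b ≤ θ * ((F β).B b).c

namespace PlS

variable {ι : Type*} {Λ : Set (Fin 3 → ℝ)} {F : Bool → BFam 3 ι Λ} {S : Bool → ConHomeo Λ Λ}
  {b : ι} {l : Fin 3} {kk : Fin 3 → ℝ → ℝ} {L : Fin 3 → Finset ℝ} {lo hi om : Fin 3 → ℝ → ℝ}
  {om0 e0 θ : ℝ} (H : PlS F S b l kk L lo hi om om0 e0 θ) {y y' : Fin 3 → ℝ}

include H

theorem cov {j : Fin 3} (hj : j ≠ l) : ∃ β, j = ((F β).B b).j := by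
  rcases fin3_cases l j _ _ hj H.jne (H.jl false) (H.jl true) with h | h
  · exact ⟨false, h⟩
  · exact ⟨true, h⟩

theorem om0_pos : 2 * e0 < om0 ∨ 0 < om0 := by
  right
  have h1 := (F false).heo b
  have h2 := (F false).he b
  have h3 := H.omb false
  unfold BFam.om at h3
  linarith

/-- the staircases on the coordinate `j` -/
theorem bJ_eq (β : Bool) : bJ L lo hi om ((F β).B b).j y y' =
    ∑ k ∈ Finset.range ((F β).B b).N, (F β).om b / (2 * ((F β).B b).c) *
      |fl ((F β).B b).c (((F β).B b).a k) (y ((F β).B b).j) -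
        fl ((F β).B b).c (((F β).B b).a k) (y' ((F β).B b).j)| := by
  unfold bJ
  rw [H.Lb β, ((F β).B b).lvs.sum_L]
  refine Finset.sum_congr rfl fun k _ => ?_
  have e1 : ∀ t, rho (lo ((F β).B b).j) (hi ((F β).B b).j) (((F β).B b).a k) t =
      fl ((F β).B b).c (((F β).B b).a k) t := by
    intro t
    rw [fl_def]
    unfold rho
    rw [H.lob, H.hib]
    congr 2 <;> ring
  rw [e1, e1, H.omj, H.lob, H.hib, H.omb]
  congr 2
  ring

/-- **the tangential coordinates** -/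
theorem lip (h : Fl2 F S b y) (h' : Fl2 F S b y') {j : Fin 3} (hj : j ≠ l) :
    |(S2 S).toFun y j - (S2 S).toFun y' j| ≤ bJ L lo hi om j y y' + θ * |y j - y' j| := by
  obtain ⟨β, rfl⟩ := H.cov hj
  refine (S2_sub_le H.hS H.jne h h' β).trans ?_
  rw [H.bJ_eq β]
  have h1 : (F β).e b / ((F β).B b).c ≤ θ := by
    rw [div_le_iff₀ ((F β).B b).lvs.c0]; exact H.eth β
  gcongr

/-- **the variation on a side** -/
theorem tv_side {p q : Fin 3 → ℝ} {h2 h3 g : (Fin 3 → ℝ) → Fin 3 → ℝ} {La : ℝ}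
    {s1 s2 s3 s4 : (Fin 3 → ℝ) → ℝ} (HE : EdgeNum p q h2 kk L lo hi om La h3 s1 s2 s3 s4)
    {X : Finset (Fin 3 → ℝ)} (hX : ∀ x ∈ X, CrsPt p q h2 L x)
    (haff : ∀ x ∈ X, ∀ j, h2 x j ∈ L j →
      (∀ s ∈ Icc (s2 x) (s3 x), h3 (AffineMap.lineMap p q s) j =
        lo j (h2 x j) + (hi j (h2 x j) - lo j (h2 x j)) * ((s - s2 x) / (s3 x - s2 x))) ∨
      ∀ s ∈ Icc (s2 x) (s3 x), h3 (AffineMap.lineMap p q s) j =
        hi j (h2 x j) - (hi j (h2 x j) - lo j (h2 x j)) * ((s - s2 x) / (s3 x - s2 x)))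
    (hfl : ∀ s ∈ Icc (0:ℝ) 1, Fl2 F S b (h3 (AffineMap.lineMap p q s)))
    (hg : ∀ s ∈ Icc (0:ℝ) 1, ∀ j, j ≠ l → g (AffineMap.lineMap p q s) j =
      (S2 S).toFun (h3 (AffineMap.lineMap p q s)) j) :
    (X.card : ℝ≥0∞) * ENNReal.ofReal (om0 - 2 * e0) ≤
      Vale.Agent.P073.H239.tv g (p, q) Finset.univ := by
  classical
  have hcd : ∀ x, ∃ j, x ∈ X → h2 x j ∈ L j := fun x => by
    by_cases hx : x ∈ X
    · obtain ⟨j, hj⟩ := (hX x hx).2
      exact ⟨j, fun _ => hj⟩
    · exact ⟨l, fun h => absurd h hx⟩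
  choose cd hcd using hcd
  have hon : ∀ t, Vale.Agent.P073.H73.onSeg g (p, q) t = g (AffineMap.lineMap p q t) := by
    intro t
    show g (p + t • (q - p)) = _
    rw [AffineMap.lineMap_apply_module']
    congr 1
    rw [add_comm]
  have key := card_le_sum_variation (fun t => g (AffineMap.lineMap p q t)) s2 s3 X cd
    (w := om0 - 2 * e0) (fun x hx => ?_) (fun x hx => ?_) (fun x hx y hy hne => ?_)
    (fun x hx => ?_)
  · unfold Vale.Agent.P073.H239.tv
    simp only [hon]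
    exact key
  · have h1 := HE.a1 x (hX x hx)
    have h2 := HE.a2 x (hX x hx)
    have h3 := HE.a3 x (hX x hx)
    exact ⟨by linarith, h3⟩
  · have h4 := HE.a4 x (hX x hx)
    have h5 := HE.a5 x (hX x hx)
    linarith
  · have h1 := HE.a2 x (hX x hx)
    have h2 := HE.a4 x (hX x hx)
    have h3 := HE.a2 y (hX y hy)
    have h4 := HE.a4 y (hX y hy)
    rcases HE.dis x y (hX x hx) (hX y hy) hne with h | h
    · left; linarith
    · right; linarith
  · have hj := hcd x hx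
    have hjl : cd x ≠ l := by
      intro h
      rw [h, H.L0] at hj
      exact absurd hj (Finset.notMem_empty _)
    obtain ⟨β, hβ⟩ := H.cov hjl
    have a1 := HE.a1 x (hX x hx)
    have a2 := HE.a2 x (hX x hx)
    have a3 := HE.a3 x (hX x hx)
    have a4 := HE.a4 x (hX x hx)
    have a5 := HE.a5 x (hX x hx)
    have m2 : s2 x ∈ Icc (0:ℝ) 1 := ⟨by linarith, by linarith⟩
    have m3 : s3 x ∈ Icc (0:ℝ) 1 := ⟨by linarith, by linarith⟩
    have hd : s3 x - s2 x ≠ 0 := by
      intro h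
      linarith
    have hjβ := hj
    rw [hβ] at hjβ
    rw [H.Lb β] at hjβ
    obtain ⟨n, hn, hna⟩ := ((F β).B b).lvs.mem_L.1 hjβ
    show _ ≤ |g (AffineMap.lineMap p q (s2 x)) (cd x) - g (AffineMap.lineMap p q (s3 x)) (cd x)|
    rw [hg _ m2 _ hjl, hg _ m3 _ hjl, hβ, S2_apply H.hS H.jne (hfl _ m2),
      S2_apply H.hS H.jne (hfl _ m3)]
    have hsm := sm_flat_sub (e := (F β).e b) ((F β).B b).lvs hn
    have hst : stp ((F β).B b).N ((F β).B b).al ((F β).B b).be = om0 := H.omb β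
    have hle : om0 - 2 * e0 ≤ stp ((F β).B b).N ((F β).B b).al ((F β).B b).be -
        2 * (F β).e b := by
      rw [hst]; linarith [H.eb β]
    have haff' := haff x hx (cd x) hj
    rw [hβ, H.lob, H.hib, ← hna] at haff'
    rcases haff' with h4 | h4
    · have e2 := h4 (s2 x) ⟨le_rfl, a3.le⟩
      have e3 := h4 (s3 x) ⟨a3.le, le_rfl⟩
      rw [sub_self, zero_div, mul_zero, add_zero] at e2
      rw [div_self hd, mul_one] at e3
      rw [e2, e3]
      have e4 : ((F β).B b).a n - ((F β).B b).c +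
          (((F β).B b).a n + ((F β).B b).c - (((F β).B b).a n - ((F β).B b).c)) =
          ((F β).B b).a n + ((F β).B b).c := by ring
      rw [e4]
      exact hle.trans hsm
    · have e2 := h4 (s2 x) ⟨le_rfl, a3.le⟩
      have e3 := h4 (s3 x) ⟨a3.le, le_rfl⟩
      rw [sub_self, zero_div, mul_zero, sub_zero] at e2
      rw [div_self hd, mul_one] at e3
      rw [e2, e3]
      have e4 : ((F β).B b).a n + ((F β).B b).c -
          (((F β).B b).a n + ((F β).B b).c - (((F β).B b).a n - ((F β).B b).c)) =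
          ((F β).B b).a n - ((F β).B b).c := by ring
      rw [e4, abs_sub_comm]
      exact hle.trans hsm

/-- **the displacement on a side** -/
theorem disp_side {p q : Fin 3 → ℝ} {h2 h3 g : (Fin 3 → ℝ) → Fin 3 → ℝ}
    (hp : prodK kk (h3 p) = h2 p) (hq : prodK kk (h3 q) = h2 q) (hpL : ∀ j, h2 p j ∉ L j)
    (hqL : ∀ j, h2 q j ∉ L j) (hfp : Fl2 F S b (h3 p)) (hfq : Fl2 F S b (h3 q)) {j : Fin 3}
    (hj : j ≠ l) (hgp : g p j = (S2 S).toFun (h3 p) j) (hgq : g q j = (S2 S).toFun (h3 q) j) :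
    g q j - g p j ≤
      om0 * ((L j).filter fun c => h2 p j < c ∧ c < h2 q j).card + 2 * e0 := by
  classical
  obtain ⟨β, rfl⟩ := H.cov hj
  rw [hgp, hgq, S2_apply H.hS H.jne hfp, S2_apply H.hS H.jne hfq]
  have hI := H.ins ((F β).B b).j
  have hmem : ∀ k < ((F β).B b).N, ((F β).B b).a k ∈ L ((F β).B b).j := fun k hk => by
    rw [H.Lb β]; exact ((F β).B b).lvs.mem_L.2 ⟨k, hk, rfl⟩
  have kp : kk ((F β).B b).j (h3 p ((F β).B b).j) = h2 p ((F β).B b).j := congrFun hp _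
  have kq : kk ((F β).B b).j (h3 q ((F β).B b).j) = h2 q ((F β).B b).j := congrFun hq _
  have off : ∀ (u v : ℝ), kk ((F β).B b).j u = v → v ∉ L ((F β).B b).j →
      ∀ k < ((F β).B b).N, ¬ |u - ((F β).B b).a k| ≤ ((F β).B b).c := by
    intro u v huv hv k hk hle
    obtain ⟨h1, h2⟩ := abs_le.1 hle
    have := (hI.flat _ (hmem k hk) u).2 ⟨by rw [H.lob]; linarith, by rw [H.hib]; linarith⟩
    rw [huv] at this
    exact hv (this ▸ hmem k hk)
  have off_p := off _ _ kp (hpL _)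
  have off_q := off _ _ kq (hqL _)
  have h1 := sm_sub_le ((F β).B b).lvs ((F β).he b) ((F β).heo b) (hfp.win H.jne H.hS β)
    (hfq.win H.jne H.hS β) off_p off_q
  have hst : stp ((F β).B b).N ((F β).B b).al ((F β).B b).be = om0 := H.omb β
  have hpos : 0 < om0 := by
    have h1 := (F β).heo b
    have h2 := (F β).he b
    rw [hst] at h1
    linarith
  refine h1.trans ?_
  rw [hst]
  have hcard : ((Finset.range ((F β).B b).N).filter fun k => h3 p ((F β).B b).j <
      ((F β).B b).a k ∧ ((F β).B b).a k < h3 q ((F β).B b).j).card ≤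
      ((L ((F β).B b).j).filter fun c => h2 p ((F β).B b).j < c ∧
        c < h2 q ((F β).B b).j).card := by
    refine Finset.card_le_card_of_injOn ((F β).B b).a ?_ ?_
    · intro k hk
      obtain ⟨hk1, hk2, hk3⟩ := Finset.mem_filter.1 (Finset.mem_coe.1 hk)
      rw [Finset.mem_range] at hk1
      have ek : kk ((F β).B b).j (((F β).B b).a k) = ((F β).B b).a k := by
        have hc := ((F β).B b).lvs.c0
        refine (hI.flat _ (hmem k hk1) _).2 ⟨?_, ?_⟩
        · rw [H.lob]; linarith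
        · rw [H.hib]; linarith
      refine Finset.mem_coe.2 (Finset.mem_filter.2 ⟨hmem k hk1, ?_, ?_⟩)
      · rw [← kp]
        refine lt_of_le_of_ne ?_ fun he => ?_
        · have := hI.mono hk2.le
          rwa [ek] at this
        · exact hpL _ (by rw [← kp, he]; exact hmem k hk1)
      · rw [← kq]
        refine lt_of_le_of_ne ?_ fun he => ?_
        · have := hI.mono hk3.le
          rwa [ek] at this
        · exact hqL _ (by rw [← kq, ← he]; exact hmem k hk1)
    · intro k hk k' hk' he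
      have h2 := (Finset.mem_filter.1 (Finset.mem_coe.1 hk)).1
      have h3 := (Finset.mem_filter.1 (Finset.mem_coe.1 hk')).1
      exact ((F β).B b).lvs.injOn (Finset.mem_coe.2 h2) (Finset.mem_coe.2 h3) he
  have h5 : ((((Finset.range ((F β).B b).N).filter fun k => h3 p ((F β).B b).j <
      ((F β).B b).a k ∧ ((F β).B b).a k < h3 q ((F β).B b).j).card : ℕ) : ℝ) ≤
      ((L ((F β).B b).j).filter fun c => h2 p ((F β).B b).j < c ∧
        c < h2 q ((F β).B b).j).card := by exact_mod_cast hcard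
  have h6 := mul_le_mul_of_nonneg_left h5 hpos.le
  linarith [H.eb β]

end PlS

end P073.H761.SE
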