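import Vale.Agent.P073.H761.SEnd3

/-!
# P073, H761, [SHARP-END], part 5: the staircases on the whole plate

`cl al be`: clamp to the window.  `Prd`: at the point `y` the two staircases are a product map.
`PlS.lipW`, `PlS.dispW`: the clamped coordinates, inside and outside of the window.
-/

open Set Metric Topology Filter

namespace P073.H761.SE

open P073 P073.H236 P073.H579

/-- clamp to the window -/
noncomputable def cl (al be t : ℝ) : ℝ := max al (min t be)

section

variable {al be t t' : ℝ}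

theorem cl_mem (h : al ≤ be) (t : ℝ) : cl al be t ∈ Icc al be :=
  ⟨le_max_left _ _, max_le h (min_le_right _ _)⟩

theorem cl_of_mem (h : t ∈ Icc al be) : cl al be t = t := by
  unfold cl; rw [min_eq_left h.2, max_eq_right h.1]

theorem cl_of_le (hab : al ≤ be) (h : t ≤ al) : cl al be t = al := by
  unfold cl; rw [min_eq_left (h.trans hab), max_eq_left h]

theorem cl_of_ge (hab : al ≤ be) (h : be ≤ t) : cl al be t = be := by
  unfold cl; rw [min_eq_right h, max_eq_right hab]

theorem cl_mono (al be : ℝ) : Monotone (cl al be) := fun _ _ h =>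
  max_le_max le_rfl (min_le_min h le_rfl)

theorem abs_cl_sub_le (al be t t' : ℝ) : |cl al be t - cl al be t'| ≤ |t - t'| := by
  have h1 : |max al (min t be) - max al (min t' be)| ≤ |min t be - min t' be| := by
    rw [max_comm al, max_comm al]
    exact abs_max_sub_max_le_abs _ _ _
  refine h1.trans ?_
  have h2 := abs_min_sub_min_le_max t be t' be
  rwa [sub_self, abs_zero, max_eq_left (abs_nonneg _)] at h2

/-- the clamped coordinate moves at most as much, and in the same direction -/
theorem cl_sub_le (al be : ℝ) {t t' : ℝ} (h : t ≤ t') : cl al be t' - cl al be t ≤ t' - t := by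
  have := abs_cl_sub_le al be t' t
  rw [abs_of_nonneg (sub_nonneg.2 (cl_mono al be h)), abs_of_nonneg (sub_nonneg.2 h)] at this
  exact this

variable {c a : ℝ}

theorem fl_cl (hc : 0 ≤ c) (hab : al ≤ be) (h1 : al ≤ a - c) (h2 : a + c ≤ be) (t : ℝ) :
    fl c a (cl al be t) = fl c a t := by
  rcases le_total t al with h | h
  · rw [cl_of_le hab h, fl_of_le h1, fl_of_le (h.trans h1)]
  · rcases le_total be t with h' | h'
    · rw [cl_of_ge hab h', fl_of_ge hc h2, fl_of_ge hc (h2.trans h')]
    · rw [cl_of_mem ⟨h, h'⟩]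

theorem le_cl_iff (hab : al ≤ be) (h1 : al < a) (h2 : a < be) : a ≤ cl al be t ↔ a ≤ t := by
  rcases le_total t al with h | h
  · rw [cl_of_le hab h]
    constructor <;> intro h3 <;> linarith
  · rcases le_total be t with h' | h'
    · rw [cl_of_ge hab h']
      constructor <;> intro h3 <;> linarith
    · rw [cl_of_mem ⟨h, h'⟩]

theorem cl_le_iff (hab : al ≤ be) (h1 : al < a) (h2 : a < be) : cl al be t ≤ a ↔ t ≤ a := by
  rcases le_total t al with h | h
  · rw [cl_of_le hab h]
    constructor <;> intro h3 <;> linarith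
  · rcases le_total be t with h' | h'
    · rw [cl_of_ge hab h']
      constructor <;> intro h3 <;> linarith
    · rw [cl_of_mem ⟨h, h'⟩]

theorem off_cl (hab : al ≤ be) (hc : 0 ≤ c) (h1 : al < a - c) (h2 : a + c < be)
    (h : ¬ |t - a| ≤ c) : ¬ |cl al be t - a| ≤ c := by
  rcases le_total t al with h3 | h3
  · rw [cl_of_le hab h3]
    intro hcon
    have := (abs_le.1 hcon).1
    linarith
  · rcases le_total be t with h' | h'
    · rw [cl_of_ge hab h']
      intro hcon
      have := (abs_le.1 hcon).2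
      linarith
    · rwa [cl_of_mem ⟨h3, h'⟩]

end

variable {ι : Type*} {Λ : Set (Fin 3 → ℝ)} {F : Bool → BFam 3 ι Λ} {S : Bool → ConHomeo Λ Λ}
  {b : ι} {l : Fin 3}

/-- the staircase commutes with the clamp -/
theorem σ_cl (G : BFam 3 ι Λ) (b : ι) (hab : (G.B b).al ≤ (G.B b).be) (t : ℝ) :
    G.σ b (cl (G.B b).al (G.B b).be t) = cl (G.B b).al (G.B b).be (G.σ b t) := by
  rcases le_total t (G.B b).al with h | h
  · rw [cl_of_le hab h, G.σ_out (Or.inl le_rfl), G.σ_out (Or.inl h), cl_of_le hab h]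
  · rcases le_total (G.B b).be t with h' | h'
    · rw [cl_of_ge hab h', G.σ_out (Or.inr le_rfl), G.σ_out (Or.inr h'), cl_of_ge hab h']
    · rw [cl_of_mem ⟨h, h'⟩, cl_of_mem (G.σ_win ⟨h, h'⟩)]

/-- at the point `y` the two staircases are a product map -/
def Prd (F : Bool → BFam 3 ι Λ) (S : Bool → ConHomeo Λ Λ) (b : ι) (l : Fin 3)
    (y : Fin 3 → ℝ) : Prop :=
  (S2 S).toFun y l = y l ∧
    ∀ β, (S2 S).toFun y ((F β).B b).j = (F β).σ b (y ((F β).B b).j)

/-- clamp to the window of the coordinate `j`; `wl`, `wh` are the ends -/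
noncomputable def cw (wl wh : Fin 3 → ℝ) (j : Fin 3) (y : Fin 3 → ℝ) : ℝ := cl (wl j) (wh j) (y j)

theorem abs_cw_sub_le (wl wh : Fin 3 → ℝ) (j : Fin 3) (y y' : Fin 3 → ℝ) :
    |cw wl wh j y - cw wl wh j y'| ≤ |y j - y' j| := abs_cl_sub_le _ _ _ _

theorem lvs_lt {N : ℕ} {a : ℕ → ℝ} {c al be : ℝ} (h : Lvs N a c al be) : al < be := by
  have h1 := h.first_le h.pos
  have h2 := h.le_last h.pos
  have := h.c0
  linarith

namespace PlS

variable {kk : Fin 3 → ℝ → ℝ} {L : Fin 3 → Finset ℝ} {lo hi om : Fin 3 → ℝ → ℝ}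
  {om0 e0 θ : ℝ} (H : PlS F S b l kk L lo hi om om0 e0 θ) {y y' : Fin 3 → ℝ}
  {wl wh : Fin 3 → ℝ}

include H

/-- **the clamped tangential coordinates** -/
theorem lipW (hwl : ∀ β, ((F β).B b).al = wl ((F β).B b).j)
    (hwh : ∀ β, ((F β).B b).be = wh ((F β).B b).j) (h : Prd F S b l y) (h' : Prd F S b l y')
    {j : Fin 3} (hj : j ≠ l) :
    |cw wl wh j ((S2 S).toFun y) - cw wl wh j ((S2 S).toFun y')| ≤
      bJ L lo hi om j y y' + θ * |y j - y' j| := by
  obtain ⟨β, rfl⟩ := H.cov hj
  have hab := (lvs_lt ((F β).B b).lvs).le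
  have hc := ((F β).B b).lvs.c0
  unfold cw
  rw [h.2 β, h'.2 β, ← hwl β, ← hwh β, ← σ_cl (F β) b hab, ← σ_cl (F β) b hab, H.bJ_eq β]
  refine (abs_sm_sub_le_win ((F β).B b).lvs ((F β).he b) ((F β).heo b)
    (cl_mem hab _) (cl_mem hab _)).trans ?_
  have hfl : ∀ k ∈ Finset.range ((F β).B b).N, ∀ t, fl ((F β).B b).c (((F β).B b).a k)
      (cl ((F β).B b).al ((F β).B b).be t) = fl ((F β).B b).c (((F β).B b).a k) t := by
    intro k hk t
    rw [Finset.mem_range] at hk
    have h1 := ((F β).B b).lvs.first_le hk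
    have h2 := ((F β).B b).lvs.le_last hk
    exact fl_cl hc.le hab (by linarith) (by linarith) t
  have e1 : ∑ k ∈ Finset.range ((F β).B b).N,
      |fl ((F β).B b).c (((F β).B b).a k) (cl ((F β).B b).al ((F β).B b).be (y ((F β).B b).j)) -
        fl ((F β).B b).c (((F β).B b).a k)
          (cl ((F β).B b).al ((F β).B b).be (y' ((F β).B b).j))| =
      ∑ k ∈ Finset.range ((F β).B b).N,
        |fl ((F β).B b).c (((F β).B b).a k) (y ((F β).B b).j) -
          fl ((F β).B b).c (((F β).B b).a k) (y' ((F β).B b).j)| :=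
    Finset.sum_congr rfl fun k hk => by rw [hfl k hk, hfl k hk]
  rw [e1, ← Finset.mul_sum]
  have he := (F β).he b
  have h1 : (F β).e b / ((F β).B b).c ≤ θ := by
    rw [div_le_iff₀ hc]; exact H.eth β
  have h2 := abs_cl_sub_le ((F β).B b).al ((F β).B b).be (y ((F β).B b).j) (y' ((F β).B b).j)
  have h0 : 0 ≤ (F β).e b / ((F β).B b).c := by positivity
  refine add_le_add ?_ ?_
  · gcongr
    show stp _ _ _ - 2 * (F β).e b ≤ (F β).om b
    unfold BFam.om
    linarith
  · exact mul_le_mul h1 h2 (abs_nonneg _) (h0.trans h1)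

/-- **the displacement** of the clamped coordinates between two points off the levels -/
theorem dispW (hwl : ∀ β, ((F β).B b).al = wl ((F β).B b).j)
    (hwh : ∀ β, ((F β).B b).be = wh ((F β).B b).j) {yp yq zp zq : Fin 3 → ℝ}
    (hp : prodK kk yp = zp) (hq : prodK kk yq = zq) {j : Fin 3} (hj : j ≠ l)
    (hpL : zp j ∉ L j) (hqL : zq j ∉ L j) (h : Prd F S b l yp) (h' : Prd F S b l yq) :
    cw wl wh j ((S2 S).toFun yq) - cw wl wh j ((S2 S).toFun yp) ≤
      om0 * ((L j).filter fun c => zp j < c ∧ c < zq j).card + 2 * e0 := by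
  classical
  obtain ⟨β, rfl⟩ := H.cov hj
  have hab := (lvs_lt ((F β).B b).lvs).le
  have hc := ((F β).B b).lvs.c0
  unfold cw
  rw [h.2 β, h'.2 β, ← hwl β, ← hwh β, ← σ_cl (F β) b hab, ← σ_cl (F β) b hab]
  have hI := H.ins ((F β).B b).j
  have hmem : ∀ k < ((F β).B b).N, ((F β).B b).a k ∈ L ((F β).B b).j := fun k hk => by
    rw [H.Lb β]; exact ((F β).B b).lvs.mem_L.2 ⟨k, hk, rfl⟩
  have kp : kk ((F β).B b).j (yp ((F β).B b).j) = zp ((F β).B b).j := congrFun hp _
  have kq : kk ((F β).B b).j (yq ((F β).B b).j) = zq ((F β).B b).j := congrFun hq _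
  have hin : ∀ k < ((F β).B b).N, ((F β).B b).al < ((F β).B b).a k - ((F β).B b).c ∧
      ((F β).B b).a k + ((F β).B b).c < ((F β).B b).be := fun k hk => by
    have h1 := ((F β).B b).lvs.first_le hk
    have h2 := ((F β).B b).lvs.le_last hk
    constructor <;> linarith
  have off : ∀ (u v : ℝ), kk ((F β).B b).j u = v → v ∉ L ((F β).B b).j →
      ∀ k < ((F β).B b).N, ¬ |u - ((F β).B b).a k| ≤ ((F β).B b).c := by
    intro u v huv hv k hk hle
    obtain ⟨h1, h2⟩ := abs_le.1 hle
    have := (hI.flat _ (hmem k hk) u).2 ⟨by rw [H.lob]; linarith, by rw [H.hib]; linarith⟩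
    rw [huv] at this
    exact hv (this ▸ hmem k hk)
  have off_p := off _ _ kp hpL
  have off_q := off _ _ kq hqL
  have h1 := sm_sub_le ((F β).B b).lvs ((F β).he b) ((F β).heo b)
    (cl_mem hab (yp ((F β).B b).j)) (cl_mem hab (yq ((F β).B b).j))
    (fun k hk => off_cl hab hc.le (hin k hk).1 (hin k hk).2 (off_p k hk))
    (fun k hk => off_cl hab hc.le (hin k hk).1 (hin k hk).2 (off_q k hk))
  have hst : stp ((F β).B b).N ((F β).B b).al ((F β).B b).be = om0 := H.omb β
  have hpos : 0 < om0 := by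
    have h1 := (F β).heo b
    have h2 := (F β).he b
    rw [hst] at h1
    linarith
  refine h1.trans ?_
  rw [hst]
  have hcard : ((Finset.range ((F β).B b).N).filter fun k =>
      cl ((F β).B b).al ((F β).B b).be (yp ((F β).B b).j) < ((F β).B b).a k ∧
        ((F β).B b).a k < cl ((F β).B b).al ((F β).B b).be (yq ((F β).B b).j)).card ≤
      ((L ((F β).B b).j).filter fun c => zp ((F β).B b).j < c ∧ c < zq ((F β).B b).j).card := by
    refine Finset.card_le_card_of_injOn ((F β).B b).a ?_ ?_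
    · intro k hk
      obtain ⟨hk1, hk2, hk3⟩ := Finset.mem_filter.1 (Finset.mem_coe.1 hk)
      rw [Finset.mem_range] at hk1
      have hi1 : ((F β).B b).al < ((F β).B b).a k := by linarith [(hin k hk1).1]
      have hi2 : ((F β).B b).a k < ((F β).B b).be := by linarith [(hin k hk1).2]
      have hk2' : yp ((F β).B b).j < ((F β).B b).a k := by
        rw [← not_le] at hk2 ⊢
        exact fun h3 => hk2 ((le_cl_iff hab hi1 hi2).2 h3)
      have hk3' : ((F β).B b).a k < yq ((F β).B b).j := by
        rw [← not_le] at hk3 ⊢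
        exact fun h3 => hk3 ((cl_le_iff hab hi1 hi2).2 h3)
      have ek : kk ((F β).B b).j (((F β).B b).a k) = ((F β).B b).a k := by
        refine (hI.flat _ (hmem k hk1) _).2 ⟨?_, ?_⟩
        · rw [H.lob]; linarith
        · rw [H.hib]; linarith
      refine Finset.mem_coe.2 (Finset.mem_filter.2 ⟨hmem k hk1, ?_, ?_⟩)
      · rw [← kp]
        refine lt_of_le_of_ne ?_ fun he => ?_
        · have := hI.mono hk2'.le
          rwa [ek] at this
        · exact hpL (by rw [← kp, he]; exact hmem k hk1)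
      · rw [← kq]
        refine lt_of_le_of_ne ?_ fun he => ?_
        · have := hI.mono hk3'.le
          rwa [ek] at this
        · exact hqL (by rw [← kq, ← he]; exact hmem k hk1)
    · intro k hk k' hk' he
      have h2 := (Finset.mem_filter.1 (Finset.mem_coe.1 hk)).1
      have h3 := (Finset.mem_filter.1 (Finset.mem_coe.1 hk')).1
      exact ((F β).B b).lvs.injOn (Finset.mem_coe.2 h2) (Finset.mem_coe.2 h3) he
  have h5 : ((((Finset.range ((F β).B b).N).filter fun k =>
      cl ((F β).B b).al ((F β).B b).be (yp ((F β).B b).j) < ((F β).B b).a k ∧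
        ((F β).B b).a k < cl ((F β).B b).al ((F β).B b).be (yq ((F β).B b).j)).card : ℕ) : ℝ) ≤
      ((L ((F β).B b).j).filter fun c => zp ((F β).B b).j < c ∧ c < zq ((F β).B b).j).card := by
    exact_mod_cast hcard
  have h6 := mul_le_mul_of_nonneg_left h5 hpos.le
  linarith [H.eb β]

end PlS

end P073.H761.SE
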