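import Vale.Agent.P073.H142.EdgeBand

/-!
# P073, H761, [SHARP-END], part 6: sharp variation of the bands along a side

`glob`: local estimates by the increments of a function add up.  `band_ramp`: if the fibres are
traversed affinely, the bands along the edge are controlled by the sum of the ramps of the crossing
points.
-/

open Set Metric Topology Filter

namespace P073.H761.SE

open P073 P073.H579 P073.H142

/-- **local to global** -/
theorem glob {D : ℝ → ℝ → ℝ} (htri : ∀ a b c, D a c ≤ D a b + D b c) {G : ℝ → ℝ}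
    (hloc : ∀ s ∈ Icc (0:ℝ) 1, ∀ᶠ s' in 𝓝[Icc 0 1] s,
      (s ≤ s' → D s s' ≤ G s' - G s) ∧ (s' ≤ s → D s' s ≤ G s - G s')) {s s' : ℝ}
    (hs : s ∈ Icc (0:ℝ) 1) (hs' : s' ∈ Icc (0:ℝ) 1) (hss : s ≤ s') : D s s' ≤ G s' - G s := by
  set T : Set ℝ := {t | t ∈ Icc s s' ∧ D s t ≤ G t - G s} with hT
  have hsT : s ∈ T := by
    refine ⟨⟨le_rfl, hss⟩, ?_⟩
    exact ((hloc s hs).self_of_nhdsWithin hs).1 le_rfl
  have hbdd : BddAbove T := ⟨s', fun t ht => ht.1.2⟩
  set c := sSup T with hc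
  have hsc : s ≤ c := le_csSup hbdd hsT
  have hcs : c ≤ s' := csSup_le ⟨s, hsT⟩ fun t ht => ht.1.2
  have hc01 : c ∈ Icc (0:ℝ) 1 := ⟨hs.1.trans hsc, hcs.trans hs'.2⟩
  obtain ⟨ε, hε, hball⟩ := Metric.mem_nhdsWithin_iff.1 (hloc c hc01)
  have hcT : c ∈ T := by
    obtain ⟨t, ht, htc⟩ := exists_lt_of_lt_csSup ⟨s, hsT⟩ (show c - ε < sSup T by rw [← hc]; linarith)
    have htle : t ≤ c := le_csSup hbdd ht
    have ht01 : t ∈ Icc (0:ℝ) 1 := ⟨hs.1.trans ht.1.1, ht.1.2.trans hs'.2⟩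
    have h1 := (hball ⟨by rw [mem_ball, Real.dist_eq, abs_lt]; constructor <;> linarith, ht01⟩).2
      htle
    refine ⟨⟨hsc, hcs⟩, ?_⟩
    have h2 := htri s t c
    have h3 := ht.2
    linarith
  rcases hcs.lt_or_eq with hlt | heq
  · exfalso
    obtain ⟨t, h1, h2⟩ := exists_between (show c < min s' (c + ε) from lt_min hlt (by linarith))
    have ht1 : t < s' := h2.trans_le (min_le_left _ _)
    have ht2 : t < c + ε := h2.trans_le (min_le_right _ _)
    have ht01 : t ∈ Icc (0:ℝ) 1 := ⟨hc01.1.trans h1.le, ht1.le.trans hs'.2⟩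
    have h3 := (hball ⟨by rw [mem_ball, Real.dist_eq, abs_lt]; constructor <;> linarith, ht01⟩).1
      h1.le
    have h4 : t ∈ T := by
      refine ⟨⟨hsc.trans h1.le, ht1.le⟩, ?_⟩
      have h2 := htri s c t
      have h5 := hcT.2
      linarith
    have := le_csSup hbdd h4
    linarith
  · rw [← heq]; exact hcT.2

/-- the ramp from `0` to `1` on `[p, q]` -/
noncomputable def ramp (p q t : ℝ) : ℝ := max 0 (min 1 ((t - p) / (q - p)))

section

variable {p q t t' : ℝ}

theorem ramp_mono (hpq : p < q) : Monotone (ramp p q) := fun s t h =>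
  max_le_max le_rfl (min_le_min le_rfl
    (div_le_div_of_nonneg_right (by linarith) (by linarith)))

theorem ramp_of_le (hpq : p < q) (h : t ≤ p) : ramp p q t = 0 := by
  unfold ramp
  exact max_eq_left (min_le_of_right_le (div_nonpos_of_nonpos_of_nonneg (by linarith)
    (by linarith)))

theorem ramp_of_ge (hpq : p < q) (h : q ≤ t) : ramp p q t = 1 := by
  unfold ramp
  have : 1 ≤ (t - p) / (q - p) := by rw [le_div_iff₀ (by linarith)]; linarith
  rw [min_eq_left this, max_eq_right zero_le_one]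

theorem ramp_of_mem (hpq : p < q) (h : t ∈ Icc p q) : ramp p q t = (t - p) / (q - p) := by
  unfold ramp
  have h1 : (t - p) / (q - p) ≤ 1 := by rw [div_le_iff₀ (by linarith)]; linarith [h.2]
  have h2 : 0 ≤ (t - p) / (q - p) := div_nonneg (by linarith [h.1]) (by linarith)
  rw [min_eq_right h1, max_eq_right h2]

theorem ramp_nonneg (p q t : ℝ) : 0 ≤ ramp p q t := le_max_left _ _

theorem ramp_le_one (p q t : ℝ) : ramp p q t ≤ 1 := max_le zero_le_one (min_le_left _ _)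

end

variable {E : Type*} [NormedAddCommGroup E] [NormedSpace ℝ E] {m : ℕ}
variable {a b : E} {h f : E → Fin m → ℝ} {k : Fin m → ℝ → ℝ} {L : Fin m → Finset ℝ}
  {lo hi om : Fin m → ℝ → ℝ} {La : ℝ} {s1 s2 s3 s4 : E → ℝ}

/-- the fibre over `x` is traversed affinely -/
def AffAt (a b : E) (h f : E → Fin m → ℝ) (L : Fin m → Finset ℝ) (lo hi : Fin m → ℝ → ℝ)
    (s2 s3 : E → ℝ) (x : E) : Prop :=
  ∀ j, h x j ∈ L j →
    (∀ s ∈ Icc (s2 x) (s3 x), f (AffineMap.lineMap a b s) j =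
      lo j (h x j) + (hi j (h x j) - lo j (h x j)) * ((s - s2 x) / (s3 x - s2 x))) ∨
    ∀ s ∈ Icc (s2 x) (s3 x), f (AffineMap.lineMap a b s) j =
      hi j (h x j) - (hi j (h x j) - lo j (h x j)) * ((s - s2 x) / (s3 x - s2 x))

/-- one fibre, exactly -/
theorem band_fibre' (H : EdgeNum a b h k L lo hi om La f s1 s2 s3 s4)
    (hI : ∀ j, Ins1 (k j) (L j : Set ℝ) (lo j) (hi j))
    (hun : ∀ x ∈ segment ℝ a b, ∀ j j', h x j ∈ L j → h x j' ∈ L j' → j = j') {w : ℝ}
    (hom : ∀ j, ∀ c ∈ L j, om j c = w) {x : E} (hx : CrsPt a b h L x)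
    (haff : AffAt a b h f L lo hi s2 s3 x) {s s' : ℝ}
    (hs : s ∈ Icc (s2 x) (s3 x)) (hs' : s' ∈ Icc (s2 x) (s3 x)) (hss : s ≤ s') :
    bandD L lo hi om (f (AffineMap.lineMap a b s)) (f (AffineMap.lineMap a b s')) ≤
      w * (ramp (s2 x) (s3 x) s' - ramp (s2 x) (s3 x) s) := by
  obtain ⟨hxs, j₀, hj₀⟩ := hx
  have hcr : CrsPt a b h L x := ⟨hxs, j₀, hj₀⟩
  have a3 := H.a3 x hcr
  have h01 : Icc (s2 x) (s3 x) ⊆ Icc 0 1 := Icc_subset_Icc
    (by linarith [H.a1 x hcr, H.a2 x hcr]) (by linarith [H.a4 x hcr, H.a5 x hcr])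
  have h1 := (H.fib x hcr s (h01 hs)).2 hs
  have h1' := (H.fib x hcr s' (h01 hs')).2 hs'
  have e1 : ∀ j, k j (f (AffineMap.lineMap a b s) j) = h x j := fun j => congrFun h1 j
  have e1' : ∀ j, k j (f (AffineMap.lineMap a b s') j) = h x j := fun j => congrFun h1' j
  have hoth : ∀ j, j ≠ j₀ → f (AffineMap.lineMap a b s) j = f (AffineMap.lineMap a b s') j := by
    intro j hj
    refine (hI j).inj _ _ ((e1 j).trans (e1' j).symm) ?_
    rw [e1 j]
    exact fun hmem => hj (hun x hxs j j₀ hmem hj₀)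
  have hfl := ((hI j₀).flat _ hj₀ _).1 (e1 j₀)
  have hfl' := ((hI j₀).flat _ hj₀ _).1 (e1' j₀)
  have hlt₀ := (hI j₀).lt _ hj₀
  -- the other levels of the same coordinate
  have hoth2 : ∀ c ∈ L j₀, c ≠ h x j₀ →
      rho (lo j₀) (hi j₀) c (f (AffineMap.lineMap a b s) j₀) =
        rho (lo j₀) (hi j₀) c (f (AffineMap.lineMap a b s') j₀) := by
    intro c hc hne
    have hlt := (hI j₀).lt c hc
    have key : ∀ t, lo j₀ (h x j₀) ≤ t ∧ t ≤ hi j₀ (h x j₀) → ¬ (lo j₀ c ≤ t ∧ t ≤ hi j₀ c) := by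
      intro t ht ht'
      exact hne (((hI j₀).flat c hc t).2 ht' ▸ ((hI j₀).flat _ hj₀ t).2 ht)
    exact rho_const (u := fun t => t) (T := Icc (lo j₀ (h x j₀)) (hi j₀ (h x j₀)))
      isPreconnected_Icc continuousOn_id hlt (fun t ht => key t ht) hfl hfl'
  unfold bandD
  rw [Finset.sum_eq_single j₀, Finset.sum_eq_single (h x j₀)]
  · have e2 : rho (lo j₀) (hi j₀) (h x j₀) (f (AffineMap.lineMap a b s) j₀) =
        f (AffineMap.lineMap a b s) j₀ - lo j₀ (h x j₀) := by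
      rw [rho, min_eq_right (by linarith [hfl.2]), max_eq_right (by linarith [hfl.1])]
    have e3 : rho (lo j₀) (hi j₀) (h x j₀) (f (AffineMap.lineMap a b s') j₀) =
        f (AffineMap.lineMap a b s') j₀ - lo j₀ (h x j₀) := by
      rw [rho, min_eq_right (by linarith [hfl'.2]), max_eq_right (by linarith [hfl'.1])]
    have hD : 0 < hi j₀ (h x j₀) - lo j₀ (h x j₀) := by linarith
    have hd : 0 < s3 x - s2 x := by linarith
    have e4 : |f (AffineMap.lineMap a b s) j₀ - f (AffineMap.lineMap a b s') j₀| =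
        (hi j₀ (h x j₀) - lo j₀ (h x j₀)) * ((s' - s) / (s3 x - s2 x)) := by
      have h0 : 0 ≤ (hi j₀ (h x j₀) - lo j₀ (h x j₀)) * ((s' - s) / (s3 x - s2 x)) :=
        mul_nonneg hD.le (div_nonneg (by linarith) hd.le)
      rcases haff j₀ hj₀ with h4 | h4
      · rw [h4 s hs, h4 s' hs', abs_sub_comm]
        have : lo j₀ (h x j₀) + (hi j₀ (h x j₀) - lo j₀ (h x j₀)) * ((s' - s2 x) / (s3 x - s2 x)) -
            (lo j₀ (h x j₀) + (hi j₀ (h x j₀) - lo j₀ (h x j₀)) * ((s - s2 x) / (s3 x - s2 x))) =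
            (hi j₀ (h x j₀) - lo j₀ (h x j₀)) * ((s' - s) / (s3 x - s2 x)) := by ring
        rw [this, abs_of_nonneg h0]
      · rw [h4 s hs, h4 s' hs']
        have : hi j₀ (h x j₀) - (hi j₀ (h x j₀) - lo j₀ (h x j₀)) * ((s - s2 x) / (s3 x - s2 x)) -
            (hi j₀ (h x j₀) - (hi j₀ (h x j₀) - lo j₀ (h x j₀)) * ((s' - s2 x) / (s3 x - s2 x))) =
            (hi j₀ (h x j₀) - lo j₀ (h x j₀)) * ((s' - s) / (s3 x - s2 x)) := by ring
        rw [this, abs_of_nonneg h0]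
    rw [e2, e3, sub_sub_sub_cancel_right, e4, hom j₀ _ hj₀, ramp_of_mem a3 hs, ramp_of_mem a3 hs',
      ← sub_div, sub_sub_sub_cancel_right]
    refine le_of_eq ?_
    have : hi j₀ (h x j₀) - lo j₀ (h x j₀) ≠ 0 := hD.ne'
    field_simp
  · intro c hc hne
    rw [hoth2 c hc hne, sub_self, abs_zero, mul_zero]
  · exact fun hcon => absurd hj₀ hcon
  · intro j _ hj
    refine Finset.sum_eq_zero fun c _ => ?_
    rw [hoth j hj, sub_self, abs_zero, mul_zero]
  · exact fun hcon => absurd (Finset.mem_univ _) hcon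

theorem bandD_tri (hlt : ∀ j, ∀ c ∈ L j, lo j c < hi j c) (hom : ∀ j, ∀ c ∈ L j, 0 ≤ om j c)
    (y y' y'' : Fin m → ℝ) :
    bandD L lo hi om y y'' ≤ bandD L lo hi om y y' + bandD L lo hi om y' y'' := by
  unfold bandD
  rw [← Finset.sum_add_distrib]
  refine Finset.sum_le_sum fun j _ => ?_
  rw [← Finset.sum_add_distrib]
  refine Finset.sum_le_sum fun c hc => ?_
  rw [← mul_add]
  have h1 := hlt j c hc
  exact mul_le_mul_of_nonneg_left (abs_sub_le _ _ _) (div_nonneg (hom j c hc) (by linarith))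

/-- the bands do not change on connected sets of free parameters -/
theorem band_free (H : EdgeNum a b h k L lo hi om La f s1 s2 s3 s4)
    (hI : ∀ j, Ins1 (k j) (L j : Set ℝ) (lo j) (hi j))
    (hf : ContinuousOn f (segment ℝ a b))
    (him : ∀ x ∈ segment ℝ a b, prodK k (f x) ∈ h '' segment ℝ a b) {T : Set ℝ}
    (hT : T ⊆ Icc (0:ℝ) 1) (hTc : IsPreconnected T)
    (hTf : ∀ s ∈ T, ∀ x, CrsPt a b h L x → ¬ (s2 x ≤ s ∧ s ≤ s3 x)) {s s' : ℝ}
    (hs : s ∈ T) (hs' : s' ∈ T) {j : Fin m} {c : ℝ} (hc : c ∈ L j) :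
    rho (lo j) (hi j) c (f (AffineMap.lineMap a b s) j) =
      rho (lo j) (hi j) c (f (AffineMap.lineMap a b s') j) := by
  have huc : ContinuousOn (fun s : ℝ => f (AffineMap.lineMap a b s) j) (Icc 0 1) :=
    (continuous_apply j).comp_continuousOn
      (hf.comp AffineMap.lineMap_continuous.continuousOn fun s hs => lineMap_mem_segment' hs)
  exact rho_const (u := fun s : ℝ => f (AffineMap.lineMap a b s) j) hTc (huc.mono hT)
    ((hI j).lt _ hc) (fun r hr => not_flat H hI him (hT hr) (hTf r hr) hc) hs hs'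

/-- a free piece with a common end -/
theorem band_end (H : EdgeNum a b h k L lo hi om La f s1 s2 s3 s4)
    (hI : ∀ j, Ins1 (k j) (L j : Set ℝ) (lo j) (hi j))
    (hf : ContinuousOn f (segment ℝ a b))
    (him : ∀ x ∈ segment ℝ a b, prodK k (f x) ∈ h '' segment ℝ a b) {T : Set ℝ}
    (hT : T ⊆ Icc (0:ℝ) 1) (hTc : IsPreconnected T)
    (hTf : ∀ s ∈ T, ∀ x, CrsPt a b h L x → ¬ (s2 x ≤ s ∧ s ≤ s3 x)) {r s : ℝ}
    (hr : r ∈ closure T) (hr01 : r ∈ Icc (0:ℝ) 1) (hs : s ∈ T) {j : Fin m} {c : ℝ}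
    (hc : c ∈ L j) :
    rho (lo j) (hi j) c (f (AffineMap.lineMap a b s) j) =
      rho (lo j) (hi j) c (f (AffineMap.lineMap a b r) j) := by
  have huc : ContinuousOn (fun s : ℝ => f (AffineMap.lineMap a b s) j) (Icc 0 1) :=
    (continuous_apply j).comp_continuousOn
      (hf.comp AffineMap.lineMap_continuous.continuousOn fun s hs => lineMap_mem_segment' hs)
  have hrc : Continuous (rho (lo j) (hi j) c) := by
    unfold rho
    fun_prop
  have hw : ContinuousOn (fun s : ℝ => rho (lo j) (hi j) c (f (AffineMap.lineMap a b s) j))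
      (Icc 0 1) := hrc.comp_continuousOn huc
  have h2 : Tendsto (fun s : ℝ => rho (lo j) (hi j) c (f (AffineMap.lineMap a b s) j)) (𝓝[T] r)
      (𝓝 (rho (lo j) (hi j) c (f (AffineMap.lineMap a b r) j))) :=
    (hw r hr01).mono_left (nhdsWithin_mono _ hT)
  have h3 : Tendsto (fun s : ℝ => rho (lo j) (hi j) c (f (AffineMap.lineMap a b s) j)) (𝓝[T] r)
      (𝓝 (rho (lo j) (hi j) c (f (AffineMap.lineMap a b s) j))) := by
    refine tendsto_const_nhds.congr' ?_
    filter_upwards [self_mem_nhdsWithin] with t ht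
    exact band_free H hI hf him hT hTc hTf hs ht hc
  have h4 : (𝓝[T] r).NeBot := mem_closure_iff_nhdsWithin_neBot.1 hr
  exact tendsto_nhds_unique h3 h2

/-- **[RAMP]** the bands along the edge are controlled by the ramps of the crossing points -/
theorem band_ramp (H : EdgeNum a b h k L lo hi om La f s1 s2 s3 s4)
    (hI : ∀ j, Ins1 (k j) (L j : Set ℝ) (lo j) (hi j))
    (hun : ∀ x ∈ segment ℝ a b, ∀ j j', h x j ∈ L j → h x j' ∈ L j' → j = j') {w : ℝ}
    (hom : ∀ j, ∀ c ∈ L j, om j c = w) (hw : 0 ≤ w) {X : Finset E}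
    (hX : ∀ x, x ∈ X ↔ CrsPt a b h L x)
    (haff : ∀ x ∈ X, AffAt a b h f L lo hi s2 s3 x) (hf : ContinuousOn f (segment ℝ a b))
    (him : ∀ x ∈ segment ℝ a b, prodK k (f x) ∈ h '' segment ℝ a b) {s s' : ℝ}
    (hs : s ∈ Icc (0:ℝ) 1) (hs' : s' ∈ Icc (0:ℝ) 1) (hss : s ≤ s') :
    bandD L lo hi om (f (AffineMap.lineMap a b s)) (f (AffineMap.lineMap a b s')) ≤
      w * (∑ x ∈ X, ramp (s2 x) (s3 x) s') - w * ∑ x ∈ X, ramp (s2 x) (s3 x) s := by
  classical
  have hom' : ∀ j, ∀ c ∈ L j, 0 ≤ om j c := fun j c hc => by rw [hom j c hc]; exact hw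
  have hlt : ∀ j, ∀ c ∈ L j, lo j c < hi j c := fun j c hc => (hI j).lt c hc
  refine glob (D := fun s s' => bandD L lo hi om (f (AffineMap.lineMap a b s))
    (f (AffineMap.lineMap a b s'))) (G := fun s => w * ∑ x ∈ X, ramp (s2 x) (s3 x) s)
    (fun r r' r'' => bandD_tri hlt hom' _ _ _) ?_ hs hs' hss
  have hcomm : ∀ y y' : Fin m → ℝ, bandD L lo hi om y y' = bandD L lo hi om y' y := fun y y' => by
    unfold bandD
    exact Finset.sum_congr rfl fun j _ => Finset.sum_congr rfl fun c _ => by rw [abs_sub_comm]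
  -- increments of the sum
  have hG : ∀ x ∈ X, ∀ r r' : ℝ, r ≤ r' → w * (ramp (s2 x) (s3 x) r' - ramp (s2 x) (s3 x) r) ≤
      w * (∑ x ∈ X, ramp (s2 x) (s3 x) r') - w * ∑ x ∈ X, ramp (s2 x) (s3 x) r := by
    intro x hx r r' hrr
    rw [← mul_sub, ← Finset.sum_sub_distrib]
    refine mul_le_mul_of_nonneg_left ?_ hw
    exact Finset.single_le_sum (f := fun x => ramp (s2 x) (s3 x) r' - ramp (s2 x) (s3 x) r)
      (fun y hy => sub_nonneg.2 (ramp_mono (H.a3 y ((hX y).1 hy)) hrr)) hx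
  have hG0 : ∀ r r' : ℝ, r ≤ r' → 0 ≤
      w * (∑ x ∈ X, ramp (s2 x) (s3 x) r') - w * ∑ x ∈ X, ramp (s2 x) (s3 x) r := by
    intro r r' hrr
    rw [← mul_sub, ← Finset.sum_sub_distrib]
    exact mul_nonneg hw (Finset.sum_nonneg
      fun y hy => sub_nonneg.2 (ramp_mono (H.a3 y ((hX y).1 hy)) hrr))
  have hband0 : ∀ {y y' : Fin m → ℝ}, (∀ j, ∀ c ∈ L j, rho (lo j) (hi j) c (y j) =
      rho (lo j) (hi j) c (y' j)) → bandD L lo hi om y y' = 0 := by
    intro y y' hyy
    unfold bandD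
    exact Finset.sum_eq_zero fun j _ => Finset.sum_eq_zero fun c hc => by
      rw [hyy j c hc, sub_self, abs_zero, mul_zero]
  have hcongr : ∀ {y y' y'' : Fin m → ℝ}, (∀ j, ∀ c ∈ L j, rho (lo j) (hi j) c (y' j) =
      rho (lo j) (hi j) c (y'' j)) → bandD L lo hi om y y' = bandD L lo hi om y y'' := by
    intro y y' y'' hyy
    unfold bandD
    exact Finset.sum_congr rfl fun j _ => Finset.sum_congr rfl fun c hc => by rw [hyy j c hc]
  intro s hs
  by_cases hx : ∃ x, CrsPt a b h L x ∧ s2 x ≤ s ∧ s ≤ s3 x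
  · obtain ⟨x, hx, hsx⟩ := hx
    have hxX := (hX x).2 hx
    have a1 := H.a1 x hx
    have a2 := H.a2 x hx
    have a3 := H.a3 x hx
    have a4 := H.a4 x hx
    have a5 := H.a5 x hx
    have hfr : ∀ r, s1 x < r → r < s4 x → ¬ (s2 x ≤ r ∧ r ≤ s3 x) →
        ∀ y, CrsPt a b h L y → ¬ (s2 y ≤ r ∧ r ≤ s3 y) := by
      intro r h1 h2 h3 y hy hry
      by_cases hxy : x = y
      · subst hxy; exact h3 hry
      · rcases H.dis x y hx hy hxy with h4 | h4
        · linarith [H.a2 y hy, hry.1]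
        · linarith [H.a4 y hy, hry.2]
    filter_upwards [mem_nhdsWithin_of_mem_nhds (Ioo_mem_nhds (by linarith [hsx.1] : s1 x < s)
      (by linarith [hsx.2] : s < s4 x)), self_mem_nhdsWithin] with s' hs' hs'01
    by_cases hin : s2 x ≤ s' ∧ s' ≤ s3 x
    · refine ⟨fun hle => ?_, fun hle => ?_⟩
      · exact (band_fibre' H hI hun hom hx (haff x hxX) hsx hin hle).trans (hG x hxX s s' hle)
      · exact (band_fibre' H hI hun hom hx (haff x hxX) hin hsx hle).trans (hG x hxX s' s hle)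
    · have hcase : s' < s2 x ∨ s3 x < s' := by
        by_contra hcon
        push Not at hcon
        exact hin hcon
      rcases hcase with hc | hc
      · refine ⟨fun hle => by linarith [hsx.1], fun hle => ?_⟩
        have h1 : ∀ j, ∀ c ∈ L j, rho (lo j) (hi j) c (f (AffineMap.lineMap a b s') j) =
            rho (lo j) (hi j) c (f (AffineMap.lineMap a b (s2 x)) j) := fun j c hcL =>
          band_end H hI hf him (T := Ico s' (s2 x))
            (fun t ht => ⟨hs'01.1.trans ht.1, by linarith [ht.2]⟩) isPreconnected_Ico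
            (fun t ht => hfr t (by linarith [hs'.1, ht.1]) (by linarith [ht.2])
              (fun h5 => by linarith [h5.1, ht.2]))
            (by rw [closure_Ico hc.ne]; exact ⟨hc.le, le_rfl⟩)
            ⟨by linarith, by linarith⟩ ⟨le_rfl, hc⟩ hcL
        show bandD L lo hi om (f (AffineMap.lineMap a b s')) (f (AffineMap.lineMap a b s)) ≤ _
        rw [hcomm, hcongr h1, hcomm]
        refine (band_fibre' H hI hun hom hx (haff x hxX) ⟨le_rfl, a3.le⟩ hsx hsx.1).trans ?_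
        have h2 := hG x hxX s' s hle
        rw [ramp_of_le a3 hc.le] at h2
        rw [ramp_of_le a3 le_rfl]
        exact h2
      · refine ⟨fun hle => ?_, fun hle => by linarith [hsx.2]⟩
        have h1 : ∀ j, ∀ c ∈ L j, rho (lo j) (hi j) c (f (AffineMap.lineMap a b s') j) =
            rho (lo j) (hi j) c (f (AffineMap.lineMap a b (s3 x)) j) := fun j c hcL =>
          band_end H hI hf him (T := Ioc (s3 x) s')
            (fun t ht => ⟨by linarith [ht.1], ht.2.trans hs'01.2⟩) isPreconnected_Ioc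
            (fun t ht => hfr t (by linarith [ht.1]) (by linarith [ht.2, hs'.2])
              (fun h5 => by linarith [h5.2, ht.1]))
            (by rw [closure_Ioc hc.ne]; exact ⟨le_rfl, hc.le⟩)
            ⟨by linarith, by linarith⟩ ⟨hc, le_rfl⟩ hcL
        show bandD L lo hi om (f (AffineMap.lineMap a b s)) (f (AffineMap.lineMap a b s')) ≤ _
        rw [hcongr h1]
        refine (band_fibre' H hI hun hom hx (haff x hxX) hsx ⟨a3.le, le_rfl⟩ hsx.2).trans ?_
        have h2 := hG x hxX s s' hle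
        rw [ramp_of_ge a3 hc.le] at h2
        rw [ramp_of_ge a3 le_rfl]
        exact h2
  · push Not at hx
    have hcl : IsClosed (⋃ x ∈ X, Icc (s2 x) (s3 x)) :=
      X.finite_toSet.isClosed_biUnion fun x _ => isClosed_Icc
    have hns : s ∉ ⋃ x ∈ X, Icc (s2 x) (s3 x) := by
      intro hcon
      obtain ⟨x, hx1, hx2⟩ := mem_iUnion₂.1 hcon
      exact absurd hx2.2 (not_le.2 (hx x ((hX x).1 hx1) hx2.1))
    obtain ⟨r, hr, hball⟩ := Metric.isOpen_iff.1 hcl.isOpen_compl s hns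
    filter_upwards [mem_nhdsWithin_of_mem_nhds (ball_mem_nhds s hr), self_mem_nhdsWithin]
      with s' hs' hs'01
    have h1 : ∀ j, ∀ c ∈ L j, rho (lo j) (hi j) c (f (AffineMap.lineMap a b s) j) =
        rho (lo j) (hi j) c (f (AffineMap.lineMap a b s') j) := by
      intro j c hc
      refine band_free H hI hf him (T := ball s r ∩ Icc 0 1) inter_subset_right
        ((convex_ball s r).inter (convex_Icc 0 1)).isPreconnected (fun t ht x hx1 hx2 => ?_)
        ⟨mem_ball_self hr, hs⟩ ⟨hs', hs'01⟩ hc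
      exact hball ht.1 (mem_iUnion₂.2 ⟨x, (hX x).2 hx1, hx2⟩)
    refine ⟨fun hle => ?_, fun hle => ?_⟩
    · show bandD L lo hi om (f (AffineMap.lineMap a b s)) (f (AffineMap.lineMap a b s')) ≤ _
      rw [hband0 h1]
      exact hG0 s s' hle
    · show bandD L lo hi om (f (AffineMap.lineMap a b s')) (f (AffineMap.lineMap a b s)) ≤ _
      rw [hcomm, hband0 h1]
      exact hG0 s' s hle

omit [NormedAddCommGroup E] [NormedSpace ℝ E] in
/-- the sum of the ramps -/
theorem sum_ramp_le {X : Finset E} {w : ℝ} (hw : 0 ≤ w) {t t' : ℝ} :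
    w * (∑ x ∈ X, ramp (s2 x) (s3 x) t') - w * ∑ x ∈ X, ramp (s2 x) (s3 x) t ≤ w * X.card := by
  have h1 : 0 ≤ w * ∑ x ∈ X, ramp (s2 x) (s3 x) t :=
    mul_nonneg hw (Finset.sum_nonneg fun x _ => ramp_nonneg _ _ _)
  have h2 : w * (∑ x ∈ X, ramp (s2 x) (s3 x) t') ≤ w * X.card := by
    refine mul_le_mul_of_nonneg_left ?_ hw
    calc ∑ x ∈ X, ramp (s2 x) (s3 x) t' ≤ ∑ _x ∈ X, (1 : ℝ) :=
          Finset.sum_le_sum fun x _ => ramp_le_one _ _ _
      _ = X.card := by rw [Finset.sum_const, nsmul_eq_mul, mul_one]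
  linarith

end P073.H761.SE
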