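import Vale.Agent.P073.H761.SEnd4
import Vale.Agent.P073.H761.SEnd6
import Vale.Agent.P073.H761.SEnd8
import Vale.Agent.P073.H880.Met4

/-!
# P073, H761, [SHARP-END], part 9: the final map on the faces and sides in a plate

`PlD`: the data of a plate.  `bandEst_of`: the local estimate of the final map; `disp_le`: the
displacement on a side; `tv_le`: the total variation on an edge in a plate.
-/

open Set Metric Topology Filter
open scoped ENNReal

namespace P073.H761.SE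

open P073 P073.Net P073.PA691 P073.H236 P073.H579 P073.H345 P073.H142 P073.FW31
open Vale.Agent.P073.St (V)
open Vale.Agent.P073.H73 (sqr onSeg)
open Vale.Agent.P073.H471 Vale.Agent.P073.H267

variable {Ω Λ : Set V} {v : V} {K : BoxCx Λ v} {S : Rad K} {W : Wid K S} {B : Boxes W}
  {G : Geo B} {s : K.S} {R : Fac K} {Φ : ConHomeo Λ Λ} {μ : ℝ}

/-- the data of a plate for the last steps -/
structure PlD {G : Geo B} (L : PLev G) (F : Bool → BFam 3 K.S Λ) (T : Bool → ConHomeo Λ Λ)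
    (s : K.S) (om0 e0 θ : ℝ) : Prop where
  ps : PS L F T
  om : ∀ β, stp (L.N s β) (K.slo s (tg s β) + G.a s) (K.shi s (tg s β) - G.a s) = om0
  e0 : ∀ β, (F β).e s ≤ e0
  θ : ∀ β, (F β).e s ≤ θ * L.c s β

variable {L : PLev G} {F : Bool → BFam 3 K.S Λ} {T : Bool → ConHomeo Λ Λ} {om0 e0 θ : ℝ}
  {y y' : V}

namespace PlD

variable (H : PlD L F T s om0 e0 θ)

include H

theorem pls : PlS F T s (K.nrm s) (L.kP s) (L.lv s) (L.loP s) (L.hiP s) (L.omP s) om0 e0 θ :=
  pls_of H.ps.B H.ps.isS H.om H.e0 H.θ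

theorem prd (hy : y ∈ G.PB (7 / 8) s) : Prd F T s (K.nrm s) y := prd_PB H.ps.B H.ps.isS hy

theorem om0_pos : 0 < om0 := by
  rw [← H.om true]
  exact stp_pos (L.bx true s)

theorem θ_nonneg : 0 ≤ θ := by
  have h1 := H.θ true
  have h2 := (F true).he s
  have h3 := (L.lvs s true).c0
  by_contra hcon
  push Not at hcon
  have : θ * L.c s true < 0 := mul_neg_of_neg_of_pos hcon h3
  linarith

/-- the clamped coordinates -/
theorem cw_le (hy : y ∈ G.PB (7 / 8) s) (hy' : y' ∈ G.PB (7 / 8) s) {j : Fin 3}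
    (hj : j ≠ K.nrm s) :
    |cw (wlo G s) (whi G s) j (PS.map T y) - cw (wlo G s) (whi G s) j (PS.map T y')| ≤
      bandJ (L.lv s) (L.loP s) (L.hiP s) (L.omP s) j y y' + θ * ‖y - y'‖ := by
  have h1 := H.pls.lipW (al_eq H.ps.B) (be_eq H.ps.B) (H.prd hy) (H.prd hy') hj
  have h2 := abs_apply_le (y - y') j
  rw [Pi.sub_apply] at h2
  exact h1.trans (add_le_add_right (mul_le_mul_of_nonneg_left h2 H.θ_nonneg) _)

theorem band_comm (j : Fin 3) (y y' : V) :
    bandJ (L.lv s) (L.loP s) (L.hiP s) (L.omP s) j y y' =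
      bandJ (L.lv s) (L.loP s) (L.hiP s) (L.omP s) j y' y :=
  Finset.sum_congr rfl fun c _ => by rw [abs_sub_comm]

/-- the sum of the tangential displacements -/
theorem sd_le (hy : y ∈ G.PB (7 / 8) s) (hy' : y' ∈ G.PB (7 / 8) s) :
    sd G s (PS.map T y) (PS.map T y') ≤
      ∑ i ∈ Finset.univ.erase (K.nrm s), bandJ (L.lv s) (L.loP s) (L.hiP s) (L.omP s) i y' y +
        2 * (θ * ‖y' - y‖) := by
  have h1 : sd G s (PS.map T y) (PS.map T y') ≤ ∑ i ∈ Finset.univ.erase (K.nrm s),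
      (bandJ (L.lv s) (L.loP s) (L.hiP s) (L.omP s) i y' y + θ * ‖y' - y‖) :=
    Finset.sum_le_sum fun i hi => H.cw_le hy' hy (Finset.ne_of_mem_erase hi)
  rw [Finset.sum_add_distrib, Finset.sum_const, card_erase, nsmul_eq_mul] at h1
  exact_mod_cast h1

theorem band_sum (y y' : V) :
    ∑ i ∈ Finset.univ.erase (K.nrm s), bandJ (L.lv s) (L.loP s) (L.hiP s) (L.omP s) i y y' =
      bandD (L.lv s) (L.loP s) (L.hiP s) (L.omP s) y y' := by
  rw [bandD_eq, ← Finset.sum_erase_add _ _ (Finset.mem_univ (K.nrm s))]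
  have h0 : bandJ (L.lv s) (L.loP s) (L.hiP s) (L.omP s) (K.nrm s) y y' = 0 := by
    unfold bandJ
    rw [L.lv_nrm s]
    rfl
  rw [h0, add_zero]

/-- **the local estimate of the final map** -/
theorem bandEst_of (HΦ : IsSoft1 B μ R Φ) (hμ : 0 ≤ μ) {α : Type*} {A : α → Set V}
    {N t : α → ℝ} {h3 : V → V} (HS : Small W R (fun x => PS.map T (h3 x)) A N t) {k : α}
    {a : V} {σ : ℝ} (hX : sqr a (K.nrm s) σ ⊆ A k)
    (hf : ContinuousOn (fun x => PS.map T (h3 x)) (sqr a (K.nrm s) σ))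
    (hpos : ∀ x ∈ sqr a (K.nrm s) σ, h3 x ∈ G.PB (7 / 8) s ∧
      |h3 x (K.nrm s) - K.slo s (K.nrm s)| < B.τ s) {Lam : ℝ}
    (hLam : ∀ x ∈ sqr a (K.nrm s) σ, ∀ y ∈ sqr a (K.nrm s) σ,
      ‖h3 x - h3 y‖ ≤ Lam * ‖x - y‖) (ht : 0 ≤ t k) :
    BandEst a (K.nrm s) σ (L.lv s) (L.loP s) (L.hiP s) (L.omP s) μ
      ((1 + 2 * μ) * (θ * Lam) + t k) h3 (fun x => Φ.toFun (PS.map T (h3 x))) := by
  have hθ := H.θ_nonneg
  intro x hx
  have hloc := soft_face (G := G) (s := s) HΦ hμ HS (c := 7 / 8) (by norm_num) hX hf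
    (fun x hx => ⟨H.ps.mem_PB (hpos x hx).1, by
      rw [H.ps.nrm (hpos x hx).1]; exact (hpos x hx).2⟩) ht hx
  filter_upwards [hloc, self_mem_nhdsWithin] with x' h1 hx'
  have hP := (hpos x hx).1
  have hP' := (hpos x' hx').1
  have hL := hLam x' hx' x hx
  have hθL : θ * ‖h3 x' - h3 x‖ ≤ θ * Lam * ‖x' - x‖ := by
    have := mul_le_mul_of_nonneg_left hL hθ
    linarith
  have hsd := H.sd_le hP hP'
  have hsd' : μ * sd G s (PS.map T (h3 x)) (PS.map T (h3 x')) ≤
      μ * ∑ i ∈ Finset.univ.erase (K.nrm s),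
        bandJ (L.lv s) (L.loP s) (L.hiP s) (L.omP s) i (h3 x') (h3 x) +
      μ * (2 * (θ * Lam * ‖x' - x‖)) := by
    rw [← mul_add]
    refine mul_le_mul_of_nonneg_left (hsd.trans ?_) hμ
    linarith
  have habs : ∀ j, |Φ.toFun (PS.map T (h3 x')) j - Φ.toFun (PS.map T (h3 x)) j| ≤
      (if j = K.nrm s then 0 else |cw (wlo G s) (whi G s) j (PS.map T (h3 x')) -
        cw (wlo G s) (whi G s) j (PS.map T (h3 x))|) +
      μ * sd G s (PS.map T (h3 x)) (PS.map T (h3 x')) + t k * ‖x' - x‖ := by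
    intro j
    obtain ⟨h2, h3'⟩ := h1 j
    have h4 := mx_le G s j (PS.map T (h3 x)) (PS.map T (h3 x'))
    have h5 := mx_le G s j (PS.map T (h3 x')) (PS.map T (h3 x))
    rw [abs_sub_comm (cw _ _ _ (PS.map T (h3 x)))] at h5
    rw [abs_le]
    constructor <;> linarith
  refine ⟨fun j hj => ?_, ?_⟩
  · have h2 := habs j
    rw [if_neg hj] at h2
    have h4 := H.cw_le hP' hP hj
    have e : ((1 + 2 * μ) * (θ * Lam) + t k) * ‖x' - x‖ =
        θ * Lam * ‖x' - x‖ + μ * (2 * (θ * Lam * ‖x' - x‖)) + t k * ‖x' - x‖ := by ring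
    rw [e]
    linarith
  · have h2 := habs (K.nrm s)
    rw [if_pos rfl] at h2
    have e : ((1 + 2 * μ) * (θ * Lam) + t k) * ‖x' - x‖ =
        θ * Lam * ‖x' - x‖ + μ * (2 * (θ * Lam * ‖x' - x‖)) + t k * ‖x' - x‖ := by ring
    rw [e]
    have h5 : 0 ≤ θ * Lam * ‖x' - x‖ := by
      have := norm_nonneg (h3 x' - h3 x)
      have h6 := mul_nonneg hθ this
      linarith
    linarith

section side

variable {α : Type*} {A : α → Set V} {N t : α → ℝ} {h3 : V → V} {k : α} {p q : V} {Lam : ℝ}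
  {ι : Type*} {X : Finset ι} {s2 s3 : ι → ℝ}

/-- the increments on a side -/
theorem side_loc (HΦ : IsSoft1 B μ R Φ) (hμ : 0 ≤ μ)
    (HS : Small W R (fun x => PS.map T (h3 x)) A N t) (hX : segment ℝ p q ⊆ A k)
    (hf : ContinuousOn (fun x => PS.map T (h3 x)) (segment ℝ p q))
    (hpos : ∀ x ∈ segment ℝ p q, h3 x ∈ G.PB (7 / 8) s ∧
      |h3 x (K.nrm s) - K.slo s (K.nrm s)| < B.τ s)
    (hLam : ∀ x ∈ segment ℝ p q, ∀ y ∈ segment ℝ p q, ‖h3 x - h3 y‖ ≤ Lam * ‖x - y‖)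
    (ht : 0 ≤ t k)
    (hR : ∀ r ∈ Icc (0:ℝ) 1, ∀ r' ∈ Icc (0:ℝ) 1, r ≤ r' →
      bandD (L.lv s) (L.loP s) (L.hiP s) (L.omP s) (h3 (AffineMap.lineMap p q r))
        (h3 (AffineMap.lineMap p q r')) ≤
      om0 * (∑ x ∈ X, ramp (s2 x) (s3 x) r') - om0 * ∑ x ∈ X, ramp (s2 x) (s3 x) r)
    {r : ℝ} (hr : r ∈ Icc (0:ℝ) 1) :
    ∀ᶠ r' in 𝓝[Icc 0 1] r,
      (r ≤ r' → (sd G s (PS.map T (h3 (AffineMap.lineMap p q r)))
          (PS.map T (h3 (AffineMap.lineMap p q r'))) ≤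
          om0 * (∑ x ∈ X, ramp (s2 x) (s3 x) r') - om0 * (∑ x ∈ X, ramp (s2 x) (s3 x) r) +
            2 * (θ * Lam * ‖q - p‖) * (r' - r)) ∧
        ∀ j, Φ.toFun (PS.map T (h3 (AffineMap.lineMap p q r'))) j -
            Φ.toFun (PS.map T (h3 (AffineMap.lineMap p q r))) j ≤
          mx G s j (PS.map T (h3 (AffineMap.lineMap p q r)))
            (PS.map T (h3 (AffineMap.lineMap p q r'))) +
          μ * sd G s (PS.map T (h3 (AffineMap.lineMap p q r)))
            (PS.map T (h3 (AffineMap.lineMap p q r'))) + t k * ‖q - p‖ * (r' - r) ∧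
          Φ.toFun (PS.map T (h3 (AffineMap.lineMap p q r))) j -
            Φ.toFun (PS.map T (h3 (AffineMap.lineMap p q r'))) j ≤
          mx G s j (PS.map T (h3 (AffineMap.lineMap p q r')))
            (PS.map T (h3 (AffineMap.lineMap p q r))) +
          μ * sd G s (PS.map T (h3 (AffineMap.lineMap p q r)))
            (PS.map T (h3 (AffineMap.lineMap p q r'))) + t k * ‖q - p‖ * (r' - r)) ∧
      (r' ≤ r → (sd G s (PS.map T (h3 (AffineMap.lineMap p q r')))
          (PS.map T (h3 (AffineMap.lineMap p q r))) ≤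
          om0 * (∑ x ∈ X, ramp (s2 x) (s3 x) r) - om0 * (∑ x ∈ X, ramp (s2 x) (s3 x) r') +
            2 * (θ * Lam * ‖q - p‖) * (r - r')) ∧
        ∀ j, Φ.toFun (PS.map T (h3 (AffineMap.lineMap p q r))) j -
            Φ.toFun (PS.map T (h3 (AffineMap.lineMap p q r'))) j ≤
          mx G s j (PS.map T (h3 (AffineMap.lineMap p q r')))
            (PS.map T (h3 (AffineMap.lineMap p q r))) +
          μ * sd G s (PS.map T (h3 (AffineMap.lineMap p q r')))
            (PS.map T (h3 (AffineMap.lineMap p q r))) + t k * ‖q - p‖ * (r - r') ∧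
          Φ.toFun (PS.map T (h3 (AffineMap.lineMap p q r'))) j -
            Φ.toFun (PS.map T (h3 (AffineMap.lineMap p q r))) j ≤
          mx G s j (PS.map T (h3 (AffineMap.lineMap p q r)))
            (PS.map T (h3 (AffineMap.lineMap p q r'))) +
          μ * sd G s (PS.map T (h3 (AffineMap.lineMap p q r')))
            (PS.map T (h3 (AffineMap.lineMap p q r))) + t k * ‖q - p‖ * (r - r')) := by
  have hθ := H.θ_nonneg
  have hm : ∀ r ∈ Icc (0:ℝ) 1, AffineMap.lineMap p q r ∈ segment ℝ p q := fun r hr =>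
    lineMap_mem_segment' hr
  have hloc := soft_face (G := G) (s := s) HΦ hμ HS (c := 7 / 8) (by norm_num) hX hf
    (fun x hx => ⟨H.ps.mem_PB (hpos x hx).1, by
      rw [H.ps.nrm (hpos x hx).1]; exact (hpos x hx).2⟩) ht (hm r hr)
  have htend : Tendsto (fun r : ℝ => AffineMap.lineMap p q r) (𝓝[Icc 0 1] r)
      (𝓝[segment ℝ p q] (AffineMap.lineMap p q r)) :=
    tendsto_nhdsWithin_of_tendsto_nhds_of_eventually_within _
      ((AffineMap.lineMap_continuous.tendsto r).mono_left nhdsWithin_le_nhds)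
      (by filter_upwards [self_mem_nhdsWithin] with r' hr'; exact hm r' hr')
  have hnorm : ∀ r r' : ℝ, ‖(AffineMap.lineMap p q r' : V) - AffineMap.lineMap p q r‖ =
      ‖q - p‖ * |r' - r| := by
    intro r r'
    have e : (AffineMap.lineMap p q r' : V) - AffineMap.lineMap p q r = (r' - r) • (q - p) := by
      rw [AffineMap.lineMap_apply_module', AffineMap.lineMap_apply_module', add_sub_add_right_eq_sub,
        ← sub_smul]
    rw [e, norm_smul, Real.norm_eq_abs, mul_comm]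
  have key : ∀ r ∈ Icc (0:ℝ) 1, ∀ r' ∈ Icc (0:ℝ) 1, r ≤ r' →
      sd G s (PS.map T (h3 (AffineMap.lineMap p q r)))
          (PS.map T (h3 (AffineMap.lineMap p q r'))) ≤
          om0 * (∑ x ∈ X, ramp (s2 x) (s3 x) r') - om0 * (∑ x ∈ X, ramp (s2 x) (s3 x) r) +
            2 * (θ * Lam * ‖q - p‖) * (r' - r) := by
    intro r hr r' hr' hrr
    have h1 := H.sd_le (hpos _ (hm r hr)).1 (hpos _ (hm r' hr')).1
    rw [H.band_sum] at h1
    have h2 := hR r hr r' hr' hrr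
    have h3' : bandD (L.lv s) (L.loP s) (L.hiP s) (L.omP s) (h3 (AffineMap.lineMap p q r'))
        (h3 (AffineMap.lineMap p q r)) = bandD (L.lv s) (L.loP s) (L.hiP s) (L.omP s)
          (h3 (AffineMap.lineMap p q r)) (h3 (AffineMap.lineMap p q r')) := by
      unfold bandD
      exact Finset.sum_congr rfl fun j _ => Finset.sum_congr rfl fun c _ => by rw [abs_sub_comm]
    rw [h3'] at h1
    have h4 := hLam _ (hm r' hr') _ (hm r hr)
    rw [hnorm, abs_of_nonneg (by linarith : (0:ℝ) ≤ r' - r)] at h4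
    have h5 := mul_le_mul_of_nonneg_left h4 hθ
    have e : 2 * (θ * Lam * ‖q - p‖) * (r' - r) = 2 * (θ * (Lam * (‖q - p‖ * (r' - r)))) := by
      ring
    rw [e]
    linarith
  filter_upwards [htend hloc, self_mem_nhdsWithin] with r' h1 hr'
  refine ⟨fun hle => ⟨key r hr r' hr' hle, fun j => ?_⟩,
    fun hle => ⟨key r' hr' r hr hle, fun j => ?_⟩⟩
  · obtain ⟨h2, h4⟩ := h1 j
    rw [hnorm, abs_of_nonneg (by linarith : (0:ℝ) ≤ r' - r), ← mul_assoc] at h2 h4
    exact ⟨h2, h4⟩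
  · obtain ⟨h2, h4⟩ := h1 j
    rw [hnorm, abs_of_nonpos (by linarith : r' - r ≤ 0), ← mul_assoc, neg_sub, sd_comm] at h2 h4
    exact ⟨h4, h2⟩

end side

end PlD

end P073.H761.SE
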