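import Vale.Agent.P073.H761.GenFam
import Vale.Agent.P073.H696.BSpec
import Vale.Agent.P073.H705.Sqz
import Vale.Agent.P073.H107.Plates
import Vale.Agent.P073.H194.Usc
import Vale.Agent.P073.H83.SqRel

/-!
# P073, block H761, [SEG-B]: short segments on all fine faces

`φ j → f` in `W^{1,q}` on `R`, `2 < q ≤ p`, `f ∈ W^{1,p}`, `3 ≤ p`: for a generic origin `v` all
points of the faces of generation `nn l` in `R` are joined with the boundary of the face by a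
segment of small `φ j`-length, for `l` large and `j ≥ j₀ l`.
-/

open Set Metric Topology Filter MeasureTheory
open scoped ENNReal NNReal

namespace Vale.Agent.P073.H761

open Vale.Agent.P073.AB (Idx pt edge eInt squ cl)
open Vale.Agent.P073.St (V Mat)
open _root_.P073 (ConHomeo)
open _root_.P073.Net (dyc dyo len euc_le edist_toLp eVariationOn_le_add len_congr)
open Vale.Agent.P073.H194
open Vale.Agent.P073.H73 (onSeg)
open Vale.Agent.P073.SQ (ev)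

/-- **[MORREY-SEG]** (helper83) -/
def MorreySeg (q : ℝ) : Prop :=
  ∃ C : ℝ, 0 < C ∧ ∀ (v : V) (s : Idx × Fin 3) (φ : V → V) (K : ℝ≥0),
    LipschitzOnWith K φ (squ v s) → ∀ x ∈ squ v s, ∃ y ∈ intrinsicFrontier ℝ (squ v s),
      len (onSeg φ (x, y)) (Icc 0 1) ≤ ENNReal.ofReal (C * (1 / 2 ^ s.1.1) ^ (1 - 2 / q)) *
        (sInt v s (fun z => ∑ j ∈ Finset.univ.erase s.2, ‖lineDeriv ℝ φ z (ev j)‖ₑ ^ q)) ^ (1 / q)

/-! ### Hölder on a square -/

/-- Jensen for a measure of finite mass -/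
theorem lintegral_rpow_le_mass {α : Type*} [MeasurableSpace α] {μ : Measure α} {r : ℝ}
    (hr : 1 ≤ r) (g : α → ℝ≥0∞) :
    (∫⁻ t, g t ∂μ) ^ r ≤ μ univ ^ (r - 1) * ∫⁻ t, g t ^ r ∂μ := by
  obtain ⟨φ, hφ, hle, he⟩ := exists_measurable_le_lintegral_eq μ g
  rw [he]
  have h2 : ∫⁻ t, φ t ^ r ∂μ ≤ ∫⁻ t, g t ^ r ∂μ :=
    lintegral_mono fun t => ENNReal.rpow_le_rpow (hle t) (by linarith)
  refine le_trans ?_ (mul_le_mul_right h2 _)
  rcases eq_or_lt_of_le hr with h1 | h1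
  · rw [← h1]
    simp
  · have hpq : r.HolderConjugate (r / (r - 1)) := Real.HolderConjugate.conjExponent h1
    have h3 := ENNReal.lintegral_mul_le_Lp_mul_Lq μ hpq
      hφ.aemeasurable (aemeasurable_const (b := (1:ℝ≥0∞)))
    simp only [Pi.mul_apply, mul_one, ENNReal.one_rpow, lintegral_const] at h3
    have h4 := ENNReal.rpow_le_rpow h3 (by linarith : (0:ℝ) ≤ r)
    rw [ENNReal.mul_rpow_of_nonneg _ _ (by linarith), ← ENNReal.rpow_mul, one_div,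
      inv_mul_cancel₀ (by linarith), ENNReal.rpow_one, one_mul, ← ENNReal.rpow_mul] at h4
    rw [mul_comm]
    refine h4.trans (le_of_eq ?_)
    congr 2
    field_simp

/-- Hölder on a square -/
theorem sInt_rpow_le {r : ℝ} (hr : 1 ≤ r) (v : V) (s : Idx × Fin 3) (g : V → ℝ≥0∞) :
    sInt v s g ^ r ≤ ENNReal.ofReal (((1 / 2 ^ s.1.1) ^ 2) ^ (r - 1)) *
      sInt v s (fun x => g x ^ r) := by
  have h0 : (0:ℝ) < 1 / 2 ^ s.1.1 := by positivity
  have h2 : (2:ℝ≥0∞) ^ s.1.1 = ENNReal.ofReal (2 ^ s.1.1) := by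
    rw [ENNReal.ofReal_pow (by norm_num)]; norm_num
  have hvol : volume (dyc v s.1.1 s.1.2) = ENNReal.ofReal ((1 / 2 ^ s.1.1) ^ 3) := by
    rw [H989.volume_dyc]
  unfold sInt
  rw [ENNReal.mul_rpow_of_nonneg _ _ (by linarith)]
  have h3 := lintegral_rpow_le_mass (μ := volume.restrict (dyc v s.1.1 s.1.2)) hr
    (fun x => g (Function.update x s.2 (pt v s.1.1 s.1.2 s.2)))
  rw [Measure.restrict_apply_univ, hvol] at h3
  refine (mul_le_mul_right h3 _).trans (le_of_eq ?_)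
  rw [h2, ENNReal.ofReal_rpow_of_pos (by positivity), ENNReal.ofReal_rpow_of_pos (by positivity),
    ← mul_assoc, ← mul_assoc, ← ENNReal.ofReal_mul (by positivity),
    ← ENNReal.ofReal_mul (by positivity)]
  congr 2
  have e1 : (2 ^ s.1.1 : ℝ) = (1 / 2 ^ s.1.1)⁻¹ := by rw [one_div, inv_inv]
  set σ : ℝ := 1 / 2 ^ s.1.1 with hσ
  rw [e1, Real.inv_rpow h0.le, ← Real.rpow_natCast σ 3, ← Real.rpow_natCast σ 2,
    ← Real.rpow_mul h0.le, ← Real.rpow_mul h0.le, ← Real.rpow_neg h0.le, ← Real.rpow_neg_one σ,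
    ← Real.rpow_add h0, ← Real.rpow_add h0]
  congr 1
  push_cast
  ring

/-- Hölder and the scaling of the Morrey estimate: the part of `f` -/
theorem scale_le {p q : ℝ} (hq : 2 < q) (hqp : q ≤ p) (hp : 3 ≤ p) (v : V) (s : Idx × Fin 3)
    (g : V → ℝ≥0∞) :
    ENNReal.ofReal ((1 / 2 ^ s.1.1) ^ (1 - 2 / q)) * (sInt v s fun x => g x ^ q) ^ (1 / q) ≤
      (ENNReal.ofReal (1 / 2 ^ s.1.1) * sInt v s fun x => g x ^ p) ^ (1 / p) := by
  have hq0 : 0 < q := by linarith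
  have hp0 : 0 < p := by linarith
  have h0 : (0:ℝ) < 1 / 2 ^ s.1.1 := by positivity
  have h01 : (1 / 2 ^ s.1.1 : ℝ) ≤ 1 := by
    rw [div_le_one (by positivity)]
    exact one_le_pow₀ (by norm_num)
  set σ : ℝ := 1 / 2 ^ s.1.1 with hσ
  have hr : 1 ≤ p / q := by rwa [le_div_iff₀ hq0, one_mul]
  have h1 := sInt_rpow_le hr v s fun x => g x ^ q
  simp_rw [← ENNReal.rpow_mul] at h1
  rw [show q * (p / q) = p by field_simp] at h1
  have h2 : (sInt v s fun x => g x ^ q) ^ (1 / q) ≤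
      (ENNReal.ofReal ((σ ^ 2) ^ (p / q - 1)) * sInt v s fun x => g x ^ p) ^ (1 / p) := by
    have h3 := ENNReal.rpow_le_rpow h1 (by positivity : 0 ≤ 1 / p)
    rw [← ENNReal.rpow_mul, show p / q * (1 / p) = 1 / q by field_simp] at h3
    exact h3
  refine (mul_le_mul_right h2 _).trans ?_
  have h4 : ENNReal.ofReal (σ ^ (1 - 2 / q)) = ENNReal.ofReal (σ ^ (p * (1 - 2 / q))) ^ (1 / p) := by
    rw [ENNReal.ofReal_rpow_of_pos (by positivity), ← Real.rpow_mul h0.le]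
    congr 2
    field_simp
  rw [h4, ← ENNReal.mul_rpow_of_nonneg _ _ (by positivity), ← mul_assoc,
    ← ENNReal.ofReal_mul (by positivity)]
  gcongr
  rw [← Real.rpow_natCast σ 2, ← Real.rpow_mul h0.le, ← Real.rpow_add h0]
  have h5 : p * (1 - 2 / q) + (2:ℕ) * (p / q - 1) = p - 2 := by
    push_cast
    field_simp
    ring
  rw [h5]
  calc σ ^ (p - 2) ≤ σ ^ (1:ℝ) := Real.rpow_le_rpow_of_exponent_ge h0 h01 (by linarith)
    _ = σ := Real.rpow_one σ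

/-! ### Finitely many squares -/

theorem finite_squ (v : V) (n : ℕ) {R : Set V} (hR : Bornology.IsBounded R) :
    {s : Idx × Fin 3 | s.1.1 = n ∧ squ v s ⊆ R}.Finite := by
  obtain ⟨r, hr⟩ := hR.subset_closedBall (0:V)
  set B : ℤ := ⌈2 ^ n * (r + ‖v‖)⌉ with hB
  have hfin : (Set.pi univ fun _ : Fin 3 => Icc (-B) B : Set (Fin 3 → ℤ)).Finite :=
    Set.Finite.pi fun _ => finite_Icc _ _
  refine ((hfin.image fun z => ((n, z) : Idx)).prod (finite_univ (α := Fin 3))).subset ?_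
  rintro ⟨⟨m, z⟩, k⟩ ⟨hm, hs⟩
  simp only at hm
  subst hm
  refine ⟨⟨z, fun i _ => ?_, rfl⟩, mem_univ _⟩
  have h1 : pt v m z ∈ squ v ((m, z), k) := by
    refine ⟨rfl, fun i _ => ⟨le_rfl, ?_⟩⟩
    show v i + z i / 2 ^ m ≤ _
    gcongr
    simp
  have h2 := hr (hs h1)
  rw [mem_closedBall, dist_zero_right] at h2
  have h3 := (norm_le_pi_norm (pt v m z) i).trans h2
  have h4 := norm_le_pi_norm v i
  have h5 : |(z i : ℝ) / 2 ^ m| ≤ r + ‖v‖ := by
    have e : (z i : ℝ) / 2 ^ m = pt v m z i - v i := by simp [pt]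
    rw [e]
    exact (abs_sub _ _).trans (add_le_add h3 h4)
  rw [abs_div, abs_of_pos (by positivity : (0:ℝ) < 2 ^ m), div_le_iff₀ (by positivity)] at h5
  have h6 : |(z i : ℝ)| ≤ B := by
    refine h5.trans ?_
    rw [mul_comm]
    exact Int.le_ceil _
  rw [abs_le] at h6
  exact ⟨by exact_mod_cast h6.1, by exact_mod_cast h6.2⟩

/-! ### The estimate on one square -/

/-- the directional derivatives on the square -/
theorem sInt_line_le {q : ℝ} (hq : 1 ≤ q) {v : V} {s : Idx × Fin 3} {φ : V → V}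
    (hφ : ∀ z ∈ squ v s, DifferentiableAt ℝ φ z) :
    sInt v s (fun z => ∑ j ∈ Finset.univ.erase s.2, ‖lineDeriv ℝ φ z (ev j)‖ₑ ^ q) ≤
      2 * sInt v s fun z => ‖fderiv ℝ φ z‖ₑ ^ q := by
  have h1 : ∀ z ∈ squ v s, ∑ j ∈ Finset.univ.erase s.2, ‖lineDeriv ℝ φ z (ev j)‖ₑ ^ q ≤
      2 * ‖fderiv ℝ φ z‖ₑ ^ q := by
    intro z hz
    have h2 : ∀ j ∈ Finset.univ.erase s.2, ‖lineDeriv ℝ φ z (ev j)‖ₑ ^ q ≤
        ‖fderiv ℝ φ z‖ₑ ^ q := by
      intro j _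
      rw [(hφ z hz).lineDeriv_eq_fderiv]
      gcongr
      have h3 := (fderiv ℝ φ z).le_opNorm (ev j)
      rw [H705.norm_ev, mul_one] at h3
      exact enorm_le_iff_norm_le.2 h3
    refine (Finset.sum_le_card_nsmul _ _ _ h2).trans (le_of_eq ?_)
    rw [Finset.card_erase_of_mem (Finset.mem_univ _)]
    simp
  refine (sInt_mono h1).trans (le_of_eq ?_)
  unfold sInt
  rw [lintegral_const_mul' _ _ (by norm_num)]
  ring

/-- the estimate on one square -/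
theorem seg_one {p q : ℝ} (hq : 2 < q) (hqp : q ≤ p) (hp : 3 ≤ p) {C : ℝ} (hC : 0 < C)
    (hM : ∀ (v : V) (s : Idx × Fin 3) (φ : V → V) (K : ℝ≥0),
      LipschitzOnWith K φ (squ v s) → ∀ x ∈ squ v s, ∃ y ∈ intrinsicFrontier ℝ (squ v s),
      len (onSeg φ (x, y)) (Icc 0 1) ≤ ENNReal.ofReal (C * (1 / 2 ^ s.1.1) ^ (1 - 2 / q)) *
        (sInt v s (fun z => ∑ j ∈ Finset.univ.erase s.2, ‖lineDeriv ℝ φ z (ev j)‖ₑ ^ q)) ^ (1 / q))
    {Ω R : Set V} (hRΩ : R ⊆ Ω) {F : V → Mat} {v : V} {φ : ℕ → V → V}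
    (hnet : NetConv q v R (fun j => fderiv ℝ (φ j)) fun x => cl (F x)) {j : ℕ}
    {s : Idx × Fin 3} (hs : squ v s ⊆ R)
    (hφ : sInt v s (fun z => ∑ i ∈ Finset.univ.erase s.2, ‖lineDeriv ℝ (φ j) z (ev i)‖ₑ ^ q) ≤
      2 * sInt v s fun z => ‖fderiv ℝ (φ j) z‖ₑ ^ q)
    {K : ℝ≥0} (hK : LipschitzOnWith K (φ j) (squ v s)) {a : V} (ha : a ∈ squ v s) :
    ∃ b ∈ intrinsicFrontier ℝ (squ v s), len (onSeg (φ j) (a, b)) (Icc 0 1) ≤
      ENNReal.ofReal C * 2 *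
        ((ENNReal.ofReal (1 / 2 ^ s.1.1) * sInt v s (H696.HF p Ω F)) ^ (1 / p) +
        (sInt v s fun x => ‖fderiv ℝ (φ j) x - cl (F x)‖ₑ ^ q) ^ (1 / q)) := by
  have hq0 : 0 < q := by linarith
  have h0 : (0:ℝ) < 1 / 2 ^ s.1.1 := by positivity
  have h01 : (1 / 2 ^ s.1.1 : ℝ) ≤ 1 := by
    rw [div_le_one (by positivity)]
    exact one_le_pow₀ (by norm_num)
  obtain ⟨b, hb, h1⟩ := hM v s (φ j) K hK a ha
  refine ⟨b, hb, h1.trans ?_⟩
  set σ : ℝ := 1 / 2 ^ s.1.1 with hσ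
  set B₁ : ℝ≥0∞ := sInt v s fun x => ‖cl (F x)‖ₑ ^ q with hB₁
  set B₂ : ℝ≥0∞ := sInt v s fun x => ‖fderiv ℝ (φ j) x - cl (F x)‖ₑ ^ q with hB₂
  have h2 : sInt v s (fun z => ∑ i ∈ Finset.univ.erase s.2, ‖lineDeriv ℝ (φ j) z (ev i)‖ₑ ^ q) ≤
      2 ^ q * (B₁ + B₂) := by
    refine hφ.trans ?_
    refine (mul_le_mul_right (hnet.tri_in hs j) _).trans (le_of_eq ?_)
    rw [← mul_assoc]
    congr 1
    conv_lhs => rw [← ENNReal.rpow_one 2, ← ENNReal.rpow_mul, ← ENNReal.rpow_add _ _ (by norm_num)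
      (by norm_num)]
    congr 1
    ring
  have h3 : (sInt v s fun z => ∑ i ∈ Finset.univ.erase s.2,
      ‖lineDeriv ℝ (φ j) z (ev i)‖ₑ ^ q) ^ (1 / q) ≤ 2 * (B₁ ^ (1 / q) + B₂ ^ (1 / q)) := by
    refine (ENNReal.rpow_le_rpow h2 (by positivity)).trans ?_
    rw [ENNReal.mul_rpow_of_nonneg _ _ (by positivity), ← ENNReal.rpow_mul,
      show q * (1 / q) = 1 by field_simp, ENNReal.rpow_one]
    refine mul_le_mul_right ?_ _
    refine ENNReal.rpow_add_le_add_rpow _ _ (by positivity) ?_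
    rw [div_le_one hq0]
    linarith
  have h4 : ENNReal.ofReal (σ ^ (1 - 2 / q)) * B₁ ^ (1 / q) ≤
      (ENNReal.ofReal σ * sInt v s (H696.HF p Ω F)) ^ (1 / p) := by
    have h5 := scale_le hq hqp hp v s fun x => ‖cl (F x)‖ₑ
    have h6 : sInt v s (H696.HF p Ω F) = sInt v s fun x => ‖cl (F x)‖ₑ ^ p := by
      refine H194.sInt_congr fun x hx => ?_
      rw [H696.HF, indicator_of_mem (hRΩ (hs hx))]
    rw [h6]
    exact h5
  have h5 : ENNReal.ofReal (σ ^ (1 - 2 / q)) ≤ 1 := by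
    rw [ENNReal.ofReal_le_one]
    refine Real.rpow_le_one h0.le h01 ?_
    rw [sub_nonneg, div_le_one hq0]
    exact hq.le
  rw [ENNReal.ofReal_mul hC.le, mul_assoc, mul_assoc]
  refine mul_le_mul_right ?_ _
  calc ENNReal.ofReal (σ ^ (1 - 2 / q)) * (sInt v s fun z => ∑ i ∈ Finset.univ.erase s.2,
        ‖lineDeriv ℝ (φ j) z (ev i)‖ₑ ^ q) ^ (1 / q)
      ≤ ENNReal.ofReal (σ ^ (1 - 2 / q)) * (2 * (B₁ ^ (1 / q) + B₂ ^ (1 / q))) :=
        mul_le_mul_right h3 _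
    _ = 2 * (ENNReal.ofReal (σ ^ (1 - 2 / q)) * B₁ ^ (1 / q) +
        ENNReal.ofReal (σ ^ (1 - 2 / q)) * B₂ ^ (1 / q)) := by ring
    _ ≤ 2 * ((ENNReal.ofReal σ * sInt v s (H696.HF p Ω F)) ^ (1 / p) + B₂ ^ (1 / q)) := by
        refine mul_le_mul_right (add_le_add h4 ?_) _
        calc ENNReal.ofReal (σ ^ (1 - 2 / q)) * B₂ ^ (1 / q) ≤ 1 * B₂ ^ (1 / q) :=
              mul_le_mul_left h5 _
          _ = _ := one_mul _

/-- a `C¹` map is Lipschitz on the squares -/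
theorem exists_lip_squ {R : Set V} (hR : IsOpen R) {φ : V → V} (hφ : ContDiffOn ℝ 1 φ R) {v : V}
    {s : Idx × Fin 3} (hs : squ v s ⊆ R) : ∃ K : ℝ≥0, LipschitzOnWith K φ (squ v s) := by
  have hc : IsCompact (squ v s) := H83.isCompact_squ' v s
  refine LocallyLipschitzOn.exists_lipschitzOnWith_of_compact hc ?_
  intro x hx
  obtain ⟨K, t, ht, hK⟩ := (hφ.contDiffAt (hR.mem_nhds (hs hx))).exists_lipschitzOnWith
  exact ⟨K, t, mem_nhdsWithin_of_mem_nhds ht, hK⟩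

/-- **[SEG-B]** short segments on all faces of generation `nn l` in `R`, for `l` large and
`j` large, general form -/
theorem seg_b' {p q : ℝ} (hM : MorreySeg q) (hq : 2 < q) (hqp : q ≤ p) (hp : 3 ≤ p)
    {Ω R : Set V} (hRb : Bornology.IsBounded R) (hRΩ : R ⊆ Ω) {F : V → Mat}
    {v : V} {nn : ℕ → ℕ}
    (hsup : Tendsto (fun l => supS (nn l) (H696.HF p Ω F) v) atTop (𝓝 0)) {φ : ℕ → V → V}
    (hφ : ∀ j s, squ v s ⊆ R → ∃ K : ℝ≥0, LipschitzOnWith K (φ j) (squ v s))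
    (hd : ∀ j s, squ v s ⊆ R →
      sInt v s (fun z => ∑ i ∈ Finset.univ.erase s.2, ‖lineDeriv ℝ (φ j) z (ev i)‖ₑ ^ q) ≤
      2 * sInt v s fun z => ‖fderiv ℝ (φ j) z‖ₑ ^ q)
    (hnet : NetConv q v R (fun j => fderiv ℝ (φ j)) fun x => cl (F x)) {β : ℝ} (hβ : 0 < β) :
    ∀ᶠ l in atTop, ∀ᶠ j in atTop, ∀ s : Idx × Fin 3, s.1.1 = nn l → squ v s ⊆ R →
      ∀ a ∈ squ v s, ∃ b ∈ intrinsicFrontier ℝ (squ v s),
        len (onSeg (φ j) (a, b)) (Icc 0 1) ≤ ENNReal.ofReal β := by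
  obtain ⟨C, hC, hM⟩ := hM
  have hq0 : 0 < q := by linarith
  have hp0 : 0 < p := by linarith
  set ε : ℝ := β / (4 * C) with hε
  have hε0 : 0 < ε := by positivity
  have e1 : ENNReal.ofReal C * 2 * (ENNReal.ofReal ε + ENNReal.ofReal ε) = ENNReal.ofReal β := by
    have e2 : (2:ℝ≥0∞) = ENNReal.ofReal 2 := by norm_num
    rw [← ENNReal.ofReal_add hε0.le hε0.le, e2, ← ENNReal.ofReal_mul hC.le,
      ← ENNReal.ofReal_mul (by positivity)]
    congr 1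
    rw [hε]
    field_simp
    ring
  have hεp : 0 < ENNReal.ofReal ε ^ p :=
    ENNReal.rpow_pos (ENNReal.ofReal_pos.2 hε0) ENNReal.ofReal_ne_top
  have hεq : 0 < ENNReal.ofReal ε ^ q :=
    ENNReal.rpow_pos (ENNReal.ofReal_pos.2 hε0) ENNReal.ofReal_ne_top
  filter_upwards [eventually_sInt_le hsup hεp] with l hl
  have hT := finite_squ v (nn l) hRb
  have h1 : ∀ s ∈ {s : Idx × Fin 3 | s.1.1 = nn l ∧ squ v s ⊆ R}, ∀ᶠ j in atTop,
      (sInt v s fun x => ‖fderiv ℝ (φ j) x - cl (F x)‖ₑ ^ q) ≤ ENNReal.ofReal ε ^ q :=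
    fun s hs => (hnet.squ_in hs.2).eventually_le_const hεq
  filter_upwards [(Filter.eventually_all_finite hT).2 h1] with j hj s hs hsR a ha
  obtain ⟨K, hK⟩ := hφ j s hsR
  obtain ⟨b, hb, h2⟩ := seg_one hq hqp hp hC hM hRΩ hnet hsR (hd j s hsR) hK ha
  refine ⟨b, hb, h2.trans ?_⟩
  rw [← e1]
  refine mul_le_mul_right (add_le_add ?_ ?_) _
  · rw [one_div p, ENNReal.rpow_inv_le_iff hp0, hs]
    exact hl s hs
  · rw [one_div q, ENNReal.rpow_inv_le_iff hq0]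
    exact hj s ⟨hs, hsR⟩

/-- **[SEG-B]** for `C¹` maps -/
theorem seg_b {p q : ℝ} (hM : MorreySeg q) (hq : 2 < q) (hqp : q ≤ p) (hp : 3 ≤ p)
    {Ω R : Set V} (hR : IsOpen R) (hRb : Bornology.IsBounded R) (hRΩ : R ⊆ Ω) {F : V → Mat}
    {v : V} {nn : ℕ → ℕ}
    (hsup : Tendsto (fun l => supS (nn l) (H696.HF p Ω F) v) atTop (𝓝 0)) {φ : ℕ → V → V}
    (hφ : ∀ j, ContDiffOn ℝ 1 (φ j) R)
    (hnet : NetConv q v R (fun j => fderiv ℝ (φ j)) fun x => cl (F x)) {β : ℝ} (hβ : 0 < β) :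
    ∀ᶠ l in atTop, ∀ᶠ j in atTop, ∀ s : Idx × Fin 3, s.1.1 = nn l → squ v s ⊆ R →
      ∀ a ∈ squ v s, ∃ b ∈ intrinsicFrontier ℝ (squ v s),
        len (onSeg (φ j) (a, b)) (Icc 0 1) ≤ ENNReal.ofReal β :=
  seg_b' hM hq hqp hp hRb hRΩ hsup (fun j _ hs => exists_lip_squ hR (hφ j) hs)
    (fun j s hs => sInt_line_le (by linarith) fun z hz =>
      ((hφ j).contDiffAt (hR.mem_nhds (hs hz))).differentiableAt (by norm_num)) hnet hβ

/-! ### Transfer to a map which is close in `C¹` -/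

/-- lengths of segments under a small Lipschitz perturbation -/
theorem len_le_add_of_lip {φ ψ : V → V} {a b : V} {η : ℝ} (hη : 0 ≤ η)
    (h : ∀ x ∈ segment ℝ a b, ∀ y ∈ segment ℝ a b,
      ‖(ψ x - φ x) - (ψ y - φ y)‖ ≤ η * ‖x - y‖) :
    len (onSeg ψ (a, b)) (Icc 0 1) ≤
      len (onSeg φ (a, b)) (Icc 0 1) + ENNReal.ofReal (2 * η * ‖b - a‖) := by
  have hmem : ∀ t ∈ Icc (0:ℝ) 1, a + t • (b - a) ∈ segment ℝ a b := fun t ht => by
    rw [segment_eq_image']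
    exact ⟨t, ht, rfl⟩
  have h1 : len (onSeg ψ (a, b)) (Icc 0 1) ≤ len (onSeg φ (a, b)) (Icc 0 1) +
      eVariationOn (fun t : ℝ => 2 * η * ‖b - a‖ * t) (Icc 0 1) := by
    refine eVariationOn_le_add fun t ht t' ht' => ?_
    rw [edist_toLp, edist_toLp, edist_dist, Real.dist_eq, ← ENNReal.ofReal_add
      (_root_.P073.Net.euc_nonneg _) (abs_nonneg _)]
    refine ENNReal.ofReal_le_ofReal ?_
    have h2 := h _ (hmem t ht) _ (hmem t' ht')
    have e1 : a + t • (b - a) - (a + t' • (b - a)) = (t - t') • (b - a) := by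
      rw [sub_smul]; abel
    rw [e1, norm_smul, Real.norm_eq_abs] at h2
    set x := a + t • (b - a) with hx
    set y := a + t' • (b - a) with hy
    have e2 : ψ x - ψ y = (φ x - φ y) + ((ψ x - φ x) - (ψ y - φ y)) := by abel
    calc St.euc (onSeg ψ (a, b) t - onSeg ψ (a, b) t') = St.euc (ψ x - ψ y) := rfl
      _ ≤ St.euc (φ x - φ y) + St.euc ((ψ x - φ x) - (ψ y - φ y)) := by
          rw [e2]; exact _root_.P073.Net.euc_add_le _ _
      _ ≤ St.euc (φ x - φ y) + 2 * (η * (|t - t'| * ‖b - a‖)) := by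
          gcongr
          exact (euc_le _).trans (by gcongr)
      _ = St.euc (onSeg φ (a, b) t - onSeg φ (a, b) t') +
          |2 * η * ‖b - a‖ * t - 2 * η * ‖b - a‖ * t'| := by
          rw [← mul_sub, abs_mul, abs_of_nonneg (by positivity : 0 ≤ 2 * η * ‖b - a‖)]
          show St.euc (φ x - φ y) + _ = St.euc (φ x - φ y) + _
          ring
  refine h1.trans (add_le_add le_rfl ?_)
  have hmono : MonotoneOn (fun t : ℝ => 2 * η * ‖b - a‖ * t) (Icc 0 1) :=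
    fun x _ y _ hxy => mul_le_mul_of_nonneg_left hxy (by positivity)
  have h3 := hmono.eVariationOn_eq (left_mem_Icc.2 zero_le_one) (right_mem_Icc.2 zero_le_one)
  rw [inter_self] at h3
  rw [h3]
  simp

end Vale.Agent.P073.H761
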