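import Vale.Agent.P073.H235.UncSpec

/-!
# P073: Fubini for functions which do not depend on one coordinate
-/

namespace Vale.Agent.P073.H761

open MeasureTheory Set Filter Topology Metric Vale.Agent.P073.H235
open Vale.Agent.P073.St (V)
open scoped ENNReal

theorem slice (k : Fin 3) (u : V → ℝ≥0∞) (hu : Measurable u)
    (hind : ∀ x s, u (Function.update x k s) = u x) (a : V) (A : Set ℝ) (hA : MeasurableSet A) :
    ∫⁻ x in {x : V | x k ∈ A ∧ ∀ i, i ≠ k → 0 < x i ∧ x i < a i}, u x =
      volume A * ∫⁻ y : Fin 2 → ℝ, {y : Fin 2 → ℝ | ∀ j, 0 < y j ∧ y j < a (k.succAbove j)}.indicator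
        (fun y => u (Fin.insertNth k (0 : ℝ) y)) y := by
  have he : MeasurePreserving (MeasurableEquiv.piFinSuccAbove (fun _ : Fin 3 => ℝ) k) volume
      volume := volume_preserving_piFinSuccAbove (fun _ => ℝ) k
  set S : Set V := {x : V | x k ∈ A ∧ ∀ i, i ≠ k → 0 < x i ∧ x i < a i} with hS
  set B : Set (Fin 2 → ℝ) := {y | ∀ j, 0 < y j ∧ y j < a (k.succAbove j)} with hB
  have hSm : MeasurableSet S := by
    have e1 : S = {x : V | x k ∈ A} ∩ ⋂ i : Fin 3, ⋂ _ : i ≠ k,
        {x : V | 0 < x i ∧ x i < a i} := by ext x; simp [hS]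
    rw [e1]
    refine (measurable_pi_apply k hA).inter ?_
    exact MeasurableSet.iInter fun i => MeasurableSet.iInter fun _ =>
      (measurableSet_lt measurable_const (measurable_pi_apply i)).inter
        (measurableSet_lt (measurable_pi_apply i) measurable_const)
  have hBm : MeasurableSet B := by
    have e1 : B = ⋂ j : Fin 2, {y : Fin 2 → ℝ | 0 < y j ∧ y j < a (k.succAbove j)} := by
      ext x; simp [hB]
    rw [e1]
    exact MeasurableSet.iInter fun i =>
      (measurableSet_lt measurable_const (measurable_pi_apply i)).inter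
        (measurableSet_lt (measurable_pi_apply i) measurable_const)
  have hins : Measurable fun y : Fin 2 → ℝ => (Fin.insertNth k (0 : ℝ) y : V) := by
    have h1 : Measurable fun y : Fin 2 → ℝ =>
        (MeasurableEquiv.piFinSuccAbove (fun _ : Fin 3 => ℝ) k).symm ((0 : ℝ), y) :=
      (MeasurableEquiv.measurable _).comp (measurable_const.prodMk measurable_id)
    exact h1
  have hh : Measurable (B.indicator fun y => u (Fin.insertNth k (0 : ℝ) y)) :=
    (hu.comp hins).indicator hBm
  have hone : Measurable (A.indicator (1 : ℝ → ℝ≥0∞)) := measurable_one.indicator hA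
  have key : ∀ x : V, S.indicator u x = A.indicator (1 : ℝ → ℝ≥0∞) (x k) *
      B.indicator (fun y => u (Fin.insertNth k (0 : ℝ) y)) (fun j => x (k.succAbove j)) := by
    intro x
    have hx : u (Fin.insertNth k (0 : ℝ) (fun j => x (k.succAbove j))) = u x := by
      have e1 : (Fin.insertNth k (0 : ℝ) (fun j => x (k.succAbove j)) : V) =
          Function.update x k 0 := by
        funext i
        by_cases h : i = k
        · subst h; simp
        · obtain ⟨j, rfl⟩ := Fin.exists_succAbove_eq h
          rw [Fin.insertNth_apply_succAbove, Function.update_of_ne h]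
      rw [e1, hind]
    have hiff : (∀ i, i ≠ k → 0 < x i ∧ x i < a i) ↔
        (fun j => x (k.succAbove j)) ∈ B := by
      constructor
      · intro h j
        exact h _ (Fin.succAbove_ne k j)
      · intro h i hi
        obtain ⟨j, rfl⟩ := Fin.exists_succAbove_eq hi
        exact h j
    by_cases h1 : x k ∈ A
    · by_cases h2 : (fun j => x (k.succAbove j)) ∈ B
      · rw [indicator_of_mem (show x ∈ S from ⟨h1, hiff.2 h2⟩), indicator_of_mem h1,
          indicator_of_mem h2, hx]
        simp
      · rw [indicator_of_notMem (show x ∉ S from fun h => h2 (hiff.1 h.2)),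
          indicator_of_notMem h2, mul_zero]
    · rw [indicator_of_notMem (show x ∉ S from fun h => h1 h.1), indicator_of_notMem h1, zero_mul]
  calc ∫⁻ x in S, u x = ∫⁻ x, S.indicator u x := (lintegral_indicator hSm _).symm
    _ = ∫⁻ x : V, (fun z : ℝ × (Fin 2 → ℝ) => A.indicator (1 : ℝ → ℝ≥0∞) z.1 *
          B.indicator (fun y => u (Fin.insertNth k (0 : ℝ) y)) z.2)
          (MeasurableEquiv.piFinSuccAbove (fun _ : Fin 3 => ℝ) k x) :=
        lintegral_congr fun x => key x
    _ = ∫⁻ z : ℝ × (Fin 2 → ℝ), A.indicator (1 : ℝ → ℝ≥0∞) z.1 *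
          B.indicator (fun y => u (Fin.insertNth k (0 : ℝ) y)) z.2 :=
        he.lintegral_comp ((hone.comp measurable_fst).mul (hh.comp measurable_snd))
    _ = _ := by
        rw [Measure.volume_eq_prod, lintegral_prod_mul hone.aemeasurable hh.aemeasurable,
          lintegral_indicator_one hA]

/-- the integral over the layers at the two faces -/
theorem frame_le (k : Fin 3) (u : V → ℝ≥0∞) (hu : Measurable u)
    (hind : ∀ x s, u (Function.update x k s) = u x) (a : V) (hak : a k = 1) {ν : ℝ}
    (hν : 0 ≤ ν) :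
    ∫⁻ x in Bx a ∩ {x | x k ≤ ν ∨ 1 - ν ≤ x k}, u x ≤
      ENNReal.ofReal (2 * ν) * ∫⁻ x in Bx a, u x := by
  have e1 : Bx a = {x : V | x k ∈ Ioo (0 : ℝ) 1 ∧ ∀ i, i ≠ k → 0 < x i ∧ x i < a i} := by
    ext x
    constructor
    · intro h
      refine ⟨?_, fun i _ => h i⟩
      have := h k
      rwa [hak] at this
    · rintro ⟨h1, h2⟩ i
      by_cases h : i = k
      · subst h; rw [hak]; exact h1
      · exact h2 i h
  have e2 : Bx a ∩ {x | x k ≤ ν ∨ 1 - ν ≤ x k} ⊆
      {x : V | x k ∈ Ioc (0 : ℝ) ν ∪ Ico (1 - ν) 1 ∧ ∀ i, i ≠ k → 0 < x i ∧ x i < a i} := by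
    rw [e1]
    rintro x ⟨⟨h1, h2⟩, h3⟩
    refine ⟨?_, h2⟩
    rcases h3 with h3 | h3
    · exact Or.inl ⟨h1.1, h3⟩
    · exact Or.inr ⟨h3, h1.2⟩
  refine (lintegral_mono_set e2).trans ?_
  rw [slice k u hu hind a _ (measurableSet_Ioc.union measurableSet_Ico), e1,
    slice k u hu hind a _ measurableSet_Ioo, Real.volume_Ioo, sub_zero, ENNReal.ofReal_one,
    one_mul]
  gcongr
  refine (measure_union_le _ _).trans ?_
  rw [Real.volume_Ioc, Real.volume_Ico, two_mul, ENNReal.ofReal_add hν hν]
  refine add_le_add (by rw [sub_zero]) (by rw [sub_sub_cancel])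

end Vale.Agent.P073.H761
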