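import Vale.Agent.P073.H761.SmTools

/-!
# P073: smoothing and squeeze of conical outputs on boxes
-/

namespace Vale.Agent.P073.H761

open MeasureTheory Set Filter Topology Metric Vale.Agent.P073.LOC Vale.Agent.P073.H235
open Vale.Agent.P073.St (V Mat)
open Vale.Agent.P073.SQ (ev cube Cells dE faceE)
open Vale.Agent.P073.H73 (enL faceL faceE_le exists_small)
open _root_.P073 (ConHomeo)
open scoped ContDiff ENNReal

/-- the energy of `G` on the squares of a cell, from smallness of the difference to `h` -/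
theorem en_le {p : ℝ} (hp : 1 ≤ p) {Ω : Set V} (hΩ : IsOpen Ω) (W : Cells Ω ∅)
    (hctrl : ∀ q, q ∈ W.ctrl) {h G : V → V} (hc : ContinuousOn h Ω) (i : W.ι) {t : ℝ}
    {e : ℝ≥0∞} (ht : (((W.bd i).card : ℝ≥0∞) * 2) * ENNReal.ofReal t ≤ e)
    (hface : ∀ q ∈ W.bd i, ∀ j, j ≠ W.k q → ∫⁻ x in cube (W.a q) (W.σ q),
      ENNReal.ofReal (‖fderiv ℝ G (Function.update x (W.k q) (W.a q (W.k q))) (ev j) -
        lineDeriv ℝ h (Function.update x (W.k q) (W.a q (W.k q))) (ev j)‖ ^ p) ≤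
          ENNReal.ofReal (t * (W.σ q / W.ρ i))) :
    W.en p G i ≤ 2 ^ (p - 1) * (enL W p h i + e) := by
  have e2 : ∀ q ∈ W.bd i, faceE p G (W.a q) (W.k q) (W.σ q) ≤
      2 ^ (p - 1) * (faceL p h (W.a q) (W.k q) (W.σ q) +
        2 * ENNReal.ofReal (t * (W.σ q / W.ρ i))) := by
    intro q hq
    exact faceE_le hp hΩ hc (W.σpos q) (W.subκ q) fun j hj => hface q hq j hj
  calc W.en p G i = ∑ q ∈ W.bd i, ENNReal.ofReal (W.ρ i / W.σ q) *
        faceE p G (W.a q) (W.k q) (W.σ q) := by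
        unfold SQ.Cells.en
        refine Finset.sum_congr rfl fun q _ => ?_
        rw [if_pos (hctrl q)]
    _ ≤ ∑ q ∈ W.bd i, ENNReal.ofReal (W.ρ i / W.σ q) * (2 ^ (p - 1) *
        (faceL p h (W.a q) (W.k q) (W.σ q) +
          2 * ENNReal.ofReal (t * (W.σ q / W.ρ i)))) :=
        Finset.sum_le_sum fun q hq => mul_le_mul' le_rfl (e2 q hq)
    _ = 2 ^ (p - 1) * (enL W p h i +
        ∑ q ∈ W.bd i, ENNReal.ofReal (W.ρ i / W.σ q) *
          (2 * ENNReal.ofReal (t * (W.σ q / W.ρ i)))) := by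
        unfold enL
        rw [← Finset.sum_add_distrib, Finset.mul_sum]
        refine Finset.sum_congr rfl fun q _ => ?_
        ring
    _ ≤ 2 ^ (p - 1) * (enL W p h i + e) := by
        gcongr
        refine le_trans (le_of_eq ?_) ht
        have e3 : ∀ q ∈ W.bd i, ENNReal.ofReal (W.ρ i / W.σ q) *
            (2 * ENNReal.ofReal (t * (W.σ q / W.ρ i))) = 2 * ENNReal.ofReal t := by
          intro q _
          have h5 := W.σpos q
          have h6 := W.ρpos i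
          rw [mul_left_comm, ← ENNReal.ofReal_mul (by positivity)]
          congr 2
          field_simp
        rw [Finset.sum_congr rfl e3, Finset.sum_const, nsmul_eq_mul, mul_assoc]

theorem mem_face {Ω : Set V} (W : Cells Ω ∅) (i : W.ι) {q : W.κ} (hq : q ∈ W.bd i) {x : V}
    (hx : x ∈ cube (W.a q) (W.σ q)) :
    Function.update x (W.k q) (W.a q (W.k q)) ∈ cube (W.c i) (W.ρ i) := by
  intro l
  obtain ⟨h4, h5⟩ := W.bd_sub i q hq
  by_cases hl : l = W.k q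
  · subst hl
    rw [Function.update_self, h4]
  · rw [Function.update_of_ne hl]
    have h6 := abs_sub_le (x l) (W.a q l) (W.c i l)
    linarith [hx l, h5 l hl]

/-- energies from the energies on the cells -/
theorem En_le_cells {p : ℝ} {a : V} (W : Cells (Bx a) ∅) {g : V → V} {C : ℝ≥0∞}
    {h : V → V} {ε' : W.ι → ℝ≥0∞}
    (hg : ∀ i, ∑ j, ∫⁻ x in cube (W.c i) (W.ρ i), dE p g j x ≤ C * (enL W p h i + ε' i) + ε' i)
    (S : Set V) :
    En p g Finset.univ (Bx a ∩ S) ≤ C * enS W p h S + (C + 1) * ∑' i, ε' i := by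
  have := W.cnt
  have h1 : Bx a ∩ S ⊆ ⋃ i : {i : W.ι // (cube (W.c i) (W.ρ i) ∩ S).Nonempty},
      cube (W.c i) (W.ρ i) := by
    rintro x ⟨hx, hxS⟩
    rcases W.cover hx with h | h
    · exact absurd h (notMem_empty x)
    · obtain ⟨i, hi⟩ := mem_iUnion.1 h
      exact mem_iUnion.2 ⟨⟨i, ⟨x, hi, hxS⟩⟩, hi⟩
  have h2 : En p g Finset.univ (Bx a ∩ S) ≤
      ∑' i : {i : W.ι // (cube (W.c i) (W.ρ i) ∩ S).Nonempty},
        ∑ j, ∫⁻ x in cube (W.c i) (W.ρ i), dE p g j x := by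
    rw [Summable.tsum_finsetSum fun _ _ => ENNReal.summable]
    refine Finset.sum_le_sum fun j _ => ?_
    exact (lintegral_mono_set h1).trans (lintegral_iUnion_le _ _)
  calc En p g Finset.univ (Bx a ∩ S)
      ≤ ∑' i : {i : W.ι // (cube (W.c i) (W.ρ i) ∩ S).Nonempty},
          (C * (enL W p h i + ε' i) + ε' i) :=
        h2.trans (ENNReal.tsum_le_tsum fun i => hg i)
    _ = C * enS W p h S + (C + 1) *
          ∑' i : {i : W.ι // (cube (W.c i) (W.ρ i) ∩ S).Nonempty}, ε' i := by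
        rw [ENNReal.tsum_add, ENNReal.tsum_mul_left, ENNReal.tsum_add]
        unfold enS
        ring
    _ ≤ _ := by
        gcongr
        exact ENNReal.tsum_comp_le_tsum_of_injective Subtype.val_injective ε'

/-- **smoothing and squeeze on a box** -/
theorem smooth_squeeze {p : ℝ} (hp : 1 ≤ p) (hp3 : p < 3) : ∃ C : ℝ, 0 < C ∧
    ∀ (a : V) (Λ : Set V) (W : Cells (Bx a) ∅) (h : ConHomeo (Bx a) Λ) (k : Fin 3) (c : ℝ)
      (F₀ : V → V) (e₀ : ℝ) (ι κ : Type) (_ : Countable ι) (_ : Countable κ) (sa sd : ι → V)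
      (η : ι → ℝ) (Q : κ → Set V) (η' : κ → ℝ),
    (∀ i, 0 < a i) → St.IsBoundedDomain Λ → Dec W k c → UniformContinuousOn F₀ (Bx a) →
    BdClose (Bx a) F₀ h.toFun → 0 < e₀ →
    (∀ i, sd i ≠ 0) → (∀ i, sa i k = c ∧ sd i k = 0) →
    (∀ i, segment ℝ (sa i) (sa i + sd i) ⊆ Bx a) →
    (∀ K ⊆ Bx a, IsCompact K → {i | (segment ℝ (sa i) (sa i + sd i) ∩ K).Nonempty}.Finite) →
    (∀ i, 0 < η i) →
    (∀ q, IsCompact (Q q)) → (∀ q, ∀ x ∈ Q q, Function.update x k c ∈ Bx a) →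
    (∀ K ⊆ Bx a, IsCompact K → {q | ∃ x ∈ Q q, Function.update x k c ∈ K}.Finite) →
    (∀ q, 0 < η' q) →
    ∃ g : V → V, St.IsDiffeo (Bx a) Λ g ∧ BdClose (Bx a) F₀ g ∧
      (∀ S, En p g Finset.univ (Bx a ∩ S) ≤
        ENNReal.ofReal C * enS W p h.toFun S + ENNReal.ofReal e₀) ∧
      (∀ i, ∫⁻ t in Icc (0:ℝ) 1, ENNReal.ofReal (‖fderiv ℝ g (sa i + t • sd i) (sd i) -
        deriv (fun s => h.toFun (sa i + s • sd i)) t‖ ^ p) ≤ ENNReal.ofReal (η i)) ∧
      ∀ q, ∀ j, j ≠ k → ∫⁻ x in Q q,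
        ENNReal.ofReal (‖fderiv ℝ g (Function.update x k c) (ev j) -
          lineDeriv ℝ h.toFun (Function.update x k c) (ev j)‖ ^ p) ≤ ENNReal.ofReal (η' q) := by
  obtain ⟨C₃, hC₃, hmain⟩ := H73.specSQ3 p hp hp3
  have h2t : (2 : ℝ≥0∞) ^ (p - 1) ≠ ⊤ := H880.two_rpow_ne_top
  set C₄ : ℝ≥0∞ := C₃ * 2 ^ (p - 1) with hC₄
  have hC₄t : C₄ ≠ ⊤ := ENNReal.mul_ne_top hC₃ h2t
  have hC₄o : ENNReal.ofReal C₄.toReal = C₄ := ENNReal.ofReal_toReal hC₄t
  refine ⟨C₄.toReal + 1, by positivity, ?_⟩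
  intro a Λ W h k c F₀ e₀ ι κ hι hκ sa sd η Q η' ha hΛ hD hF₀ hbd he₀ hd hpl hseg hsegf hη hQ hQΩ
    hQf hη'
  have := W.cnt
  have hΩ := isBoundedDomain_Bx ha
  obtain ⟨ε', hε'0, hε'⟩ := ENNReal.exists_pos_sum_of_countable'
    (ε := ENNReal.ofReal (e₀ / (C₄.toReal + 1))) (by simpa using by positivity) W.ι
  have hex : ∀ i, ∃ t : ℝ, 0 < t ∧ (((W.bd i).card : ℝ≥0∞) * 2) * ENNReal.ofReal t ≤ ε' i :=
    fun i => exists_small (ENNReal.mul_ne_top (ENNReal.natCast_ne_top _) (by norm_num))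
      (hε'0 i).ne'
  choose t ht0 ht using hex
  have hcne : ((Bx a)ᶜ : Set V).Nonempty := ⟨0, fun h0 => lt_irrefl _ (h0 0).1⟩
  obtain ⟨G, hG, hGs, hclose, hsegE, hface, -⟩ := _root_.P073.SMF.specSmooth
    _root_.P073.SM.specSM p (Bx a) Λ h (fun x => infDist x (Bx a)ᶜ) 1 hp hΩ hΛ
    (continuous_infDist_pt _).continuousOn
    (fun x hx => by
      rcases (infDist_nonneg (x := x) (s := (Bx a)ᶜ)).lt_or_eq with h1 | h1
      · exact h1
      · exfalso
        have h2 : x ∈ closure (Bx a)ᶜ := (mem_closure_iff_infDist_zero hcne).2 h1.symm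
        rw [(isOpen_box a).isClosed_compl.closure_eq] at h2
        exact h2 hx)
    one_pos ι hι sa sd η hd hseg hsegf hη
    ((Σ i : W.ι, {q // q ∈ W.bd i}) ⊕ κ) inferInstance
    (Sum.elim (fun q => W.k q.2.1) fun _ => k)
    (Sum.elim (fun q => W.a q.2.1 (W.k q.2.1)) fun _ => c)
    (Sum.elim (fun q => cube (W.a q.2.1) (W.σ q.2.1)) Q)
    (Sum.elim (fun q => t q.1 * (W.σ q.2.1 / W.ρ q.1)) η')
    (by
      rintro (q | q)
      · exact AB.isCompact_cube _ _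
      · exact hQ q)
    (by
      rintro (q | q) x hx
      · exact W.sub q.1 (mem_face W q.1 q.2.2 hx)
      · exact hQΩ q x hx)
    (fun A hA hAc => by
      have f1 : (Sum.inl '' (⋃ i ∈ {i | (cube (W.c i) (W.ρ i) ∩ A).Nonempty},
          range (Sigma.mk (β := fun i => {q // q ∈ W.bd i}) i)) :
          Set ((Σ i : W.ι, {q // q ∈ W.bd i}) ⊕ κ)).Finite :=
        ((cells_fin W hA hAc).biUnion fun i _ => finite_range _).image _
      have f2 : (Sum.inr '' {q | ∃ x ∈ Q q, Function.update x k c ∈ A} :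
          Set ((Σ i : W.ι, {q // q ∈ W.bd i}) ⊕ κ)).Finite := (hQf A hA hAc).image _
      refine (f1.union f2).subset ?_
      rintro (⟨i, q⟩ | q) ⟨x, hx, hxA⟩
      · exact Or.inl ⟨⟨i, q⟩, mem_iUnion₂.2 ⟨i, ⟨_, mem_face W i q.2 hx, hxA⟩, q, rfl⟩, rfl⟩
      · exact Or.inr ⟨q, ⟨x, hx, hxA⟩, rfl⟩)
    (by
      rintro (q | q)
      · exact mul_pos (ht0 _) (div_pos (W.σpos _) (W.ρpos _))
      · exact hη' q)
  have hGs' : ContDiffOn ℝ ∞ G (Bx a) := hGs
  obtain ⟨s, hs, -, hsi, hsoff, hsE⟩ := hmain (Bx a) Λ ∅ W G ε' (fun _ => 1) (isOpen_box a)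
    hΛ.1 hD.ctrl hG (fun i => (hε'0 i).ne') fun _ => one_pos
  have hss : ContDiffOn ℝ ∞ s (Bx a) := SQ.isDiffeo_cd hs
  have hfix : ∀ x ∈ Bx a, x k = c → s x = x := fun x hx hxk =>
    hsoff x hx fun i => hD.plane i x hxk
  have hder : ∀ x ∈ Bx a, x k = c → ∀ v : V, v k = 0 →
      fderiv ℝ (G ∘ s) x v = fderiv ℝ G x v := fun x hx hxk v hv =>
    fderiv_comp_plane (isOpen_box a) hss hGs' hfix hx hxk hv
  refine ⟨G ∘ s, SQ.isDiffeo_comp hs hG, ?_, ?_, ?_, ?_⟩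
  · refine bdClose_squeeze W hD.small hF₀ (bdClose_of_close (isOpen_box a) ?_ hcne hbd hclose) hsi
    exact PK.isBounded_of_domain hΩ
  · intro S
    have h1 : ∀ i, ∑ j, ∫⁻ x in cube (W.c i) (W.ρ i), dE p (G ∘ s) j x ≤
        C₄ * (enL W p h.toFun i + ε' i) + ε' i := by
      intro i
      refine (hsE i).1.trans ?_
      rw [hC₄, mul_assoc]
      gcongr
      refine en_le hp (isOpen_box a) W hD.ctrl h.cont i (ht i) fun q hq j hj => ?_
      exact hface (Sum.inl ⟨i, q, hq⟩) j hj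
    refine (En_le_cells W h1 S).trans ?_
    refine add_le_add (mul_le_mul' ?_ le_rfl) ?_
    · rw [ENNReal.ofReal_add ENNReal.toReal_nonneg zero_le_one, hC₄o]
      exact le_self_add
    · have h3 : C₄ + 1 = ENNReal.ofReal (C₄.toReal + 1) := by
        rw [ENNReal.ofReal_add ENNReal.toReal_nonneg zero_le_one, hC₄o, ENNReal.ofReal_one]
      calc (C₄ + 1) * ∑' i, ε' i ≤ (C₄ + 1) * ENNReal.ofReal (e₀ / (C₄.toReal + 1)) :=
            mul_le_mul' le_rfl hε'.le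
        _ = ENNReal.ofReal e₀ := by
            rw [h3, ← ENNReal.ofReal_mul (by positivity)]
            congr 1
            field_simp
  · intro i
    refine le_trans (le_of_eq ?_) (hsegE i)
    refine setLIntegral_congr_fun measurableSet_Icc fun t ht => ?_
    have hmem : sa i + t • sd i ∈ Bx a := by
      refine hseg i ?_
      rw [segment_eq_image']
      exact ⟨t, ht, by simp⟩
    rw [hder _ hmem (by simp [(hpl i).1, (hpl i).2]) _ (hpl i).2]
  · intro q j hj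
    refine le_trans (le_of_eq ?_) (hface (Sum.inr q) j hj)
    refine setLIntegral_congr_fun (hQ q).isClosed.measurableSet fun x hx => ?_
    have hev : ev j k = 0 := by
      unfold ev
      rw [Pi.single_eq_of_ne (Ne.symm hj)]
    rw [hder _ (hQΩ q x hx) (Function.update_self _ _ _) _ hev]
    rfl

end Vale.Agent.P073.H761
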