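import Vale.Agent.P073.H761.AuxQ2
import Vale.Agent.P073.H880.TopN
import Vale.Agent.P073.H523.TopP

/-!
# P073, block H761, [AUX-Q], part 3: `PreQ` for `fq` as a row over the slots
-/

open Set Metric Topology Filter MeasureTheory
open scoped ENNReal

set_option linter.unusedSectionVars false

namespace Vale.Agent.P073.Top880

open _root_.P073 _root_.P073.Net _root_.P073.PA691 _root_.P073.H236
open _root_.P073.H429 (ebe eal)
open Vale.Agent.P073.St (V)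
open Vale.Agent.P073.H471 Vale.Agent.P073.H267
open Vale.Agent.P073.H73 (Mesh)
open Vale.Agent.P073.H193 (Edges edges)
open Vale.Agent.P073.H926
open Vale.Agent.P073.H238.K3
open Vale.Agent.P073.H267.K3
open Vale.Agent.P073.H233 (Xp Ev EdgeEst)

variable {c₀ n δ : ℝ} {j : ℕ} {Ω Λ : Set V} {v w : V} {ρ : V → ℝ} {M : Mesh Ω} {h : ConHomeo Ω Λ}
  {J₀ J : Set (ℕ × (Fin 3 → ℤ))} {P Z : Set M.ι} {K : BoxCx Λ w} {C₀ μT : ℝ} {Ys : Set M.κ}
  {sc : Sharp}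

/-- **the row `PreQ`** for the auxiliary map `fq`, from its edges -/
theorem row_preQ (D : KIn3 c₀ n j δ v w ρ M h J₀ J P Z) (C : Cells ρ w K) (hC₀ : 1 ≤ C₀)
    {D₀ D₁ : ℝ} (hD₁ : 84 * C₀ ≤ D₁) (hD₁' : 8192 ≤ D₁) (om : (edges M).ε → ℝ) :
    ∃ S : Slots D C C₀ μT Ys sc, ∀ {N : RTn M C J₀} {X : S1 D C C₀ μT} {Y₂ : S2 X}
      {Y₃ : S3 Y₂ Ys sc} {Y₄ : S4 Y₃} (Y₅ : S5 Y₄), Ok5 S N Y₅ →
      (∀ k e, (edges M).seg e ⊆ M.F k → (∃ i ∈ P, (edges M).seg e ⊆ M.Q i) ∨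
        Ev (D.B C) (Xp C J₀) (20 / (1 / μN n)) M Y₅.fq.toFun (.inl k)
          (EdgeEst h.toFun Y₅.fq.toFun D₀ (om e) e)) →
      H761.PreQ (D.B C) (Xp C J₀) (20 / (1 / μN n)) c₀ ρ h.toFun J₀ P om D₀ D₁
        Y₅.fq.toFun := by
  refine ⟨{ Slots.one with
    m := fun _ s => (D.G C).oS s / 2
    m0 := fun _ s => half_pos (oS_pos' D C s) }, fun {N X Y₂ Y₃ Y₄} Y₅ H hedge => ?_⟩
  have hn := D.pos
  have hn1 : n ≤ 1 := by linarith [D.lt]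
  have hJ : ∀ s, Y₂.J s ≤ 8388608 * ω3S δ C s := fun s => by
    rw [H.J]
    have := D.ω3S_pos C s
    linarith
  obtain ⟨-, -, -, hθ⟩ := Y₃.numP hJ fun s => H.muP s
  refine Y₅.preQ hC₀ hθ (fun b => ?_) (fun b => ?_) (fun b => ?_) hD₁ hD₁' hedge
  · rw [H.μ5]
    exact (H212.K3.muT_pos D C b.1).le
  · rw [H.μ5]
    have := H212.K3.muT_le D C b.1
    linarith
  · rw [H.μ5, H212.K3.muT_len D C b.1]
    have h1 := (D.G C).uT_pos b.1
    nlinarith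

end Vale.Agent.P073.Top880
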