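import Vale.Agent.P073.H761.UncTools

/-!
# P073: assembly of the un-collapse, rank two
-/

namespace Vale.Agent.P073.H761

open MeasureTheory Set Filter Topology Metric Vale.Agent.P073.LOC Vale.Agent.P073.H235
open Vale.Agent.P073.St (V Mat)
open Vale.Agent.P073.SQ (ev)
open Vale.Agent.P073.AB (cl)
open scoped ContDiff ENNReal

theorem fl_ne {θ : ℝ} {i : Fin 3} (h : i ≠ 2) : fl θ i = 1 := by
  fin_cases i
  · rfl
  · rfl
  · exact absurd rfl h

theorem fl_two {θ : ℝ} : fl θ 2 = 2 * θ := rfl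

theorem update_fl_one {θ : ℝ} : Function.update (fl θ) 2 1 = 1 := by
  funext i
  by_cases h : i = 2
  · subst h; rw [Function.update_self]; rfl
  · rw [Function.update_of_ne h, fl_ne h]; rfl

theorem update_fl {θ : ℝ} : Function.update (fl θ) 2 (2 * θ) = fl θ := by
  funext i
  by_cases h : i = 2
  · subst h; rw [Function.update_self]; rfl
  · rw [Function.update_of_ne h]

theorem Bx_one : Bx 1 = Q1 := rfl

theorem cmp_one (f : V → V) : cmp 1 f = f := by
  funext x
  unfold H235.cmp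
  congr 1
  funext i
  simp

theorem erase_two : (Finset.univ : Finset (Fin 3)).erase 2 = {0, 1} := by decide

/-- the model of the derivative outside of the thin part -/
noncomputable def mdl (g : V → V) (k : Fin 3) (θ : ℝ) (j : Fin 3) (x : V) : V :=
  if j = k then 0 else fderiv ℝ g (Function.update x k θ) (ev j)

theorem measurable_mdl (g : V → V) (k : Fin 3) (θ : ℝ) (j : Fin 3) :
    Measurable (mdl g k θ j) := by
  unfold mdl
  by_cases h : j = k
  · simp only [h, if_true]; exact measurable_const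
  · simp only [h, if_false]
    have h1 : Continuous fun x : V => Function.update x k θ :=
      continuous_id.update k continuous_const
    exact (measurable_der g (ev j)).comp h1.measurable

/-- **(U7)** -/
theorem specUncollapse (h1 : SpecU1) (h2 : SpecU2) (h3 : SpecU3) (h5 : SpecU5) (h6 : SpecU6) :
    SpecUncollapse := by
  rintro p L hp hL2 ⟨C, hC, hflat⟩ ε hε
  have hp0 : 0 ≤ p := by linarith
  obtain ⟨C3, hC3, h3⟩ := h3 p hp
  set K : ℝ := 2 ^ p with hK
  have hK1 : 1 ≤ K := Real.one_le_rpow (by norm_num) hp0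
  set A : ℝ := ∑ j, ‖L (ev j)‖ ^ p with hA
  have hA0 : 0 ≤ A := Finset.sum_nonneg fun j _ => by positivity
  set D : ℝ := K * K * (12 * A + 2 * (C3 * C)) + 1 with hD
  have hD0 : 0 < D := by positivity
  -- the width of the frame
  set ν : ℝ := min (1 / 4) (ε / (8 * D)) with hν
  have hν0 : 0 < ν := lt_min (by norm_num) (by positivity)
  have hν4 : ν ≤ 1 / 4 := min_le_left _ _
  have hνε : ν ≤ ε / (8 * D) := min_le_right _ _
  obtain ⟨θ₀, hθ₀, hflat⟩ := hflat ν hν0 hν4
  obtain ⟨M, χ, hM, hlat⟩ := exists_lat 2 (1 : V) (fun _ _ => one_pos) hν0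
  have hMp : 0 ≤ M ^ p := by positivity
  -- the height
  set θ : ℝ := min θ₀ (min (1 / 2) (min (ε / (8 * D)) (1 / (M ^ p + 1)))) with hθ
  have hθ0 : 0 < θ := lt_min hθ₀ (lt_min (by norm_num) (lt_min (by positivity) (by positivity)))
  have hθ1 : θ ≤ θ₀ := min_le_left _ _
  have hθ2 : θ ≤ 1 / 2 := (min_le_right _ _).trans (min_le_left _ _)
  have hθε : θ ≤ ε / (8 * D) :=
    (min_le_right _ _).trans ((min_le_right _ _).trans (min_le_left _ _))
  have hθM : M ^ p * θ ≤ 1 := by
    have h7 : θ ≤ 1 / (M ^ p + 1) :=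
      (min_le_right _ _).trans ((min_le_right _ _).trans (min_le_right _ _))
    calc M ^ p * θ ≤ M ^ p * (1 / (M ^ p + 1)) := by gcongr
      _ ≤ 1 := by rw [mul_one_div, div_le_one (by positivity)]; linarith
  set εm : ℝ := ε / (8 * (K * K)) with hεm
  have hεm0 : 0 < εm := by positivity
  obtain ⟨κ₀, hκ₀, hflat⟩ := hflat θ hθ0 hθ1 εm hεm0
  refine ⟨min κ₀ (ε / (4 * K)), lt_min hκ₀ (by positivity), fun Λ f F hnear => ?_⟩
  obtain ⟨g, hg⟩ := hflat Λ f F (Near.mono hnear (min_le_left _ _))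
  have hgc : ContDiffOn ℝ ∞ g (Bx (Function.update (fl θ) 2 (2 * θ))) := by
    rw [update_fl]; exact Vale.Agent.P073.SQ.isDiffeo_cd hg.diffeo
  obtain ⟨δ₀, hδ₀, h5⟩ := h5 p θ ν M 2 (fl θ) χ g εm hp hεm0 hν0 hgc
  set δ : ℝ := min δ₀ θ with hδ
  have hδ0 : 0 < δ := lt_min hδ₀ hθ0
  have hδ1 : δ ≤ δ₀ := min_le_left _ _
  have hδ2 : δ ≤ θ := min_le_right _ _
  have P : Par θ δ δ ν M 2 (fl θ) χ :=
    ⟨Lat.congr hlat fun i hi => fl_ne hi, hθ0, hθ2, hδ0, hδ2, hδ0, hδ2, hν0, hν4,
      fun i hi => by rw [fl_ne hi]; exact one_pos⟩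
  set G : V → V := fun x => g (Dm θ δ δ 2 χ x) with hG
  -- the three outputs
  have i1 := h1 θ δ δ ν M 2 (fl θ) χ P
  have i2 := h2 θ δ δ ν M 2 (fl θ) χ f g P hnear.cont
  have i3 := h3 θ δ δ ν M 2 (fl θ) χ g P hgc
  have i5 := h5 δ δ P hδ1 hδ1
  rw [update_fl_one, update_fl] at i1 i2 i3
  rw [update_fl_one] at i5
  rw [Bx_one] at i1 i2 i3 i5
  rw [cmp_one] at i2
  refine ⟨G, Vale.Agent.P073.SQ.isDiffeo_comp i1 hg.diffeo, i2 hg.close, ?_⟩
  set T : Set V := Thin θ δ 2 χ with hT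
  have hKe : (0 : ℝ) ≤ K := by positivity
  -- the measure of the thin part
  have hvol : volume (Q1 ∩ T) ≤ ENNReal.ofReal (6 * (ν + 2 * θ)) := by
    refine vol_frame _ (by positivity) _ ?_
    rintro x ⟨hxQ, hxT⟩
    refine ⟨hxQ, ?_⟩
    rcases thin_pos P hxT with ⟨i, hi, h7⟩ | h7 | h7
    · rw [fl_ne hi] at h7
      refine ⟨i, ?_⟩
      rcases h7 with h7 | h7
      · left; linarith
      · right; linarith
    · exact ⟨2, Or.inl (by linarith)⟩
    · exact ⟨2, Or.inr (by linarith)⟩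
  -- the thin part
  have hthin : ∑ j, ∫⁻ x in Q1 ∩ T, ENNReal.ofReal (‖fderiv ℝ G x (ev j) - L (ev j)‖ ^ p) ≤
      ENNReal.ofReal (K * (A * (6 * (ν + 2 * θ)) + C3 * C * (θ + 2 * ν))) := by
    refine (tri_sum hp0 Finset.univ (Q1 ∩ T) (fun j x => fderiv ℝ G x (ev j) - L (ev j))
      (fun j x => fderiv ℝ G x (ev j)) fun j => measurable_der G (ev j)).trans ?_
    rw [ENNReal.ofReal_mul hKe]
    gcongr
    rw [ENNReal.ofReal_add (by positivity) (by positivity)]
    refine add_le_add ?_ ?_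
    · calc ∑ j : Fin 3, ∫⁻ x in Q1 ∩ T, ENNReal.ofReal
            (‖fderiv ℝ G x (ev j) - L (ev j) - fderiv ℝ G x (ev j)‖ ^ p)
          = ∑ j : Fin 3, ENNReal.ofReal (‖L (ev j)‖ ^ p) * volume (Q1 ∩ T) := by
            refine Finset.sum_congr rfl fun j _ => ?_
            have e1 : ∀ x : V, ‖fderiv ℝ G x (ev j) - L (ev j) - fderiv ℝ G x (ev j)‖ =
                ‖L (ev j)‖ := fun x => by rw [sub_sub_cancel_left, norm_neg]
            simp only [e1]
            rw [setLIntegral_const]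
        _ = ENNReal.ofReal A * volume (Q1 ∩ T) := by
            rw [← Finset.sum_mul, hA, ENNReal.ofReal_sum_of_nonneg fun j _ => by positivity]
        _ ≤ _ := by
            rw [ENNReal.ofReal_mul hA0]
            gcongr
    · refine i3.trans ?_
      have e1 := hg.bulk
      have e2 := hg.frame
      rw [erase_two]
      calc ENNReal.ofReal C3 * (En p g Finset.univ (Bx (fl θ)) + ENNReal.ofReal (1 / θ + M ^ p) *
            En p g Finset.univ (Bx (fl θ) ∩ Fr (fl θ) ν {0, 1}))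
          ≤ ENNReal.ofReal C3 * (ENNReal.ofReal (C * θ) + ENNReal.ofReal (1 / θ + M ^ p) *
            ENNReal.ofReal (C * ν * θ)) := by gcongr
        _ = ENNReal.ofReal (C3 * (C * θ + (1 / θ + M ^ p) * (C * ν * θ))) := by
            rw [← ENNReal.ofReal_mul (by positivity), ← ENNReal.ofReal_add (by positivity)
              (by positivity), ← ENNReal.ofReal_mul hC3.le]
        _ ≤ _ := by
            apply ENNReal.ofReal_le_ofReal
            have e3 : (1 / θ + M ^ p) * (C * ν * θ) = C * ν * (1 + M ^ p * θ) := by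
              field_simp
            rw [e3]
            have e4 : C * ν * (1 + M ^ p * θ) ≤ C * ν * (1 + 1) := by gcongr
            calc C3 * (C * θ + C * ν * (1 + M ^ p * θ)) ≤ C3 * (C * θ + C * ν * (1 + 1)) := by
                  gcongr
              _ = C3 * C * (θ + 2 * ν) := by ring
  -- the fat part
  have hfat : ∑ j, ∫⁻ x in Q1 \ T, ENNReal.ofReal (‖fderiv ℝ G x (ev j) - L (ev j)‖ ^ p) ≤
      ENNReal.ofReal (K * (εm + εm)) := by
    refine (tri_sum hp0 Finset.univ (Q1 \ T) (fun j x => fderiv ℝ G x (ev j) - L (ev j))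
      (fun j x => mdl g 2 θ j x - L (ev j))
      fun j => (measurable_mdl g 2 θ j).sub measurable_const).trans ?_
    rw [ENNReal.ofReal_mul hKe]
    gcongr
    rw [ENNReal.ofReal_add hεm0.le hεm0.le]
    refine add_le_add ?_ ?_
    · refine le_trans (le_of_eq ?_) i5
      refine Finset.sum_congr rfl fun j _ => lintegral_congr fun x => ?_
      rw [sub_sub_sub_cancel_right]
      rfl
    · have hsub : Q1 \ T ⊆ Bx 1 ∩ Co 1 ν {0, 1} := by
        rintro x ⟨hxQ, hxT⟩
        refine ⟨hxQ, fun i hi => ?_⟩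
        have hi2 : i ≠ 2 := by
          intro h; subst h; simp at hi
        have h7 := (h6 θ δ δ ν M 2 (fl θ) χ P x hxT).1 i hi2
        rw [fl_ne hi2] at h7
        exact ⟨h7.1.le, h7.2.le⟩
      refine (sum_mono_set _ _ hsub).trans (le_trans ?_ hg.mid)
      rw [← Finset.sum_erase_add _ _ (Finset.mem_univ (2 : Fin 3))]
      have e0 : ∫⁻ x in Bx 1 ∩ Co 1 ν {0, 1}, ENNReal.ofReal (‖mdl g 2 θ 2 x - L (ev 2)‖ ^ p)
          = 0 := by
        have e1 : ∀ x : V, ENNReal.ofReal (‖mdl g 2 θ 2 x - L (ev 2)‖ ^ p) = 0 := by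
          intro x
          rw [hL2]
          simp only [mdl, if_true, sub_zero, norm_zero]
          rw [Real.zero_rpow (by linarith), ENNReal.ofReal_zero]
        simp only [e1, lintegral_zero]
      rw [e0, add_zero]
      refine le_of_eq (Finset.sum_congr rfl fun j hj => lintegral_congr fun x => ?_)
      simp only [mdl, if_neg (Finset.ne_of_mem_erase hj)]
  -- the sum
  have hGL : ∑ j, ∫⁻ x in Q1, ENNReal.ofReal (‖fderiv ℝ G x (ev j) - L (ev j)‖ ^ p) ≤
      ENNReal.ofReal (K * (A * (6 * (ν + 2 * θ)) + C3 * C * (θ + 2 * ν)) + K * (εm + εm)) := by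
    refine (sum_union_le _ _ (inter_union_sdiff Q1 T).symm.subset).trans ?_
    rw [ENNReal.ofReal_add (by positivity) (by positivity)]
    exact add_le_add hthin hfat
  refine (tri_sum hp0 Finset.univ Q1 (fun j x => fderiv ℝ G x (ev j) - cl (F x) (ev j))
    (fun j x => fderiv ℝ G x (ev j) - L (ev j))
    fun j => (measurable_der G (ev j)).sub measurable_const).trans ?_
  have hFL : ∑ j, ∫⁻ x in Q1, ENNReal.ofReal (‖fderiv ℝ G x (ev j) - cl (F x) (ev j) -
      (fderiv ℝ G x (ev j) - L (ev j))‖ ^ p) ≤ ENNReal.ofReal (ε / (4 * K)) := by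
    refine le_trans (le_of_eq ?_) (hnear.near.trans
      (ENNReal.ofReal_le_ofReal (min_le_right _ _)))
    refine Finset.sum_congr rfl fun j _ => lintegral_congr fun x => ?_
    rw [sub_sub_sub_cancel_left, norm_sub_rev]
  refine (mul_le_mul' le_rfl (add_le_add hFL hGL)).trans ?_
  rw [← ENNReal.ofReal_add (by positivity) (by positivity), ← ENNReal.ofReal_mul (by positivity)]
  apply ENNReal.ofReal_le_ofReal
  have q1 : K * (ε / (4 * K)) = ε / 4 := by field_simp
  have q2 : K * (K * (εm + εm)) = ε / 4 := by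
    rw [hεm]; field_simp; ring
  have q3 : K * (K * (A * (6 * (ν + 2 * θ)) + C3 * C * (θ + 2 * ν))) ≤ ε / 4 := by
    have r1 : A * (6 * (ν + 2 * θ)) + C3 * C * (θ + 2 * ν) ≤
        (12 * A + 2 * (C3 * C)) * (ν + θ) := by
      have r2 : 0 ≤ A * ν := by positivity
      have r3 : 0 ≤ C3 * C * θ := by positivity
      nlinarith
    have r4 : (ν + θ) ≤ ε / (4 * D) := by
      have : ε / (4 * D) = ε / (8 * D) + ε / (8 * D) := by field_simp; ring
      linarith
    calc K * (K * (A * (6 * (ν + 2 * θ)) + C3 * C * (θ + 2 * ν)))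
        = K * K * (A * (6 * (ν + 2 * θ)) + C3 * C * (θ + 2 * ν)) := by ring
      _ ≤ K * K * ((12 * A + 2 * (C3 * C)) * (ν + θ)) := by gcongr
      _ = (D - 1) * (ν + θ) := by rw [hD]; ring
      _ ≤ D * (ν + θ) := by gcongr; linarith
      _ ≤ D * (ε / (4 * D)) := by gcongr
      _ = ε / 4 := by field_simp
  calc K * (ε / (4 * K) + (K * (A * (6 * (ν + 2 * θ)) + C3 * C * (θ + 2 * ν)) +
        K * (εm + εm)))
      = K * (ε / (4 * K)) + K * (K * (A * (6 * (ν + 2 * θ)) + C3 * C * (θ + 2 * ν))) +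
        K * (K * (εm + εm)) := by ring
    _ ≤ ε / 4 + ε / 4 + ε / 4 := by rw [q1, q2]; linarith
    _ ≤ ε := by linarith

end Vale.Agent.P073.H761
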