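import Vale.Agent.P073.H761.U7
import Vale.Agent.P073.H761.Slice

/-!
# P073: assembly of the un-collapse, rank one
-/

namespace Vale.Agent.P073.H761

open MeasureTheory Set Filter Topology Metric Vale.Agent.P073.LOC Vale.Agent.P073.H235
open Vale.Agent.P073.St (V Mat)
open Vale.Agent.P073.SQ (ev)
open Vale.Agent.P073.AB (cl)
open scoped ContDiff ENNReal

theorem bm_eq {θ₁ θ₂ : ℝ} {i : Fin 3} (h : i ≠ 1) : bm θ₁ θ₂ i = fl θ₂ i := by
  fin_cases i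
  · rfl
  · exact absurd rfl h
  · rfl

theorem update_bm_one {θ₁ θ₂ : ℝ} : Function.update (bm θ₁ θ₂) 1 1 = fl θ₂ := by
  funext i
  by_cases h : i = 1
  · subst h; rw [Function.update_self]; rfl
  · rw [Function.update_of_ne h, bm_eq h]

theorem update_bm {θ₁ θ₂ : ℝ} : Function.update (bm θ₁ θ₂) 1 (2 * θ₁) = bm θ₁ θ₂ := by
  funext i
  by_cases h : i = 1
  · subst h; rw [Function.update_self]; rfl
  · rw [Function.update_of_ne h]

theorem erase_one : (Finset.univ : Finset (Fin 3)).erase 1 = {0, 2} := by decide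

theorem fl_pos {θ : ℝ} (hθ : 0 < θ) (i : Fin 3) : 0 < fl θ i := by
  fin_cases i
  · exact one_pos
  · exact one_pos
  · show 0 < 2 * θ
    positivity

theorem mdl_update (g : V → V) (k : Fin 3) (θ : ℝ) (j : Fin 3) (x : V) (s : ℝ) :
    mdl g k θ j (Function.update x k s) = mdl g k θ j x := by
  unfold mdl
  rw [Function.update_idem]

theorem measurable_Ep {p : ℝ} {u : V → V} (hu : Measurable u) :
    Measurable fun x => ENNReal.ofReal (‖u x‖ ^ p) :=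
  ENNReal.measurable_ofReal.comp ((measurable_norm.comp hu).pow_const p)

/-- the energy of the model is the energy on the slice -/
theorem sum_mdl {p : ℝ} (hp : 1 ≤ p) (g : V → V) (k : Fin 3) (θ : ℝ) (S : Set V) :
    ∑ j, ∫⁻ x in S, ENNReal.ofReal (‖mdl g k θ j x‖ ^ p) =
      En2 p g (Finset.univ.erase k) k θ S := by
  rw [← Finset.sum_erase_add _ _ (Finset.mem_univ k)]
  have e0 : ∫⁻ x in S, ENNReal.ofReal (‖mdl g k θ k x‖ ^ p) = 0 := by
    have e1 : ∀ x : V, ENNReal.ofReal (‖mdl g k θ k x‖ ^ p) = 0 := by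
      intro x
      simp only [mdl, if_true, norm_zero]
      rw [Real.zero_rpow (by linarith), ENNReal.ofReal_zero]
    simp only [e1, lintegral_zero]
  rw [e0, add_zero]
  refine Finset.sum_congr rfl fun j hj => lintegral_congr fun x => ?_
  simp only [mdl, if_neg (Finset.ne_of_mem_erase hj)]

/-- the sum of the model over the frame -/
theorem sum_mdl_frame {p C θ₁ θ₂ ν : ℝ} (hp : 1 ≤ p) (hC : 0 ≤ C) (hθ₂ : 0 ≤ θ₂) (hν : 0 ≤ ν)
    (g : V → V) (h1 : En2 p g (Finset.univ.erase 1) 1 θ₁ (Bx (fl θ₂)) ≤ ENNReal.ofReal (C * θ₂))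
    (h2 : En2 p g (Finset.univ.erase 1) 1 θ₁ (Bx (fl θ₂) ∩ Fr (fl θ₂) ν {0}) ≤
      ENNReal.ofReal (C * ν * θ₂)) :
    ∑ j, ∫⁻ x in Bx (fl θ₂) ∩ Fr (fl θ₂) ν {0, 1}, ENNReal.ofReal (‖mdl g 1 θ₁ j x‖ ^ p) ≤
      ENNReal.ofReal (3 * C * ν * θ₂) := by
  have hsub : Bx (fl θ₂) ∩ Fr (fl θ₂) ν {0, 1} ⊆ (Bx (fl θ₂) ∩ Fr (fl θ₂) ν {0}) ∪
      (Bx (fl θ₂) ∩ {x | x 1 ≤ ν ∨ 1 - ν ≤ x 1}) := by
    rintro x ⟨hx, i, hi, hxi⟩
    rw [Finset.mem_insert, Finset.mem_singleton] at hi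
    rcases hi with rfl | rfl
    · exact Or.inl ⟨hx, 0, Finset.mem_singleton_self _, hxi⟩
    · refine Or.inr ⟨hx, ?_⟩
      have e1 : fl θ₂ 1 = 1 := rfl
      rw [e1, mul_one, mul_one] at hxi
      exact hxi
  refine (sum_union_le _ _ hsub).trans ?_
  have e2 : (3 * C * ν * θ₂) = C * ν * θ₂ + 2 * ν * (C * θ₂) := by ring
  rw [e2, ENNReal.ofReal_add (by positivity) (by positivity)]
  refine add_le_add ?_ ?_
  · rw [sum_mdl hp]; exact h2
  · calc ∑ j, ∫⁻ x in Bx (fl θ₂) ∩ {x | x 1 ≤ ν ∨ 1 - ν ≤ x 1},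
          ENNReal.ofReal (‖mdl g 1 θ₁ j x‖ ^ p)
        ≤ ∑ j, ENNReal.ofReal (2 * ν) *
          ∫⁻ x in Bx (fl θ₂), ENNReal.ofReal (‖mdl g 1 θ₁ j x‖ ^ p) := by
          refine Finset.sum_le_sum fun j _ => ?_
          exact frame_le 1 (fun x => ENNReal.ofReal (‖mdl g 1 θ₁ j x‖ ^ p))
            (measurable_Ep (measurable_mdl g 1 θ₁ j))
            (fun x s => by simp only [mdl_update]) (fl θ₂) rfl hν
      _ = ENNReal.ofReal (2 * ν) * En2 p g (Finset.univ.erase 1) 1 θ₁ (Bx (fl θ₂)) := by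
          rw [← Finset.mul_sum, sum_mdl hp]
      _ ≤ ENNReal.ofReal (2 * ν) * ENNReal.ofReal (C * θ₂) := mul_le_mul' le_rfl h1
      _ = _ := (ENNReal.ofReal_mul (by positivity)).symm

theorem lat_mid {c θ₂ : ℝ} (hc1 : c ≤ 1 / 2) (hθ : 0 < θ₂) :
    c * (2 * θ₂) ≤ θ₂ ∧ θ₂ ≤ (1 - c) * (2 * θ₂) := by
  have h1 : c * θ₂ ≤ 1 / 2 * θ₂ := mul_le_mul_of_nonneg_right hc1 hθ.le
  constructor <;> linarith

theorem measurableSet_mid (ν : ℝ) : MeasurableSet (Bx (1 : V) ∩ Co 1 ν {0, 1}) := by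
  have m1 : MeasurableSet (Bx (1 : V)) := by
    have : Bx (1 : V) = Set.pi univ fun _ : Fin 3 => Ioo (0 : ℝ) 1 := by
      ext x; simp [Bx, Set.mem_pi]
    rw [this]
    exact MeasurableSet.univ_pi fun _ => measurableSet_Ioo
  refine m1.inter ?_
  have : Co (1 : V) ν {0, 1} = {x : V | ν / 4 ≤ x 0 ∧ x 0 ≤ 1 - ν / 4} ∩
      {x : V | ν / 4 ≤ x 1 ∧ x 1 ≤ 1 - ν / 4} := by
    ext x; simp [Co]
  rw [this]
  exact ((measurableSet_le measurable_const (measurable_pi_apply 0)).inter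
    (measurableSet_le (measurable_pi_apply 0) measurable_const)).inter
    ((measurableSet_le measurable_const (measurable_pi_apply 1)).inter
    (measurableSet_le (measurable_pi_apply 1) measurable_const))

theorem vol_mid (ν : ℝ) : volume (Bx (1 : V) ∩ Co 1 ν {0, 1}) ≤ 1 := by
  calc volume (Bx (1 : V) ∩ Co 1 ν {0, 1}) ≤
      volume (Set.pi univ fun _ : Fin 3 => Ioo (0 : ℝ) 1) := by
        refine measure_mono ?_
        rintro x ⟨hx, -⟩ i -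
        exact hx i
    _ = 1 := by rw [Real.volume_pi_Ioo]; simp

/-- position of the middle plane -/
theorem mid_pos {θ₁ θ₂ ν ν₁ M δ : ℝ} {χ : V → ℝ} (hlat : Lat 1 (fl θ₂) ν₁ M χ)
    (hν₁0 : 0 < ν₁) (hν₁ : ν₁ = ν / 4) (hν4 : ν ≤ 1 / 4) (hθ₂ : 0 < θ₂) (hθν : θ₁ ≤ ν / 8)
    (hδ : δ ≤ θ₁) {x : V} (hx : x ∈ Bx (1 : V) ∩ Co 1 ν {0, 1}) :
    Function.update x 2 θ₂ ∈ Bx (fl θ₂) ∧
      (∀ i, i ≠ 1 → ν₁ / 4 * bm θ₁ θ₂ i ≤ Function.update x 2 θ₂ i ∧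
        Function.update x 2 θ₂ i ≤ (1 - ν₁ / 4) * bm θ₁ θ₂ i) ∧
      uu θ₁ χ (Function.update x 2 θ₂) + δ ≤ Function.update x 2 θ₂ 1 ∧
      Function.update x 2 θ₂ 1 ≤ 1 - uu θ₁ χ (Function.update x 2 θ₂) - δ := by
  obtain ⟨hxB, hxC⟩ := hx
  have hx0 := hxC 0 (by simp)
  have hx1 := hxC 1 (by simp)
  have u0 : Function.update x 2 θ₂ 0 = x 0 := Function.update_of_ne (by decide) _ _
  have u1 : Function.update x 2 θ₂ 1 = x 1 := Function.update_of_ne (by decide) _ _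
  have u2 : Function.update x 2 θ₂ 2 = θ₂ := Function.update_self _ _ _
  simp only [Pi.one_apply, mul_one] at hx0 hx1
  have f0 : fl θ₂ 0 = 1 := rfl
  have f1 : fl θ₂ 1 = 1 := rfl
  have f2 : fl θ₂ 2 = 2 * θ₂ := rfl
  have hlatc : ∀ c : ℝ, 0 ≤ c → c ≤ ν₁ / 2 → ∀ i, i ≠ 1 →
      c * fl θ₂ i ≤ Function.update x 2 θ₂ i ∧
        Function.update x 2 θ₂ i ≤ (1 - c) * fl θ₂ i := by
    intro c hc hc1 i hi
    have hc2 : c ≤ ν / 8 := by rw [hν₁] at hc1; linarith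
    fin_cases i
    · show c * fl θ₂ 0 ≤ Function.update x 2 θ₂ 0 ∧
        Function.update x 2 θ₂ 0 ≤ (1 - c) * fl θ₂ 0
      rw [f0, u0]
      constructor <;> linarith [hx0.1, hx0.2]
    · exact absurd rfl hi
    · show c * fl θ₂ 2 ≤ Function.update x 2 θ₂ 2 ∧
        Function.update x 2 θ₂ 2 ≤ (1 - c) * fl θ₂ 2
      rw [f2, u2]
      exact lat_mid (by linarith) hθ₂
  have hχ : χ (Function.update x 2 θ₂) = 1 :=
    hlat.one _ fun i hi => hlatc (ν₁ / 2) (by positivity) le_rfl i hi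
  have hu : uu θ₁ χ (Function.update x 2 θ₂) = θ₁ := by unfold uu; rw [hχ]; ring
  refine ⟨?_, ?_, ?_, ?_⟩
  · intro i
    fin_cases i
    · show 0 < Function.update x 2 θ₂ 0 ∧ Function.update x 2 θ₂ 0 < fl θ₂ 0
      rw [u0, f0]; exact hxB 0
    · show 0 < Function.update x 2 θ₂ 1 ∧ Function.update x 2 θ₂ 1 < fl θ₂ 1
      rw [u1, f1]; exact hxB 1
    · show 0 < Function.update x 2 θ₂ 2 ∧ Function.update x 2 θ₂ 2 < fl θ₂ 2
      rw [u2, f2]; constructor <;> linarith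
  · intro i hi
    rw [bm_eq hi]
    exact hlatc (ν₁ / 4) (by positivity) (by linarith) i hi
  · rw [hu, u1]; linarith [hx1.1]
  · rw [hu, u1]; linarith [hx1.2]

/-- the middle plane -/
theorem mid_le {p K e el θ₁ θ₂ ν : ℝ} (hp : 1 ≤ p) (hK : K = 2 ^ p) {L : V →L[ℝ] V}
    (hL1 : L (ev 1) = 0) (g G : V → V)
    (hpt : ∀ x ∈ Bx (1 : V) ∩ Co 1 ν {0, 1}, ∀ j,
      ‖fderiv ℝ G (Function.update x 2 θ₂) (ev j) -
        mdl g 1 θ₁ j (Function.update x 2 θ₂)‖ ≤ e) (he : 0 ≤ e) (hel : 0 ≤ el)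
    (hline : ∫⁻ x in Bx 1 ∩ Co 1 ν {0},
      ENNReal.ofReal (‖fderiv ℝ g (Function.update (Function.update x 1 θ₁) 2 θ₂) (ev 0) -
        L (ev 0)‖ ^ p) ≤ ENNReal.ofReal el) :
    ∑ j ∈ Finset.univ.erase (2 : Fin 3), ∫⁻ x in Bx 1 ∩ Co 1 ν {0, 1},
      ENNReal.ofReal (‖fderiv ℝ G (Function.update x 2 θ₂) (ev j) - L (ev j)‖ ^ p) ≤
        ENNReal.ofReal (K * (2 * e ^ p + el)) := by
  have hp0 : 0 ≤ p := by linarith
  have hupm : Measurable fun x : V => Function.update x 2 θ₂ := by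
    have h7 : Continuous fun x : V => Function.update x 2 θ₂ :=
      continuous_id.update 2 continuous_const
    exact h7.measurable
  refine (tri_sum hp0 (Finset.univ.erase 2) (Bx 1 ∩ Co 1 ν {0, 1})
    (fun j x => fderiv ℝ G (Function.update x 2 θ₂) (ev j) - L (ev j))
    (fun j x => mdl g 1 θ₁ j (Function.update x 2 θ₂) - L (ev j))
    fun j => ((measurable_mdl g 1 θ₁ j).comp hupm).sub measurable_const).trans ?_
  -- the first sum
  have s1 : ∑ j ∈ Finset.univ.erase (2 : Fin 3), ∫⁻ x in Bx 1 ∩ Co 1 ν {0, 1},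
      ENNReal.ofReal (‖fderiv ℝ G (Function.update x 2 θ₂) (ev j) - L (ev j) -
        (mdl g 1 θ₁ j (Function.update x 2 θ₂) - L (ev j))‖ ^ p) ≤
      ENNReal.ofReal (2 * e ^ p) := by
    calc _ ≤ ∑ j ∈ Finset.univ.erase (2 : Fin 3), ENNReal.ofReal (e ^ p) := by
          refine Finset.sum_le_sum fun j _ => ?_
          calc _ ≤ ∫⁻ _ in Bx (1 : V) ∩ Co 1 ν {0, 1}, ENNReal.ofReal (e ^ p) := by
                refine setLIntegral_mono_ae' (measurableSet_mid ν)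
                  (Eventually.of_forall fun x hx => ?_)
                rw [sub_sub_sub_cancel_right]
                exact ENNReal.ofReal_le_ofReal
                  (Real.rpow_le_rpow (norm_nonneg _) (hpt x hx j) hp0)
            _ = ENNReal.ofReal (e ^ p) * volume (Bx (1 : V) ∩ Co 1 ν {0, 1}) :=
                setLIntegral_const _ _
            _ ≤ ENNReal.ofReal (e ^ p) * 1 := mul_le_mul' le_rfl (vol_mid ν)
            _ = _ := mul_one _
      _ = _ := by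
          rw [Finset.sum_const, erase_two]
          have : ({0, 1} : Finset (Fin 3)).card = 2 := by decide
          rw [this, nsmul_eq_mul, ENNReal.ofReal_mul (by norm_num)]
          norm_num
  -- the second sum
  have s2 : ∑ j ∈ Finset.univ.erase (2 : Fin 3), ∫⁻ x in Bx 1 ∩ Co 1 ν {0, 1},
      ENNReal.ofReal (‖mdl g 1 θ₁ j (Function.update x 2 θ₂) - L (ev j)‖ ^ p) ≤
      ENNReal.ofReal el := by
    rw [erase_two, Finset.sum_pair (by decide)]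
    have z1 : ∫⁻ x in Bx 1 ∩ Co 1 ν {0, 1},
        ENNReal.ofReal (‖mdl g 1 θ₁ 1 (Function.update x 2 θ₂) - L (ev 1)‖ ^ p) = 0 := by
      have e1 : ∀ x : V, ENNReal.ofReal
          (‖mdl g 1 θ₁ 1 (Function.update x 2 θ₂) - L (ev 1)‖ ^ p) = 0 := by
        intro x
        rw [hL1]
        simp only [mdl, if_true, sub_zero, norm_zero]
        rw [Real.zero_rpow (by linarith), ENNReal.ofReal_zero]
      simp only [e1, lintegral_zero]
    rw [z1, add_zero]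
    refine le_trans (lintegral_mono_set
      (show Bx (1 : V) ∩ Co 1 ν {0, 1} ⊆ Bx 1 ∩ Co 1 ν {0} from ?_))
      (le_trans (le_of_eq (lintegral_congr fun x => ?_)) hline)
    · rintro x ⟨hxB, hxC⟩
      exact ⟨hxB, fun i hi => hxC i (by
        rw [Finset.mem_singleton] at hi; subst hi; simp)⟩
    · have e1 : mdl g 1 θ₁ 0 (Function.update x 2 θ₂) =
          fderiv ℝ g (Function.update (Function.update x 1 θ₁) 2 θ₂) (ev 0) := by
        simp only [mdl]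
        rw [if_neg (by decide), Function.update_comm (by decide)]
      rw [e1]
  refine (mul_le_mul' le_rfl (add_le_add s1 s2)).trans (le_of_eq ?_)
  rw [← ENNReal.ofReal_add (by positivity) hel, ← ENNReal.ofReal_mul (by positivity), hK]

/-- **(U8)** -/
theorem specUncollapse1 (h1 : SpecU1) (h2 : SpecU2) (h3 : SpecU3) (h4 : SpecU4) (h5 : SpecU5) :
    SpecUncollapse1 := by
  rintro p L hp hL1 hL2 ⟨C, hC, hbeam⟩
  have hp0 : 0 ≤ p := by linarith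
  have hp0' : 0 < p := by linarith
  obtain ⟨C3, hC3, h3⟩ := h3 p hp
  set K : ℝ := 2 ^ p with hK
  have hK1 : 1 ≤ K := Real.one_le_rpow (by norm_num) hp0
  have hKe : (0 : ℝ) ≤ K := by positivity
  refine ⟨2 * (C3 * C) + K * (1 + 3 * C), by positivity, fun ν hν0 hν4 => ?_⟩
  refine ⟨1 / 4, by norm_num, fun θ₂ hθ₂ hθ₂' => ?_⟩
  set ν₁ : ℝ := ν / 4 with hν₁
  have hν₁0 : 0 < ν₁ := by positivity
  obtain ⟨θ₀, hθ₀, hbeam⟩ := hbeam ν hν0 hν4 θ₂ hθ₂ hθ₂' ν₁ hν₁0 le_rfl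
  obtain ⟨M, χ, hM, hlat⟩ := exists_lat 1 (fl θ₂) (fun i _ => fl_pos hθ₂ i) hν₁0
  have hMp : 0 ≤ M ^ p := by positivity
  set θ₁ : ℝ := min θ₀ (min (ν / 8) (1 / (M ^ p + 1))) with hθ
  have hθ0 : 0 < θ₁ := lt_min hθ₀ (lt_min (by positivity) (by positivity))
  have hθ1 : θ₁ ≤ θ₀ := min_le_left _ _
  have hθν : θ₁ ≤ ν / 8 := (min_le_right _ _).trans (min_le_left _ _)
  have hθM : M ^ p * θ₁ ≤ 1 := by
    have h7 : θ₁ ≤ 1 / (M ^ p + 1) := (min_le_right _ _).trans (min_le_right _ _)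
    calc M ^ p * θ₁ ≤ M ^ p * (1 / (M ^ p + 1)) := by gcongr
      _ ≤ 1 := by rw [mul_one_div, div_le_one (by positivity)]; linarith
  intro ε hε
  set el : ℝ := ε / (4 * K) with hel
  have hel0 : 0 < el := by positivity
  obtain ⟨κ, hκ, hbeam⟩ := hbeam θ₁ hθ0 hθ1 el hel0
  refine ⟨κ, hκ, fun Λ f F hnear => ?_⟩
  obtain ⟨g, hg⟩ := hbeam Λ f F hnear
  have hgc : ContDiffOn ℝ ∞ g (Bx (Function.update (bm θ₁ θ₂) 1 (2 * θ₁))) := by
    rw [update_bm]; exact Vale.Agent.P073.SQ.isDiffeo_cd hg.diffeo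
  -- the parameters of the smoothing
  set e4 : ℝ := (ε / (4 * K)) ^ (1 / p) with he4
  have he40 : 0 < e4 := by positivity
  have he4p : e4 ^ p = ε / (4 * K) := by
    rw [he4, ← Real.rpow_mul (by positivity), one_div_mul_cancel hp0'.ne', Real.rpow_one]
  obtain ⟨δ₀, hδ₀, h5⟩ := h5 p θ₁ ν₁ M 1 (bm θ₁ θ₂) χ g (ν * θ₂) hp (by positivity) hν₁0 hgc
  obtain ⟨τ₀, hτ₀, h4⟩ := h4 θ₁ ν₁ M 1 (bm θ₁ θ₂) χ g e4 he40 hν₁0 hgc
  set δ : ℝ := min (min δ₀ τ₀) θ₁ with hδ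
  have hδ0 : 0 < δ := lt_min (lt_min hδ₀ hτ₀) hθ0
  have hδ1 : δ ≤ δ₀ := (min_le_left _ _).trans (min_le_left _ _)
  have hδ3 : δ ≤ τ₀ := (min_le_left _ _).trans (min_le_right _ _)
  have hδ2 : δ ≤ θ₁ := min_le_right _ _
  have P : Par θ₁ δ δ ν₁ M 1 (bm θ₁ θ₂) χ :=
    ⟨Lat.congr hlat fun i hi => bm_eq hi, hθ0, by linarith, hδ0, hδ2, hδ0, hδ2, hν₁0,
      by linarith, fun i hi => by rw [bm_eq hi]; exact fl_pos hθ₂ i⟩
  set G : V → V := fun x => g (Dm θ₁ δ δ 1 χ x) with hG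
  have i1 := h1 θ₁ δ δ ν₁ M 1 (bm θ₁ θ₂) χ P
  have i2 := h2 θ₁ δ δ ν₁ M 1 (bm θ₁ θ₂) χ f g P hnear.cont
  have i3 := h3 θ₁ δ δ ν₁ M 1 (bm θ₁ θ₂) χ g P hgc
  have i4 := h4 δ δ P hδ3
  have i5 := h5 δ δ P hδ1 hδ1
  rw [update_bm_one, update_bm] at i1 i2 i3
  rw [update_bm_one] at i4 i5
  set T : Set V := Thin θ₁ δ 1 χ with hT
  -- the thin part
  have hthin : En p G Finset.univ (Bx (fl θ₂) ∩ T) ≤ ENNReal.ofReal (2 * (C3 * C) * ν * θ₂) := by
    refine i3.trans ?_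
    have e1 := hg.bulk
    have e2 := hg.frame
    rw [erase_one]
    calc ENNReal.ofReal C3 * (En p g Finset.univ (Bx (bm θ₁ θ₂)) +
          ENNReal.ofReal (1 / θ₁ + M ^ p) *
          En p g Finset.univ (Bx (bm θ₁ θ₂) ∩ Fr (bm θ₁ θ₂) ν₁ {0, 2}))
        ≤ ENNReal.ofReal C3 * (ENNReal.ofReal (C * θ₁ * θ₂) + ENNReal.ofReal (1 / θ₁ + M ^ p) *
          ENNReal.ofReal (C * ν₁ * θ₁ * θ₂)) := by gcongr
      _ = ENNReal.ofReal (C3 * (C * θ₁ * θ₂ + (1 / θ₁ + M ^ p) * (C * ν₁ * θ₁ * θ₂))) := by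
          rw [← ENNReal.ofReal_mul (by positivity), ← ENNReal.ofReal_add (by positivity)
            (by positivity), ← ENNReal.ofReal_mul hC3.le]
      _ ≤ _ := by
          apply ENNReal.ofReal_le_ofReal
          have e3 : (1 / θ₁ + M ^ p) * (C * ν₁ * θ₁ * θ₂) = C * ν₁ * θ₂ * (1 + M ^ p * θ₁) := by
            field_simp
          rw [e3]
          have e4 : C * ν₁ * θ₂ * (1 + M ^ p * θ₁) ≤ C * ν₁ * θ₂ * (1 + 1) := by gcongr
          calc C3 * (C * θ₁ * θ₂ + C * ν₁ * θ₂ * (1 + M ^ p * θ₁))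
              ≤ C3 * (C * (ν / 8) * θ₂ + C * ν₁ * θ₂ * (1 + 1)) := by gcongr
            _ = 5 / 8 * (C3 * C * ν * θ₂) := by rw [hν₁]; ring
            _ ≤ 2 * (C3 * C * ν * θ₂) := by
                have : 0 ≤ C3 * C * ν * θ₂ := by positivity
                linarith
            _ = _ := by ring
  -- outside of the thin part
  have hfat : ∀ (S : Set V) (b : ℝ), 0 ≤ b → S ⊆ Bx (fl θ₂) →
      ∑ j, ∫⁻ x in S, ENNReal.ofReal (‖mdl g 1 θ₁ j x‖ ^ p) ≤ ENNReal.ofReal b →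
      En p G Finset.univ (S \ T) ≤ ENNReal.ofReal (K * (ν * θ₂ + b)) := by
    intro S b hb hS hSb
    refine (tri_sum hp0 Finset.univ (S \ T) (fun j x => fderiv ℝ G x (ev j))
      (fun j x => mdl g 1 θ₁ j x) fun j => measurable_mdl g 1 θ₁ j).trans ?_
    rw [ENNReal.ofReal_mul hKe, ENNReal.ofReal_add (by positivity) hb]
    gcongr
    · refine le_trans (sum_mono_set _ _ (sdiff_subset_sdiff_left hS)) (le_trans (le_of_eq ?_) i5)
      rfl
    · exact (sum_mono_set _ _ sdiff_subset).trans hSb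
  have hall : ∀ (S : Set V) (b : ℝ), 0 ≤ b → S ⊆ Bx (fl θ₂) →
      ∑ j, ∫⁻ x in S, ENNReal.ofReal (‖mdl g 1 θ₁ j x‖ ^ p) ≤ ENNReal.ofReal b →
      En p G Finset.univ S ≤
        ENNReal.ofReal (2 * (C3 * C) * ν * θ₂ + K * (ν * θ₂ + b)) := by
    intro S b hb hS hSb
    rw [ENNReal.ofReal_add (by positivity) (by positivity)]
    refine (sum_union_le _ _ (show S ⊆ (Bx (fl θ₂) ∩ T) ∪ (S \ T) from ?_)).trans
      (add_le_add hthin (hfat S b hb hS hSb))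
    intro x hx
    by_cases hxT : x ∈ T
    · exact Or.inl ⟨hS hx, hxT⟩
    · exact Or.inr ⟨hx, hxT⟩
  have hν1 : ν ≤ 1 := by linarith
  refine ⟨G, Vale.Agent.P073.SQ.isDiffeo_comp i1 hg.diffeo, i2 hg.close, ?_, ?_, ?_⟩
  · -- bulk
    refine (hall _ (C * θ₂) (by positivity) subset_rfl (by rw [sum_mdl hp]; exact hg.pl)).trans
      (ENNReal.ofReal_le_ofReal ?_)
    have q1 : 2 * (C3 * C) * ν * θ₂ ≤ 2 * (C3 * C) * 1 * θ₂ := by gcongr
    have q2 : K * (ν * θ₂ + C * θ₂) ≤ K * (1 * θ₂ + 3 * C * θ₂) := by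
      gcongr
      linarith
    calc _ ≤ 2 * (C3 * C) * 1 * θ₂ + K * (1 * θ₂ + 3 * C * θ₂) := add_le_add q1 q2
      _ = _ := by ring
  · -- frame
    refine (hall _ (3 * C * ν * θ₂) (by positivity) inter_subset_left
      (sum_mdl_frame hp hC.le hθ₂.le hν0.le g hg.pl hg.plFrame)).trans
      (ENNReal.ofReal_le_ofReal (le_of_eq ?_))
    ring
  · -- the middle plane
    have hpt : ∀ x ∈ Bx (1 : V) ∩ Co 1 ν {0, 1}, ∀ j,
        ‖fderiv ℝ G (Function.update x 2 θ₂) (ev j) -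
          mdl g 1 θ₁ j (Function.update x 2 θ₂)‖ ≤ e4 := by
      intro x hx j
      obtain ⟨m1, m2, m3, m4⟩ := mid_pos hlat hν₁0 hν₁ hν4 hθ₂ hθν hδ2 hx
      exact i4 _ m1 m2 m3 m4 j
    refine (mid_le hp hK hL1 g G hpt he40.le hel0.le hg.line).trans ?_
    apply ENNReal.ofReal_le_ofReal
    rw [he4p, hel]
    have : K * (2 * (ε / (4 * K)) + ε / (4 * K)) = 3 / 4 * ε := by field_simp; ring
    rw [this]
    linarith

end Vale.Agent.P073.H761
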