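import Vale.Agent.P073.H761.U8
import Vale.Agent.P073.H761.UncAll

/-!
# P073: assembly of the un-collapse, rank one, with weaker hypotheses

`BeamC` is `Beam` with the bounds on the middle plane `x 1 = θ₁` only over the lateral core.
-/

namespace Vale.Agent.P073.H761

open MeasureTheory Set Filter Topology Metric Vale.Agent.P073.LOC Vale.Agent.P073.H235
open Vale.Agent.P073.St (V Mat)
open Vale.Agent.P073.SQ (ev)
open Vale.Agent.P073.AB (cl)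
open scoped ContDiff ENNReal

/-- Output for rank one, kernel `ℝ e₁ + ℝ e₂`: a diffeomorphism of the thin beam onto `Λ` with
bounded energy, with bounded energy on the core of the middle plane `x 1 = θ₁`, and close to `L` on
the middle line. -/
structure BeamC (p C θ₁ θ₂ ν₁ ν ε : ℝ) (L : V →L[ℝ] V) (Λ : Set V) (f g : V → V) : Prop where
  diffeo : St.IsDiffeo (Bx (bm θ₁ θ₂)) Λ g
  close : BdClose (Bx (bm θ₁ θ₂)) (cmp (bm θ₁ θ₂) f) g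
  bulk : En p g Finset.univ (Bx (bm θ₁ θ₂)) ≤ ENNReal.ofReal (C * θ₁ * θ₂)
  frame : En p g Finset.univ (Bx (bm θ₁ θ₂) ∩ Fr (bm θ₁ θ₂) ν₁ {0, 2}) ≤
    ENNReal.ofReal (C * ν₁ * θ₁ * θ₂)
  /-- the core of the middle plane `x 1 = θ₁` -/
  pl : En2 p g (Finset.univ.erase 1) 1 θ₁ (Bx (fl θ₂) ∩ Co (fl θ₂) ν₁ {0, 2}) ≤
    ENNReal.ofReal (C * θ₂)
  plFrame : En2 p g (Finset.univ.erase 1) 1 θ₁
      ((Bx (fl θ₂) ∩ Co (fl θ₂) ν₁ {0, 2}) ∩ Fr (fl θ₂) ν {0}) ≤ ENNReal.ofReal (C * ν * θ₂)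
  /-- the middle line `x 1 = θ₁`, `x 2 = θ₂` -/
  line : ∫⁻ x in Bx 1 ∩ Co 1 ν {0},
    ENNReal.ofReal (‖fderiv ℝ g (Function.update (Function.update x 1 θ₁) 2 θ₂) (ev 0) -
      L (ev 0)‖ ^ p) ≤ ENNReal.ofReal ε

/-- the beam output exists -/
def SpecBeamC (p : ℝ) (L : V →L[ℝ] V) : Prop :=
  ∃ C > 0, ∀ ν, 0 < ν → ν ≤ 1 / 4 → ∀ θ₂, 0 < θ₂ → θ₂ ≤ 1 / 4 → ∀ ν₁, 0 < ν₁ → ν₁ ≤ ν / 4 →
    ∃ θ₀ > 0, ∀ θ₁, 0 < θ₁ → θ₁ ≤ θ₀ → ∀ ε > 0, ∃ κ > 0,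
    ∀ (Λ : Set V) (f : V → V) (F : V → Mat), Near p κ L Λ f F →
      ∃ g, BeamC p C θ₁ θ₂ ν₁ ν ε L Λ f g

theorem measurableSet_Co (a : V) (ν : ℝ) (J : Finset (Fin 3)) : MeasurableSet (Co a ν J) := by
  have : Co a ν J = ⋂ i ∈ J, {x : V | ν / 4 * a i ≤ x i ∧ x i ≤ (1 - ν / 4) * a i} := by
    ext x; simp [Co]
  rw [this]
  refine Finset.measurableSet_biInter _ fun i _ => ?_
  exact (measurableSet_le measurable_const (measurable_pi_apply i)).inter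
    (measurableSet_le (measurable_pi_apply i) measurable_const)

theorem ind_int {A : Set V} (hA : MeasurableSet A) (B : Set V) (F : V → ℝ≥0∞) :
    ∫⁻ x in B ∩ A, F x = ∫⁻ x in B, A.indicator F x := by
  rw [lintegral_indicator hA, Measure.restrict_restrict hA, inter_comm]

/-- the sum of the model over the frame, in the core -/
theorem sum_mdl_frameC {p C θ₁ θ₂ ν ν₁ : ℝ} (hp : 1 ≤ p) (hC : 0 ≤ C) (hθ₂ : 0 ≤ θ₂) (hν : 0 ≤ ν)
    (g : V → V)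
    (h1 : En2 p g (Finset.univ.erase 1) 1 θ₁ (Bx (fl θ₂) ∩ Co (fl θ₂) ν₁ {0, 2}) ≤
      ENNReal.ofReal (C * θ₂))
    (h2 : En2 p g (Finset.univ.erase 1) 1 θ₁
      ((Bx (fl θ₂) ∩ Co (fl θ₂) ν₁ {0, 2}) ∩ Fr (fl θ₂) ν {0}) ≤ ENNReal.ofReal (C * ν * θ₂)) :
    ∑ j, ∫⁻ x in (Bx (fl θ₂) ∩ Fr (fl θ₂) ν {0, 1}) ∩ Co (fl θ₂) ν₁ {0, 2},
      ENNReal.ofReal (‖mdl g 1 θ₁ j x‖ ^ p) ≤ ENNReal.ofReal (3 * C * ν * θ₂) := by
  have hsub : (Bx (fl θ₂) ∩ Fr (fl θ₂) ν {0, 1}) ∩ Co (fl θ₂) ν₁ {0, 2} ⊆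
      ((Bx (fl θ₂) ∩ Co (fl θ₂) ν₁ {0, 2}) ∩ Fr (fl θ₂) ν {0}) ∪
      ((Bx (fl θ₂) ∩ {x | x 1 ≤ ν ∨ 1 - ν ≤ x 1}) ∩ Co (fl θ₂) ν₁ {0, 2}) := by
    rintro x ⟨⟨hx, i, hi, hxi⟩, hxc⟩
    rw [Finset.mem_insert, Finset.mem_singleton] at hi
    rcases hi with rfl | rfl
    · exact Or.inl ⟨⟨hx, hxc⟩, 0, Finset.mem_singleton_self _, hxi⟩
    · refine Or.inr ⟨⟨hx, ?_⟩, hxc⟩
      have e1 : fl θ₂ 1 = 1 := rfl
      rw [e1, mul_one, mul_one] at hxi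
      exact hxi
  refine (sum_union_le _ _ hsub).trans ?_
  have e2 : (3 * C * ν * θ₂) = C * ν * θ₂ + 2 * ν * (C * θ₂) := by ring
  rw [e2, ENNReal.ofReal_add (by positivity) (by positivity)]
  refine add_le_add ?_ ?_
  · rw [sum_mdl hp]; exact h2
  · have hmC := measurableSet_Co (fl θ₂) ν₁ {0, 2}
    have hinv : ∀ (x : V) (s : ℝ), (Function.update x 1 s ∈ Co (fl θ₂) ν₁ {0, 2} ↔
        x ∈ Co (fl θ₂) ν₁ {0, 2}) := by
      intro x s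
      have e0 : Function.update x 1 s 0 = x 0 := Function.update_of_ne (by decide) _ _
      have e2 : Function.update x 1 s 2 = x 2 := Function.update_of_ne (by decide) _ _
      simp only [Co, mem_ofPred_eq, Finset.mem_insert, Finset.mem_singleton, forall_eq_or_imp,
        forall_eq, e0, e2]
    calc ∑ j, ∫⁻ x in (Bx (fl θ₂) ∩ {x | x 1 ≤ ν ∨ 1 - ν ≤ x 1}) ∩ Co (fl θ₂) ν₁ {0, 2},
          ENNReal.ofReal (‖mdl g 1 θ₁ j x‖ ^ p)
        = ∑ j, ∫⁻ x in Bx (fl θ₂) ∩ {x | x 1 ≤ ν ∨ 1 - ν ≤ x 1},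
          (Co (fl θ₂) ν₁ {0, 2}).indicator (fun x => ENNReal.ofReal (‖mdl g 1 θ₁ j x‖ ^ p)) x :=
          Finset.sum_congr rfl fun j _ => ind_int hmC _ _
      _ ≤ ∑ j, ENNReal.ofReal (2 * ν) * ∫⁻ x in Bx (fl θ₂),
          (Co (fl θ₂) ν₁ {0, 2}).indicator (fun x => ENNReal.ofReal (‖mdl g 1 θ₁ j x‖ ^ p)) x := by
          refine Finset.sum_le_sum fun j _ => ?_
          refine frame_le 1 _
            ((measurable_Ep (measurable_mdl g 1 θ₁ j)).indicator hmC)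
            (fun x s => ?_) (fl θ₂) rfl hν
          by_cases hx : x ∈ Co (fl θ₂) ν₁ {0, 2}
          · rw [indicator_of_mem hx, indicator_of_mem ((hinv x s).2 hx), mdl_update]
          · rw [indicator_of_notMem hx, indicator_of_notMem (fun h => hx ((hinv x s).1 h))]
      _ = ENNReal.ofReal (2 * ν) *
          En2 p g (Finset.univ.erase 1) 1 θ₁ (Bx (fl θ₂) ∩ Co (fl θ₂) ν₁ {0, 2}) := by
          rw [← Finset.mul_sum, ← sum_mdl hp]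
          congr 1
          exact Finset.sum_congr rfl fun j _ => (ind_int hmC _ _).symm
      _ ≤ ENNReal.ofReal (2 * ν) * ENNReal.ofReal (C * θ₂) := mul_le_mul' le_rfl h1
      _ = _ := (ENNReal.ofReal_mul (by positivity)).symm

/-- **(U8)**, with the weak hypotheses -/
theorem specUncollapse1C (h1 : SpecU1) (h2 : SpecU2) (h3 : SpecU3) (h4 : SpecU4) (h5 : SpecU5)
    (h6 : SpecU6) (p : ℝ) (L : V →L[ℝ] V) (hp : 1 ≤ p) (hL1 : L (ev 1) = 0) (hL2 : L (ev 2) = 0) :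
    SpecBeamC p L → SpecFlat p L := by
  rintro ⟨C, hC, hbeam⟩
  have hp0 : 0 ≤ p := by linarith
  have hp0' : 0 < p := by linarith
  obtain ⟨C3, hC3, h3⟩ := h3 p hp
  set K : ℝ := 2 ^ p with hK
  have hK1 : 1 ≤ K := Real.one_le_rpow (by norm_num) hp0
  have hKe : (0 : ℝ) ≤ K := by positivity
  refine ⟨2 * (C3 * C) + K * (1 + 3 * C), by positivity, fun ν hν0 hν4 => ?_⟩
  refine ⟨1 / 4, by norm_num, fun θ₂ hθ₂ hθ₂' => ?_⟩
  set ν₁ : ℝ := ν / 4 with hν₁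
  have hν₁0 : 0 < ν₁ := by positivity
  obtain ⟨θ₀, hθ₀, hbeam⟩ := hbeam ν hν0 hν4 θ₂ hθ₂ hθ₂' ν₁ hν₁0 le_rfl
  obtain ⟨M, χ, hM, hlat⟩ := exists_lat 1 (fl θ₂) (fun i _ => fl_pos hθ₂ i) hν₁0
  have hMp : 0 ≤ M ^ p := by positivity
  set θ₁ : ℝ := min θ₀ (min (ν / 8) (1 / (M ^ p + 1))) with hθ
  have hθ0 : 0 < θ₁ := lt_min hθ₀ (lt_min (by positivity) (by positivity))
  have hθ1 : θ₁ ≤ θ₀ := min_le_left _ _
  have hθν : θ₁ ≤ ν / 8 := (min_le_right _ _).trans (min_le_left _ _)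
  have hθM : M ^ p * θ₁ ≤ 1 := by
    have h7 : θ₁ ≤ 1 / (M ^ p + 1) := (min_le_right _ _).trans (min_le_right _ _)
    calc M ^ p * θ₁ ≤ M ^ p * (1 / (M ^ p + 1)) := by gcongr
      _ ≤ 1 := by rw [mul_one_div, div_le_one (by positivity)]; linarith
  intro ε hε
  set el : ℝ := ε / (4 * K) with hel
  have hel0 : 0 < el := by positivity
  obtain ⟨κ, hκ, hbeam⟩ := hbeam θ₁ hθ0 hθ1 el hel0
  refine ⟨κ, hκ, fun Λ f F hnear => ?_⟩
  obtain ⟨g, hg⟩ := hbeam Λ f F hnear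
  have hgc : ContDiffOn ℝ ∞ g (Bx (Function.update (bm θ₁ θ₂) 1 (2 * θ₁))) := by
    rw [update_bm]; exact Vale.Agent.P073.SQ.isDiffeo_cd hg.diffeo
  -- the parameters of the smoothing
  set e4 : ℝ := (ε / (4 * K)) ^ (1 / p) with he4
  have he40 : 0 < e4 := by positivity
  have he4p : e4 ^ p = ε / (4 * K) := by
    rw [he4, ← Real.rpow_mul (by positivity), one_div_mul_cancel hp0'.ne', Real.rpow_one]
  obtain ⟨δ₀, hδ₀, h5⟩ := h5 p θ₁ ν₁ M 1 (bm θ₁ θ₂) χ g (ν * θ₂) hp (by positivity) hν₁0 hgc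
  obtain ⟨τ₀, hτ₀, h4⟩ := h4 θ₁ ν₁ M 1 (bm θ₁ θ₂) χ g e4 he40 hν₁0 hgc
  set δ : ℝ := min (min δ₀ τ₀) θ₁ with hδ
  have hδ0 : 0 < δ := lt_min (lt_min hδ₀ hτ₀) hθ0
  have hδ1 : δ ≤ δ₀ := (min_le_left _ _).trans (min_le_left _ _)
  have hδ3 : δ ≤ τ₀ := (min_le_left _ _).trans (min_le_right _ _)
  have hδ2 : δ ≤ θ₁ := min_le_right _ _
  have P : Par θ₁ δ δ ν₁ M 1 (bm θ₁ θ₂) χ :=
    ⟨Lat.congr hlat fun i hi => bm_eq hi, hθ0, by linarith, hδ0, hδ2, hδ0, hδ2, hν₁0,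
      by linarith, fun i hi => by rw [bm_eq hi]; exact fl_pos hθ₂ i⟩
  set G : V → V := fun x => g (Dm θ₁ δ δ 1 χ x) with hG
  have i1 := h1 θ₁ δ δ ν₁ M 1 (bm θ₁ θ₂) χ P
  have i2 := h2 θ₁ δ δ ν₁ M 1 (bm θ₁ θ₂) χ f g P hnear.cont
  have i3 := h3 θ₁ δ δ ν₁ M 1 (bm θ₁ θ₂) χ g P hgc
  have i4 := h4 δ δ P hδ3
  have i5 := h5 δ δ P hδ1 hδ1
  have i6 := h6 θ₁ δ δ ν₁ M 1 (bm θ₁ θ₂) χ P
  rw [update_bm_one, update_bm] at i1 i2 i3
  rw [update_bm_one] at i4 i5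
  set T : Set V := Thin θ₁ δ 1 χ with hT
  -- the thin part
  have hthin : En p G Finset.univ (Bx (fl θ₂) ∩ T) ≤ ENNReal.ofReal (2 * (C3 * C) * ν * θ₂) := by
    refine i3.trans ?_
    have e1 := hg.bulk
    have e2 := hg.frame
    rw [erase_one]
    calc ENNReal.ofReal C3 * (En p g Finset.univ (Bx (bm θ₁ θ₂)) +
          ENNReal.ofReal (1 / θ₁ + M ^ p) *
          En p g Finset.univ (Bx (bm θ₁ θ₂) ∩ Fr (bm θ₁ θ₂) ν₁ {0, 2}))
        ≤ ENNReal.ofReal C3 * (ENNReal.ofReal (C * θ₁ * θ₂) + ENNReal.ofReal (1 / θ₁ + M ^ p) *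
          ENNReal.ofReal (C * ν₁ * θ₁ * θ₂)) := by gcongr
      _ = ENNReal.ofReal (C3 * (C * θ₁ * θ₂ + (1 / θ₁ + M ^ p) * (C * ν₁ * θ₁ * θ₂))) := by
          rw [← ENNReal.ofReal_mul (by positivity), ← ENNReal.ofReal_add (by positivity)
            (by positivity), ← ENNReal.ofReal_mul hC3.le]
      _ ≤ _ := by
          apply ENNReal.ofReal_le_ofReal
          have e3 : (1 / θ₁ + M ^ p) * (C * ν₁ * θ₁ * θ₂) = C * ν₁ * θ₂ * (1 + M ^ p * θ₁) := by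
            field_simp
          rw [e3]
          have e4 : C * ν₁ * θ₂ * (1 + M ^ p * θ₁) ≤ C * ν₁ * θ₂ * (1 + 1) := by gcongr
          calc C3 * (C * θ₁ * θ₂ + C * ν₁ * θ₂ * (1 + M ^ p * θ₁))
              ≤ C3 * (C * (ν / 8) * θ₂ + C * ν₁ * θ₂ * (1 + 1)) := by gcongr
            _ = 5 / 8 * (C3 * C * ν * θ₂) := by rw [hν₁]; ring
            _ ≤ 2 * (C3 * C * ν * θ₂) := by
                have : 0 ≤ C3 * C * ν * θ₂ := by positivity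
                linarith
            _ = _ := by ring
  -- outside of the thin part
  have hfat : ∀ (S : Set V) (b : ℝ), 0 ≤ b → S ⊆ Bx (fl θ₂) →
      ∑ j, ∫⁻ x in S ∩ Co (fl θ₂) ν₁ {0, 2}, ENNReal.ofReal (‖mdl g 1 θ₁ j x‖ ^ p) ≤
        ENNReal.ofReal b →
      En p G Finset.univ (S \ T) ≤ ENNReal.ofReal (K * (ν * θ₂ + b)) := by
    intro S b hb hS hSb
    refine (tri_sum hp0 Finset.univ (S \ T) (fun j x => fderiv ℝ G x (ev j))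
      (fun j x => mdl g 1 θ₁ j x) fun j => measurable_mdl g 1 θ₁ j).trans ?_
    rw [ENNReal.ofReal_mul hKe, ENNReal.ofReal_add (by positivity) hb]
    gcongr
    · refine le_trans (sum_mono_set _ _ (sdiff_subset_sdiff_left hS)) (le_trans (le_of_eq ?_) i5)
      rfl
    · refine (sum_mono_set _ _ ?_).trans hSb
      rintro x ⟨hxS, hxT⟩
      refine ⟨hxS, fun i hi => ?_⟩
      have hi1 : i ≠ 1 := by
        rintro rfl
        revert hi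
        decide
      have h7 := (i6 x hxT).1 i hi1
      rw [bm_eq hi1] at h7
      exact ⟨h7.1.le, h7.2.le⟩
  have hall : ∀ (S : Set V) (b : ℝ), 0 ≤ b → S ⊆ Bx (fl θ₂) →
      ∑ j, ∫⁻ x in S ∩ Co (fl θ₂) ν₁ {0, 2}, ENNReal.ofReal (‖mdl g 1 θ₁ j x‖ ^ p) ≤
        ENNReal.ofReal b →
      En p G Finset.univ S ≤
        ENNReal.ofReal (2 * (C3 * C) * ν * θ₂ + K * (ν * θ₂ + b)) := by
    intro S b hb hS hSb
    rw [ENNReal.ofReal_add (by positivity) (by positivity)]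
    refine (sum_union_le _ _ (show S ⊆ (Bx (fl θ₂) ∩ T) ∪ (S \ T) from ?_)).trans
      (add_le_add hthin (hfat S b hb hS hSb))
    intro x hx
    by_cases hxT : x ∈ T
    · exact Or.inl ⟨hS hx, hxT⟩
    · exact Or.inr ⟨hx, hxT⟩
  have hν1 : ν ≤ 1 := by linarith
  refine ⟨G, Vale.Agent.P073.SQ.isDiffeo_comp i1 hg.diffeo, i2 hg.close, ?_, ?_, ?_⟩
  · -- bulk
    refine (hall _ (C * θ₂) (by positivity) subset_rfl (by rw [sum_mdl hp]; exact hg.pl)).trans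
      (ENNReal.ofReal_le_ofReal ?_)
    have q1 : 2 * (C3 * C) * ν * θ₂ ≤ 2 * (C3 * C) * 1 * θ₂ := by gcongr
    have q2 : K * (ν * θ₂ + C * θ₂) ≤ K * (1 * θ₂ + 3 * C * θ₂) := by
      gcongr
      linarith
    calc _ ≤ 2 * (C3 * C) * 1 * θ₂ + K * (1 * θ₂ + 3 * C * θ₂) := add_le_add q1 q2
      _ = _ := by ring
  · -- frame
    refine (hall _ (3 * C * ν * θ₂) (by positivity) inter_subset_left
      (sum_mdl_frameC hp hC.le hθ₂.le hν0.le g hg.pl hg.plFrame)).trans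
      (ENNReal.ofReal_le_ofReal (le_of_eq ?_))
    ring
  · -- the middle plane
    have hpt : ∀ x ∈ Bx (1 : V) ∩ Co 1 ν {0, 1}, ∀ j,
        ‖fderiv ℝ G (Function.update x 2 θ₂) (ev j) -
          mdl g 1 θ₁ j (Function.update x 2 θ₂)‖ ≤ e4 := by
      intro x hx j
      obtain ⟨m1, m2, m3, m4⟩ := mid_pos hlat hν₁0 hν₁ hν4 hθ₂ hθν hδ2 hx
      exact i4 _ m1 m2 m3 m4 j
    refine (mid_le hp hK hL1 g G hpt he40.le hel0.le hg.line).trans ?_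
    apply ENNReal.ofReal_le_ofReal
    rw [he4p, hel]
    have : K * (2 * (ε / (4 * K)) + ε / (4 * K)) = 3 / 4 * ε := by field_simp; ring
    rw [this]
    linarith

/-- **rank one: the weak beam output gives the flat output** -/
theorem specFlat_of_beamC {p : ℝ} (hp : 1 ≤ p) {L : V →L[ℝ] V} (hL1 : L (ev 1) = 0)
    (hL2 : L (ev 2) = 0) (h : SpecBeamC p L) : SpecFlat p L :=
  specUncollapse1C H732.specU1 H732.specU2 H16.specU3 H190.specU4 H190.specU5 H190.specU6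
    p L hp hL1 hL2 h

end Vale.Agent.P073.H761
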